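import Vale.Agent.P166.Rsb.CavPins
import Vale.Agent.P166.Rsb.FormulaCavity
import Vale.Agent.P166.Rsb.Energy.KerAlg
import Vale.Agent.P157.Cube2.SpinFacts

/-!
# P166: `algStmt`, the gain at the exact weights

The kernel `D` of the last block fixes the spin kernel `V = swapV D`; after division by the mass
`M = combV k V id` it is a path, on which the tilts give the R-transform and the energy, up to `|M - 1|`.
-/

open Real Finset
open Vale.Agent.P157.Rsb (lev vOf IsPath tail mass)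
open Vale.Agent.P157.Cube2 (IsVar spinG spinObj bump)
open Vale.Agent.P166.Rsb.Slot (IsKer)

namespace Vale.Agent.P166.Rsb

variable {d k p : ℕ} {V W : ℕ → ℝ}

theorem combV_congr {φ ψ : ℝ → ℝ} (h : ∀ j ≤ k, φ (V j) = ψ (W j)) : combV k V φ = combV k W ψ := by
  rw [combV, combV, h k le_rfl]
  refine congrArg _ (sum_congr rfl fun i hi => ?_)
  rw [h i (mem_range.1 hi).le, h (i + 1) (mem_range.1 hi)]

theorem combV_sub (φ ψ : ℝ → ℝ) :
    combV k V (fun x => φ x - ψ x) = combV k V φ - combV k V ψ := by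
  rw [combV, combV, combV, add_sub_add_comm, ← sum_sub_distrib]
  exact congrArg _ (sum_congr rfl fun i _ => by ring)

theorem combV_const_mul (c : ℝ) (φ : ℝ → ℝ) : combV k V (fun x => c * φ x) = c * combV k V φ := by
  rw [combV, combV, mul_add, mul_sum]
  exact congrArg _ (sum_congr rfl fun i _ => by ring)

theorem combV_sum {ι : Type*} (s : Finset ι) (f : ι → ℝ → ℝ) :
    combV k V (fun x => ∑ i ∈ s, f i x) = ∑ i ∈ s, combV k V (f i) := by
  simp only [combV, sum_add_distrib, ← sum_sub_distrib, sum_div]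
  rw [sum_comm]

/-- Decreasing tail variables are those of a path, after normalisation. -/
theorem imgQ_path (h0 : 0 ≤ V k) (h : ∀ i < k, V (i + 1) ≤ V i) {M : ℝ} (hM : 0 < M)
    (hMV : combV k V (fun v => v) = M) :
    IsPath k (fun l => imgQ k V l / M) ∧ ∀ j ≤ k, vOf k (fun l => imgQ k V l / M) j = V j / M := by
  set q : ℕ → ℝ := fun l => imgQ k V l / M with hq
  have hstep : ∀ i, q (i + 1) - q i = (V i - V (i + 1)) / lev k (i + 1) / M := fun i => by
    simp only [hq, imgQ, sum_range_succ]; ring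
  have hk : imgQ k V k = M - V k := by rw [← hMV, combV, imgQ]; ring
  refine ⟨⟨by simp [hq, imgQ], fun i hi => ?_, ?_⟩, fun j hj => ?_⟩
  · have := div_nonneg (div_nonneg (sub_nonneg.2 (h i hi)) (lev_pos' k i).le) hM.le
    linarith [hstep i]
  · simp only [hq, hk]
    rw [div_le_one hM]
    linarith
  · refine Nat.decreasingInduction (motive := fun j _ => vOf k q j = V j / M) (fun i hi ih => ?_) ?_ hj
    · rw [vOf_step hi, ih, hstep i]
      have := (lev_pos' k i).ne'
      field_simp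
      ring
    · rw [vOf_top]
      simp only [hq, hk]
      field_simp
      ring

variable {T b : Fin p → ℝ} {D : ℕ → ℝ}

/-- A tilt is increasing in the kernel, with slope at most the square of the couplings. -/
theorem tiltF_sub (hT : ∀ r, 0 ≤ T r) {u v : ℝ} (hv : 0 ≤ v) (h : v ≤ u) :
    0 ≤ tiltF T b u - tiltF T b v ∧ tiltF T b u - tiltF T b v ≤ (∑ r, b r ^ 2) * (u - v) := by
  have e : ∀ r, b r ^ 2 * u / (1 + T r * u) - b r ^ 2 * v / (1 + T r * v)
      = b r ^ 2 * (u - v) / ((1 + T r * u) * (1 + T r * v)) := fun r => by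
    have h1 : 1 + T r * u ≠ 0 := (lt_add_of_pos_of_le one_pos (mul_nonneg (hT r) (hv.trans h))).ne'
    have h2 : 1 + T r * v ≠ 0 := (lt_add_of_pos_of_le one_pos (mul_nonneg (hT r) hv)).ne'
    rw [div_sub_div _ _ h1 h2]
    congr 1
    ring
  have h1 : ∀ r, 1 ≤ (1 + T r * u) * (1 + T r * v) := fun r => one_le_mul_of_one_le_of_one_le
    (le_add_of_nonneg_right (mul_nonneg (hT r) (hv.trans h)))
    (le_add_of_nonneg_right (mul_nonneg (hT r) hv))
  have h2 : ∀ r, 0 ≤ b r ^ 2 * (u - v) := fun r => mul_nonneg (sq_nonneg _) (sub_nonneg.2 h)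
  simp only [tiltF, ← sum_sub_distrib, sum_mul, e]
  exact ⟨sum_nonneg fun r _ => div_nonneg (h2 r) (zero_le_one.trans (h1 r)),
    sum_le_sum fun r _ => div_le_self (h2 r) (h1 r)⟩

theorem tiltR_isVar (hT : ∀ r, 0 ≤ T r) (h0 : ∀ j ≤ k, 0 ≤ D j) (h : ∀ i < k, D (i + 1) ≤ D i) :
    IsVar k (tiltR k T b D) ∧
      tiltR k T b D k ≤ (∑ r, b r ^ 2) * ∑ i ∈ range k, (D i - D (i + 1)) / lev k (i + 1) := by
  refine ⟨⟨by simp [tiltR], fun j hj => ?_⟩, ?_⟩
  · rw [tiltR, tiltR, sum_range_succ]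
    exact le_add_of_nonneg_right (div_nonneg (tiltF_sub hT (h0 _ hj) (h j hj)).1 (lev_pos' k j).le)
  · rw [tiltR, mul_sum]
    refine sum_le_sum fun i hi => ?_
    have hi := mem_range.1 hi
    rw [← mul_div_assoc]
    exact div_le_div_of_nonneg_right (tiltF_sub hT (h0 _ hi) (h i hi)).2 (lev_pos' k i).le

/-- The coupling of the added direction is at most the spread of the values over the top weight. -/
theorem Secular.cpl_sq_le (S : Secular d) (r : Fin d) :
    S.cpl r ^ 2 ≤ (S.a (Fin.last d) - S.a r.castSucc) ^ 2 / S.ω (Fin.last d) := by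
  have hn : S.ω (Fin.last d) / (S.ν r - S.a (Fin.last d)) ^ 2 ≤ S.nrm r :=
    single_le_sum (f := fun e => S.ω e / (S.ν r - S.a e) ^ 2)
      (fun e _ => div_nonneg (S.pos e).le (sq_nonneg _)) (mem_univ (Fin.last d))
  have hs : 0 < (S.ν r - S.a (Fin.last d)) ^ 2 := sq_pos_of_ne_zero (S.ν_sub_ne r _)
  rw [Secular.cpl, div_pow, neg_one_sq, sq_sqrt (S.nrm_pos r).le]
  calc 1 / S.nrm r ≤ 1 / (S.ω (Fin.last d) / (S.ν r - S.a (Fin.last d)) ^ 2) :=
        one_div_le_one_div_of_le (div_pos (S.pos _) hs) hn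
    _ = (S.ν r - S.a (Fin.last d)) ^ 2 / S.ω (Fin.last d) := one_div_div _ _
    _ ≤ _ := by
        refine div_le_div_of_nonneg_right ?_ (S.pos _).le
        rw [← neg_sub, neg_sq]
        exact pow_le_pow_left₀ (sub_nonneg.2 (S.ν_lt_top r).le) (by linarith [(S.ν_mem r).1]) 2

theorem Secular.tT_nonneg (S : Secular d) {β : ℝ} (hβ : 0 ≤ β) (r : Fin d) : 0 ≤ S.tT β r :=
  mul_nonneg hβ (sub_nonneg.2 (S.ν_lt_top r).le)

theorem tiltF_gain (S : Secular d) (β : ℝ) (e : Fin (d + 1)) (x : ℝ) :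
    tiltF (S.gainT β 0 0 e) (S.gainB β) x = tiltF (S.tT β) (S.tB β) x := by
  simp [tiltF, Fin.sum_univ_castSucc, Secular.gainT, Secular.gainB]

namespace Atoms

variable (A : Atoms d) {β u : ℝ}

theorem swapK_last (β u : ℝ) : A.swapK β (Fin.last d) u = u := by simp [swapK, top]

theorem swapV_zero (β : ℝ) : A.swapV β 0 = 0 := by simp [swapV, swapK]

/-- The spin kernel moves at least by the top weight. -/
theorem top_mul_le_swapV_sub (hβ : 0 < β) {v : ℝ} (hv : 0 ≤ v) (h : v ≤ u) :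
    A.w (Fin.last d) * (u - v) ≤ A.swapV β u - A.swapV β v := by
  rw [swapV, swapV, ← sum_sub_distrib]
  refine le_trans (le_of_eq ?_) (single_le_sum (f := fun e => A.w e * A.swapK β e u - A.w e * A.swapK β e v)
    (fun e _ => ?_) (mem_univ (Fin.last d)))
  · simp only [A.swapK_last]; ring
  · rw [← mul_sub]; exact mul_nonneg (A.w_pos e).le (A.swapK_sub_le hβ e hv h).1

theorem swapV_pos (hβ : 0 < β) (hu : 0 < u) : 0 < A.swapV β u := by
  have h := A.top_mul_le_swapV_sub hβ le_rfl hu.le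
  rw [A.swapV_zero, sub_zero, sub_zero] at h
  exact lt_of_lt_of_le (mul_pos (A.w_pos _) hu) h

/-- The factor of a tilt at the kernel `u` in the spectral variable of its spin kernel. -/
theorem swap_ratio (hβ : 0 < β) (hu : 0 < u) (x : ℝ) :
    1 + β * (A.top - x) * u
      = (A.zOf (β * A.swapV β u) - x) / (A.zOf (β * A.swapV β u) - A.top) := by
  have hV := A.swapV_pos hβ hu
  have hz := sub_pos.2 (A.secular_g_zOf (mul_pos hβ hV)).1
  have hk := A.kap_swapV hβ (Fin.last d) hu.le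
  rw [A.kap_eq hβ _ hV, A.swapK_last, ← top] at hk
  conv_lhs => rw [← hk]
  field_simp
  ring

theorem log_ratio (hβ : 0 < β) (hu : 0 < u) {x : ℝ} (hx : x ≤ A.top) :
    log (1 + β * (A.top - x) * u)
      = log (A.zOf (β * A.swapV β u) - x) - log (A.zOf (β * A.swapV β u) - A.top) := by
  have hz := (A.secular_g_zOf (mul_pos hβ (A.swapV_pos hβ hu))).1
  rw [A.swap_ratio hβ hu, log_div (sub_pos.2 (hx.trans_lt hz)).ne' (sub_pos.2 hz).ne']

/-- The variance of the field on the new spin is the R-transform less the mean. -/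
theorem tiltF_secular (hβ : 0 < β) (hu : 0 ≤ u) :
    tiltF (A.secular.tT β) (A.secular.tB β) u
      = β * (rA A.a A.w (β * A.swapV β u) - A.secular.mean) := by
  rcases hu.eq_or_lt with rfl | hu
  · simp [tiltF, A.swapV_zero, rA, meanA, Secular.mean, secular]
  have hV := mul_pos hβ (A.swapV_pos hβ hu)
  rw [← A.schur_zOf hV, mul_sum, tiltF]
  refine sum_congr rfl fun r _ => ?_
  have hz := (A.secular_g_zOf hV).1
  have h1 : A.zOf (β * A.swapV β u) - A.top ≠ 0 := (sub_pos.2 hz).ne'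
  have h2 : A.zOf (β * A.swapV β u) - A.secular.ν r ≠ 0 :=
    (sub_pos.2 ((A.secular.ν_lt_top r).trans hz)).ne'
  have e : A.secular.tT β r = β * (A.top - A.secular.ν r) := rfl
  have hk := A.kap_swapV hβ (Fin.last d) hu.le
  rw [A.kap_eq hβ _ (A.swapV_pos hβ hu), A.swapK_last, ← top] at hk
  rw [e, A.swap_ratio hβ hu, Secular.tB]
  generalize A.zOf (β * A.swapV β u) = z at *
  subst hk
  field_simp

/-- The tilts of the gain less those of the base are the energy and its derivative. -/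
theorem log_gain (hβ : 0 < β) (hu : 0 ≤ u) :
    ∑ e, A.w e * (∑ r, log (1 + A.secular.gainT β 0 0 e r * u))
        - ∑ f, log (1 + baseT β A.a 0 f * u)
      = hA A.a A.w (β * A.swapV β u) - 2 * gA A.a A.w (β * A.swapV β u) := by
  rcases hu.eq_or_lt with rfl | hu
  · simp [A.swapV_zero, gA, IsSpec.hA_zero A.a A.w le_rfl]
  rw [← A.sum_tilt (mul_pos hβ (A.swapV_pos hβ hu))]
  set z := A.zOf (β * A.swapV β u)
  have hg : ∀ e, ∑ r, log (1 + A.secular.gainT β 0 0 e r * u)
      = ∑ r, log (z - A.secular.ν r) + log (z - A.a e) - (d + 1) * log (z - A.top) := fun e => by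
    have hl : (if e = Fin.last d then 0 else β * (A.top - A.a e)) = β * (A.top - A.a e) := by
      split_ifs with h
      · simp [h, top]
      · rfl
    have e1 : ∀ r, A.secular.tT β r = β * (A.top - A.secular.ν r) := fun r => rfl
    have e2 : A.secular.a (Fin.last d) - A.secular.a e = A.top - A.a e := rfl
    simp only [Secular.gainT, Fin.sum_univ_castSucc, Fin.snoc_castSucc, Fin.snoc_last, add_zero, e1,
      e2, hl, A.log_ratio hβ hu (A.mono.monotone (Fin.le_last e)),
      fun r => A.log_ratio hβ hu (A.secular.ν_lt_top r).le, sum_sub_distrib, sum_const, card_univ,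
      Fintype.card_fin, nsmul_eq_mul]
    ring
  have hb : ∑ f, log (1 + baseT β A.a 0 f * u)
      = ∑ c, log (z - A.a c) - (d + 1) * log (z - A.top) := by
    simp only [baseT, add_zero, show A.a (Fin.last d) = A.top from rfl, fun f : Fin d =>
      A.log_ratio hβ hu (A.mono.monotone (Fin.le_last f.castSucc)), sum_sub_distrib, sum_const,
      card_univ, Fintype.card_fin, nsmul_eq_mul, Fin.sum_univ_castSucc fun c => log (z - A.a c)]
    ring
  have hone : ∀ x : ℝ, x = ∑ e, A.w e * x := fun x => by rw [← sum_mul, A.w_sum, one_mul]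
  rw [hb, hone (∑ c, log (z - A.a c) - _), ← sum_sub_distrib]
  refine sum_congr rfl fun e _ => ?_
  rw [hg e]
  ring

theorem abs_rA_le {a : ℝ} (ha : ∀ e, |A.a e| ≤ a) (x : ℝ) : |rA A.a A.w x| ≤ a := by
  have h1 : |meanA A.a A.w| ≤ a := by
    calc |meanA A.a A.w| ≤ ∑ e, |A.w e * A.a e| := abs_sum_le_sum_abs _ _
      _ ≤ ∑ e, A.w e * a := sum_le_sum fun e _ => by
          rw [abs_mul, abs_of_pos (A.w_pos e)]; exact mul_le_mul_of_nonneg_left (ha e) (A.w_pos e).le
      _ = a := by rw [← sum_mul, A.w_sum, one_mul]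
  have h2 := A.isSpec.rA_le_top (a := A.a) x
  rw [A.topA_eq] at h2
  rw [abs_le]
  exact ⟨by linarith [(abs_le.1 h1).1, A.isSpec.meanA_le_rA (a := A.a) x],
    by linarith [(abs_le.1 (ha (Fin.last d))).2, show A.top = A.a (Fin.last d) from rfl]⟩

theorem eng_dist_le {q : ℕ → ℝ} (hq : IsPath k q) {s t : ℝ} (hs : 0 < s) (ht : 0 < t) :
    |eng A.law A.top t k q - eng A.law A.top s k q| ≤ (∑ c, |A.a c|) / 2 * |t - s| :=
  (convex_Ioi (0 : ℝ)).norm_image_sub_le_of_norm_hasDerivWithin_le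
    (fun _ hx => (A.hasDerivAt_eng hx hq).hasDerivWithinAt) (fun _ hx => A.abs_eAt_le hx hq) hs ht

end Atoms

theorem sum_abs_up_le (A : Atoms d) {h : ℝ} (h0 : 0 ≤ h) (h1 : h ≤ 1) :
    ∑ e, |(A.up h).a e| ≤ ∑ e, |A.a e| + 1 := by
  refine (sum_le_sum fun e _ => abs_add_le _ _).trans ?_
  rw [sum_add_distrib]
  refine add_le_add le_rfl ?_
  rw [sum_eq_single (Fin.last d) (fun e _ he => by simp [he]) (by simp), if_pos rfl, max_eq_left h0,
    abs_of_nonneg h0]
  exact h1

theorem algStmt : AlgStmt := by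
  intro d A β hβ
  set A1 := ∑ e, |A.a e| + 1 with hA1
  set wt := A.w (Fin.last d) with hwt
  have hA1p : 0 < A1 := by positivity
  have hwtp : 0 < wt := A.w_pos _
  set R := d * (β ^ 2 * ((2 * A1) ^ 2 / wt)) * (2 / wt) with hR
  have hR0 : 0 ≤ R := by positivity
  refine ⟨R + β * A1, 1 / 2, by positivity, one_half_pos, fun h h0 h1 k K P hk hK => ?_⟩
  set B := A.up h
  intro V M S r q hM
  have hSB : S = B.secular := rfl
  have hBw : B.w = A.w := rfl
  set D := dOfK k K P with hD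
  have hE : Energy.IsKer k K P P := ⟨hK.1, hK.2.1, hK.2.2, le_rfl⟩
  have hD0 : ∀ j, 0 ≤ D j := hE.kv_nonneg
  have hDs : ∀ i < k, D (i + 1) ≤ D i := fun i hi => hE.kv_anti hi
  have hVD : ∀ j, V j = B.swapV β (D j) := fun j => rfl
  have hVs : ∀ i < k, wt * (D i - D (i + 1)) ≤ V i - V (i + 1) := fun i hi =>
    B.top_mul_le_swapV_sub hβ (hD0 _) (hDs i hi)
  have hVk : wt * D k ≤ V k := by
    have := B.top_mul_le_swapV_sub hβ le_rfl (hD0 k)
    rw [B.swapV_zero, sub_zero, sub_zero] at this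
    exact this
  have hKi : ∀ i ∈ range k, (D i - D (i + 1)) / lev k (i + 1) = K (i + 1) - K i := fun i hi => by
    rw [hD, show dOfK k K P i = Energy.kv k K P i from rfl,
      show dOfK k K P (i + 1) = Energy.kv k K P (i + 1) from rfl, Energy.kv_step (mem_range.1 hi),
      add_sub_cancel_left, mul_div_cancel_left₀ _ (lev_pos' k i).ne']
  have hKk : ∑ i ∈ range k, (D i - D (i + 1)) / lev k (i + 1) = K k := by
    rw [sum_congr rfl hKi, sum_range_sub K, hK.1, sub_zero]
  obtain ⟨hMl, hMu⟩ := abs_le.1 hM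
  have hPM : wt * P ≤ M := by
    calc wt * P = wt * D k + wt * ∑ i ∈ range k, (D i - D (i + 1)) / lev k (i + 1) := by
          rw [hKk, hD, show dOfK k K P k = Energy.kv k K P k from rfl, Energy.kv_top]; ring
      _ ≤ V k + ∑ i ∈ range k, (V i - V (i + 1)) / lev k (i + 1) := by
          rw [mul_sum]
          refine add_le_add hVk (sum_le_sum fun i hi => ?_)
          rw [← mul_div_assoc]
          exact div_le_div_of_nonneg_right (hVs i (mem_range.1 hi)) (lev_pos' k i).le
      _ = M := rfl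
  have hP : P ≤ 2 / wt := by
    rw [le_div_iff₀ hwtp]; linarith [mul_comm wt P]
  have hM0 : 0 < M := by linarith
  obtain ⟨hq, hv⟩ := imgQ_path (V := V) (B.swapV_nonneg hβ (hD0 k))
    (fun i hi => by nlinarith [hVs i hi, hDs i hi]) hM0 rfl
  obtain ⟨hrV, hrk⟩ := tiltR_isVar (b := S.tB β) (D := D) (fun f => S.tT_nonneg hβ.le f)
    (fun j _ => hD0 j) hDs
  have hBa : ∀ e, |B.a e| ≤ A1 := fun e =>
    (single_le_sum (f := fun e => |B.a e|) (fun _ _ => abs_nonneg _) (mem_univ e)).trans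
      (sum_abs_up_le A h0 h1)
  have hb : ∑ f, S.tB β f ^ 2 ≤ d * (β ^ 2 * ((2 * A1) ^ 2 / wt)) := by
    refine (sum_le_card_nsmul univ _ (β ^ 2 * ((2 * A1) ^ 2 / wt)) fun f _ => ?_).trans (le_of_eq (by simp))
    rw [Secular.tB, mul_pow]
    refine mul_le_mul_of_nonneg_left ((S.cpl_sq_le f).trans (div_le_div_of_nonneg_right
      (pow_le_pow_left₀ ?_ ?_ 2) hwtp.le)) (sq_nonneg _)
    · exact sub_nonneg.2 (B.mono.monotone (Fin.le_last _))
    · linarith [(abs_le.1 (hBa (Fin.last d))).2, (abs_le.1 (hBa f.castSucc)).1,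
        show S.a (Fin.last d) = B.a (Fin.last d) from rfl, show S.a f.castSucc = B.a f.castSucc from rfl]
  have hrR : r k ≤ R := by
    refine hrk.trans ?_
    rw [hKk]
    exact mul_le_mul hb (hK.2.2.trans hP) (hE.nonneg le_rfl) (by positivity)
  have hge : ∀ e, tiltR k (S.gainT β 0 0 e) (S.gainB β) D = r := fun e => funext fun j => by
    simp only [r, tiltR, tiltF_gain, hD]
  refine ⟨hq, hrV, hrR.trans (le_add_of_nonneg_right (by positivity)), hge, ?_⟩
  -- the values on the path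
  set φ : ℝ → ℝ := fun v => β * rA B.a B.w (β * (M * v)) with hφ
  have hMv : ∀ j ≤ k, M * vOf k q j = V j := fun j hj => by
    rw [hv j hj, mul_div_cancel₀ _ hM0.ne']
  have hF : ∀ j ≤ k, tiltF (S.tT β) (S.tB β) (D j) = φ (vOf k q j) - β * S.mean := fun j hj => by
    rw [hSB, B.tiltF_secular hβ (hD0 j), hφ]
    simp only [hMv j hj, hVD j]
    ring
  have hr : ∀ l ≤ k, r l = ∑ j ∈ Icc 1 l, kerInc k q φ j := fun l hl => by
    rw [P157.Rsb.sum_Icc_one]
    refine sum_congr rfl fun i hi => ?_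
    have hi : i < k := (mem_range.1 hi).trans_le hl
    rw [kerInc, Nat.add_sub_cancel, hF i hi.le, hF (i + 1) hi]
    ring
  set pr := P157.Rsb.mass k * ∑ l ∈ Icc 1 k, q l * r l with hpr
  have hpr' : ∑ j ∈ Icc 1 k, tail k q j * kerInc k q φ j = pr := by
    rw [sum_tail_mul]
    exact congrArg _ (sum_congr rfl fun l hl => by rw [hr l (mem_Icc.1 hl).2])
  have hlog : ∑ e, B.w e * (∑ f, combV k D fun x => log (1 + S.gainT β 0 0 e f * x))
      - ∑ f, combV k D (fun x => log (1 + baseT β B.a 0 f * x))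
      = M * (φ (vOf k q k) + r k - pr) - 2 * eng B.law B.top (β * M) k q := by
    rw [hr k le_rfl, ← hpr', ← comb_mul hq.1 φ, B.eng_eq]
    simp only [← combV_sum, ← combV_const_mul, ← combV_sub]
    show _ = M * combV k (vOf k q) (fun v => v * φ v)
      - 2 * combV k (vOf k q) (fun v => gA B.a B.w (β * M * v))
    rw [← combV_const_mul, ← combV_const_mul, ← combV_sub]
    refine combV_congr fun j hj => ?_
    rw [hSB, B.log_gain hβ (hD0 j), mul_assoc β, hMv j hj, ← hVD j,
      B.isSpec.hA_eq_mul_rA (mul_nonneg hβ.le (show 0 ≤ V j from B.swapV_nonneg hβ (hD0 j)))]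
    simp only [hφ, hMv j hj]
    rw [← hMv j hj]
    ring
  -- the two values
  have hbump : ∀ f : ℕ → ℝ, bump f 1 0 = f := fun f => funext fun l => by simp [bump]
  have hgain : ∀ e, tiltV k (S.gainT β 0 0 e) (S.gainB β) K P 1 0 =
      (φ (vOf k q k) - β * S.mean) / 2 + r k / 2 + spinG k r
        - (∑ f, combV k D fun x => log (1 + S.gainT β 0 0 e f * x)) / 2 := fun e => by
    rw [tiltV, ← hD, hge e, hbump, tiltF_gain, hF k le_rfl]
  have hbase : tiltV k (baseT β B.a 0) (fun _ => 0) K P 1 0 =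
      -(∑ f, combV k D fun x => log (1 + baseT β B.a 0 f * x)) / 2 := by
    have e0 : ∀ x, tiltF (baseT β B.a 0) (fun _ => 0) x = 0 := fun x => by simp [tiltF]
    have e1 : tiltR k (baseT β B.a 0) (fun _ => 0) D = fun _ => 0 := funext fun j => by simp [tiltR, e0]
    have e2 : spinG k (fun _ => (0 : ℝ)) = 0 := by
      simp [spinG, P157.Cube2.spinF_zero (Nat.zero_le k)]
    rw [tiltV, ← hD, e0, e1, hbump, e2]
    ring
  have hlhs : ∑ e, A.w e * (β * S.mean / 2 + tiltV k (S.gainT β 0 0 e) (S.gainB β) K P 1 0)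
      - tiltV k (baseT β B.a 0) (fun _ => 0) K P 1 0
      = φ (vOf k q k) / 2 + r k / 2 + spinG k r
        - (M * (φ (vOf k q k) + r k - pr) - 2 * eng B.law B.top (β * M) k q) / 2 := by
    rw [← hlog, hbase]
    simp only [hgain, mul_add, mul_sub, sum_add_distrib, sum_sub_distrib, ← sum_mul, A.w_sum,
      one_mul, hBw, mul_div, ← sum_div]
    ring
  rw [hlhs, spinObj, show P157.Rsb.mass k / 2 * ∑ l ∈ Icc 1 k, q l * r l = pr / 2 by rw [hpr]; ring]
  -- the error
  have hrnn : ∀ j ≤ k, 0 ≤ r j ∧ r j ≤ r k := fun j hj =>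
    ⟨P157.Cube2.isVar_nonneg hrV hj, P157.Cube2.isVar_le hrV hj le_rfl⟩
  have hqm := fun j (hj : j ≤ k) => P157.Cube2.isPath_mem hq hj
  have hpr0 : 0 ≤ pr ∧ pr ≤ r k := by
    have hm : 0 ≤ P157.Rsb.mass k := by unfold P157.Rsb.mass; positivity
    refine ⟨mul_nonneg hm (sum_nonneg fun l hl => mul_nonneg (hqm l (mem_Icc.1 hl).2).1
      (hrnn l (mem_Icc.1 hl).2).1), ?_⟩
    calc pr ≤ P157.Rsb.mass k * ∑ _l ∈ Icc 1 k, r k := by
          refine mul_le_mul_of_nonneg_left (sum_le_sum fun l hl => ?_) hm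
          have hl := (mem_Icc.1 hl).2
          exact le_trans (mul_le_of_le_one_left (hrnn l hl).1 (hqm l hl).2) (hrnn l hl).2
      _ = ((k : ℝ) / (k + 1)) * r k := by
          simp [P157.Rsb.mass]; ring
      _ ≤ r k := mul_le_of_le_one_left (hrnn k le_rfl).1
          (by rw [div_le_one (by positivity)]; linarith)
  have hφk : |φ (vOf k q k)| ≤ β * A1 := by
    rw [hφ, abs_mul, abs_of_pos hβ]
    exact mul_le_mul_of_nonneg_left (B.abs_rA_le hBa _) hβ.le
  have heng : |eng B.law B.top (β * M) k q - eng B.law B.top β k q| ≤ A1 / 2 * (β * |M - 1|) := by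
    refine (B.eng_dist_le hq hβ (mul_pos hβ hM0)).trans ?_
    rw [show β * M - β = β * (M - 1) by ring, abs_mul, abs_of_pos hβ]
    exact mul_le_mul_of_nonneg_right (by linarith [sum_abs_up_le A h0 h1]) (by positivity)
  have e : φ (vOf k q k) / 2 + r k / 2 + spinG k r
        - (M * (φ (vOf k q k) + r k - pr) - 2 * eng B.law B.top (β * M) k q) / 2
      - (spinG k r + pr / 2 + eng B.law B.top β k q)
      = (1 - M) * ((φ (vOf k q k) + r k - pr) / 2)
        + (eng B.law B.top (β * M) k q - eng B.law B.top β k q) := by ring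
  rw [e]
  refine (abs_add_le _ _).trans ?_
  rw [abs_mul, abs_sub_comm]
  have h2 : |(φ (vOf k q k) + r k - pr) / 2| ≤ (β * A1 + R) / 2 := by
    rw [abs_div, abs_two]
    refine div_le_div_of_nonneg_right (abs_le.2 ?_) zero_le_two
    constructor <;> linarith [(abs_le.1 hφk).1, (abs_le.1 hφk).2, hpr0.1, hpr0.2, (hrnn k le_rfl).1]
  have h3 := mul_le_mul_of_nonneg_left h2 (abs_nonneg (M - 1))
  nlinarith [abs_nonneg (M - 1)]

end Vale.Agent.P166.Rsb
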