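import Vale.Agent.P166.Rsb.CavPins
import Vale.Agent.P166.Rsb.HaarVar

/-!
# P166: one column of a Haar rotation
-/

open MeasureTheory Matrix Real

namespace Vale.Agent.P166.Rsb

variable {N : ℕ}

theorem col_coord_abs_le {U : Fin N → Fin N → ℝ} (hU : IsOrth U) (j : Fin N) (v : Fin N → ℝ) :
    |v ⬝ᵥ app U (bas j)| ≤ ∑ i, |v i| := by
  refine (Finset.abs_sum_le_sum_abs _ _).trans (Finset.sum_le_sum fun i _ => ?_)
  rw [abs_mul, app_bas]
  exact mul_le_of_le_one_right (abs_nonneg _) (hU.abs_le i j)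

theorem continuous_col_dot (j : Fin N) (v : Fin N → ℝ) :
    Continuous fun U : Fin N → Fin N → ℝ => v ⬝ᵥ app U (bas j) := by
  simp only [dotProduct, app_bas]
  fun_prop

theorem integrable_col_pow {m : Measure (Fin N → Fin N → ℝ)} (hm : IsHaarOrth m) (j : Fin N)
    (v : Fin N → ℝ) (n : ℕ) : Integrable (fun U => (v ⬝ᵥ app U (bas j)) ^ n) m :=
  integrable_of_bound hm ((continuous_col_dot j v).pow n) fun U hU => by
    rw [abs_pow]; exact pow_le_pow_left₀ (abs_nonneg _) (col_coord_abs_le hU j v) n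

theorem col_pow_dir {m : Measure (Fin N → Fin N → ℝ)} (hm : IsHaarOrth m) (j b : Fin N) {v : Fin N → ℝ}
    (hv : v ⬝ᵥ v = 1) (n : ℕ) :
    ∫ U, (v ⬝ᵥ app U (bas j)) ^ n ∂m = ∫ U, U b j ^ n ∂m := by
  have hR : IsOrth (hh b v) := isOrth_hh hv
  rw [← P166.integral_left hm hR (f := fun U => U b j ^ n) (((continuous_apply j).comp (continuous_apply b)).pow n)]
  refine integral_congr_ae (ae_of_all _ fun U => ?_)
  dsimp only
  rw [← app_bas (P166.mul (hh b v) U) j b, app_mul, ← dot_bas (app (hh b v) _) b,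
    dotProduct_comm _ (bas b), app_transpose_dot (hh b v) (bas b), tr_hh, app_hh_bas hv]

/-- The squared components of a column are exchangeable, with the fourth moments of a uniform direction. -/
theorem col_moments {m : Measure (Fin N → Fin N → ℝ)} (hm : IsHaarOrth m) (j : Fin N) :
    (∀ a, ∫ U, U a j ^ 2 ∂m = 1 / N) ∧ (∀ a, ∫ U, U a j ^ 4 ∂m = 3 / (N * (N + 2))) ∧
      ∀ a b, a ≠ b → ∫ U, U a j ^ 2 * U b j ^ 2 ∂m = 1 / (N * (N + 2)) := by
  have := hm.1
  have hN : (0 : ℝ) < N := by exact_mod_cast j.pos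
  have hb : ∀ a : Fin N, bas a ⬝ᵥ bas a = 1 := fun a => by rw [dot_bas]; simp [bas]
  have hd : ∀ (a : Fin N) (U : Fin N → Fin N → ℝ), bas a ⬝ᵥ app U (bas j) = U a j := fun a U => by
    rw [dotProduct_comm, dot_bas, app_bas]
  have hp : ∀ a n, ∫ U, U a j ^ n ∂m = ∫ U, U j j ^ n ∂m := fun a n => by
    rw [← col_pow_dir hm j j (hb a) n]
    simp only [hd]
  have hi : ∀ a n, Integrable (fun U : Fin N → Fin N → ℝ => U a j ^ n) m := fun a n => by
    simpa only [hd] using integrable_col_pow hm j (bas a) n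
  have hu : ∀ᵐ U ∂m, ∑ a, U a j ^ 2 = 1 := hm.2.1.mono fun U hU => by
    simpa [sq] using hU.2 j j
  have h2 : ∀ a, ∫ U, U a j ^ 2 ∂m = 1 / N := fun a => by
    have h := integral_congr_ae hu
    rw [integral_finsetSum _ fun a _ => hi a 2] at h
    simp only [fun a => hp a 2, Finset.sum_const, Finset.card_univ, Fintype.card_fin, nsmul_eq_mul,
      integral_const, probReal_univ, one_smul] at h
    rw [hp a 2, eq_div_iff hN.ne']
    linarith
  set M := ∫ U, U j j ^ 4 ∂m
  have iab : ∀ a b, Integrable (fun U : Fin N → Fin N → ℝ => U a j ^ 2 * U b j ^ 2) m := fun a b =>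
    integrable_of_bound hm (by fun_prop) (C := 1) fun U hU => by
      rw [abs_mul, abs_pow, abs_pow]
      exact mul_le_one₀ (pow_le_one₀ (abs_nonneg _) (hU.abs_le a j)) (by positivity)
        (pow_le_one₀ (abs_nonneg _) (hU.abs_le b j))
  have hX : ∀ a b, a ≠ b → ∫ U, U a j ^ 2 * U b j ^ 2 ∂m = M / 3 := fun a b hab => by
    set r := (√2)⁻¹ with hr
    have hr2 : r * r = 1 / 2 := by rw [hr, ← mul_inv, mul_self_sqrt zero_le_two]; norm_num
    have hv : ∀ t : ℝ, t * t = 1 → (r • (bas a + t • bas b)) ⬝ᵥ (r • (bas a + t • bas b)) = 1 := fun t ht => by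
      simp only [smul_dotProduct, dotProduct_smul, add_dotProduct, dotProduct_add, dot_bas, smul_eq_mul]
      simp only [bas, Pi.single_eq_same, Pi.single_eq_of_ne hab, Pi.single_eq_of_ne (Ne.symm hab)]
      linear_combination (r * r) * ht + 2 * hr2
    have e1 : ∀ (t : ℝ) U, (r • (bas a + t • bas b)) ⬝ᵥ app U (bas j) = r * (U a j + t * U b j) := fun t U => by
      simp only [smul_dotProduct, add_dotProduct, hd, smul_eq_mul]
    have hu' : ∀ t : ℝ, t * t = 1 → ∫ U, (r * (U a j + t * U b j)) ^ 4 ∂m = M := fun t ht => by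
      rw [show M = ∫ U, U j j ^ 4 ∂m from rfl, ← col_pow_dir hm j j (hv t ht) 4]
      simp only [e1]
    have iu : ∀ t : ℝ, Integrable (fun U : Fin N → Fin N → ℝ => (r * (U a j + t * U b j)) ^ 4) m := fun t => by
      simpa only [e1] using integrable_col_pow hm j (r • (bas a + t • bas b)) 4
    have e3 : ∀ U : Fin N → Fin N → ℝ, (r * (U a j + 1 * U b j)) ^ 4 + (r * (U a j + (-1) * U b j)) ^ 4
        = (U a j ^ 4 + U b j ^ 4) / 2 + 3 * (U a j ^ 2 * U b j ^ 2) := fun U => by
      linear_combination (r * r + 1 / 2) * (2 * U a j ^ 4 + 12 * U a j ^ 2 * U b j ^ 2 + 2 * U b j ^ 4) * hr2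
    have h := integral_congr_ae (μ := m) (ae_of_all _ e3)
    rw [integral_add (iu 1) (iu (-1)), hu' 1 (by norm_num), hu' (-1) (by norm_num),
      integral_add (((hi a 4).fun_add (hi b 4)).div_const 2) ((iab a b).const_mul 3), integral_div,
      integral_add (hi a 4) (hi b 4), hp a 4, hp b 4, integral_const_mul] at h
    linarith
  have hM : M = 3 / (N * (N + 2)) := by
    have hsq : ∀ᵐ U ∂m, ∑ a, ∑ b, U a j ^ 2 * U b j ^ 2 = 1 := hu.mono fun U hU => by
      rw [← Finset.sum_mul_sum, hU, one_mul]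
    have h := integral_congr_ae hsq
    rw [integral_finsetSum _ fun a _ => integrable_finsetSum _ fun b _ => iab a b] at h
    simp only [fun a => integral_finsetSum (Finset.univ : Finset (Fin N)) fun b _ => iab a b] at h
    have e : ∀ a b, ∫ U, U a j ^ 2 * U b j ^ 2 ∂m = M / 3 + if b = a then 2 * M / 3 else 0 := fun a b => by
      by_cases hab : b = a
      · subst hab
        rw [if_pos rfl]
        have e4 : ∀ U : Fin N → Fin N → ℝ, U b j ^ 2 * U b j ^ 2 = U b j ^ 4 := fun U => by ring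
        simp only [e4, hp b 4]
        change M = _
        ring
      · rw [if_neg hab, add_zero, hX a b (Ne.symm hab)]
    simp only [e, Finset.sum_add_distrib, Finset.sum_const, Finset.card_univ, Fintype.card_fin, nsmul_eq_mul,
      Finset.sum_ite_eq', Finset.mem_univ, if_true, integral_const, probReal_univ, one_smul] at h
    rw [eq_div_iff (by positivity)]
    linarith
  refine ⟨h2, fun a => (hp a 4).trans hM, fun a b hab => ?_⟩
  rw [hX a b hab, hM]
  field_simp

/-- Module H, the columns. -/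
theorem columnStmt : ColumnStmt := by
  refine ⟨fun N m hm V hV => (isInv_zero hm).map_right (inK_zero.2 hV), fun d N c m hm e => ?_⟩
  have := hm.1
  set S := Finset.univ.filter fun i => c i = e
  set n : ℝ := ((N + 1 : ℕ) : ℝ) with hn
  have hn0 : 0 < n := by positivity
  obtain ⟨h2, h4, hX⟩ := col_moments hm 0
  have i1 : ∀ a, Integrable (fun U : Fin (N + 1) → Fin (N + 1) → ℝ => U a 0 ^ 2) m := fun a =>
    integrable_of_bound hm (((continuous_apply 0).comp (continuous_apply a)).pow 2) (C := 1) fun U hU => by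
      rw [abs_pow]; exact pow_le_one₀ (abs_nonneg _) (hU.abs_le a 0)
  have i2 : ∀ a b, Integrable (fun U : Fin (N + 1) → Fin (N + 1) → ℝ => U a 0 ^ 2 * U b 0 ^ 2) m := fun a b =>
    integrable_of_bound hm (by fun_prop) (C := 1) fun U hU => by
      rw [abs_mul, abs_pow, abs_pow]
      exact mul_le_one₀ (pow_le_one₀ (abs_nonneg _) (hU.abs_le a 0)) (by positivity)
        (pow_le_one₀ (abs_nonneg _) (hU.abs_le b 0))
  have h1 : ∫ U, colW c U e ∂m = (S.card : ℝ) / n := by
    simp only [colW]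
    rw [integral_finsetSum _ fun a _ => i1 a]
    simp only [h2, Finset.sum_const, nsmul_eq_mul, S, hn]
    ring
  have e5 : ∀ U, colW c U e ^ 2 = ∑ a ∈ S, ∑ b ∈ S, U a 0 ^ 2 * U b 0 ^ 2 := fun U => by
    rw [← Finset.sum_mul_sum, ← sq]; rfl
  have h3 : ∫ U, colW c U e ^ 2 ∂m = (S.card : ℝ) * ((S.card : ℝ) + 2) / (n * (n + 2)) := by
    simp only [e5]
    rw [integral_finsetSum _ fun a _ => integrable_finsetSum _ fun b _ => i2 a b]
    simp only [fun a => integral_finsetSum S fun b _ => i2 a b]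
    have e1 : ∀ a b, ∫ U, U a 0 ^ 2 * U b 0 ^ 2 ∂m
        = 1 / (n * (n + 2)) + if b = a then 2 / (n * (n + 2)) else 0 := fun a b => by
      by_cases hab : b = a
      · subst hab
        rw [if_pos rfl]
        have e4 : ∀ U : Fin (N + 1) → Fin (N + 1) → ℝ, U b 0 ^ 2 * U b 0 ^ 2 = U b 0 ^ 4 := fun U => by ring
        simp only [e4, h4, hn]
        ring
      · rw [if_neg hab, add_zero, hX a b (Ne.symm hab)]
    simp only [e1, Finset.sum_add_distrib, Finset.sum_const, nsmul_eq_mul, Finset.sum_ite_eq',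
      Finset.sum_ite_mem, Finset.inter_self]
    ring
  have iW : Integrable (fun U => colW c U e) m := integrable_finsetSum _ fun a _ => i1 a
  have iW2 : Integrable (fun U => colW c U e ^ 2) m := by
    simp only [e5]
    exact integrable_finsetSum _ fun a _ => integrable_finsetSum _ fun b _ => i2 a b
  have e2 : ∀ U, (colW c U e - (blockCard c e : ℝ) / n) ^ 2
      = colW c U e ^ 2 - 2 * ((S.card : ℝ) / n) * colW c U e + ((S.card : ℝ) / n) ^ 2 := fun U => by
    simp only [blockCard, S]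
    ring
  simp only [e2]
  have iS : Integrable (fun U => colW c U e ^ 2 - 2 * ((S.card : ℝ) / n) * colW c U e) m :=
    iW2.sub (iW.const_mul _)
  rw [integral_add iS (integrable_const _), integral_sub iW2 (iW.const_mul _), integral_const_mul, h1, h3,
    integral_const, probReal_univ, one_smul]
  have hs : (S.card : ℝ) ≤ n := by
    rw [hn]; exact_mod_cast (Finset.card_le_univ _).trans (le_of_eq (Fintype.card_fin _))
  have key : 4 / n - ((S.card : ℝ) * ((S.card : ℝ) + 2) / (n * (n + 2)) - 2 * ((S.card : ℝ) / n) * ((S.card : ℝ) / n)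
      + ((S.card : ℝ) / n) ^ 2) = (4 * n * (n + 2) - 2 * (S.card : ℝ) * (n - S.card)) / (n ^ 2 * (n + 2)) := by
    field_simp
    ring
  have hpos : 0 ≤ (4 * n * (n + 2) - 2 * (S.card : ℝ) * (n - S.card)) / (n ^ 2 * (n + 2)) := by
    refine div_nonneg ?_ (by positivity)
    nlinarith [mul_le_mul hs hs (Nat.cast_nonneg _) hn0.le, Nat.cast_nonneg (α := ℝ) S.card]
  linarith

end Vale.Agent.P166.Rsb
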