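import Vale.Agent.P166.Rsb.CavDefs
import Vale.Agent.P166.Rsb.Calc
import Vale.Agent.P166.Rsb.HaarGroup

/-!
# P166: the slope in the auxiliary field

By exchangeability of the spins the slope of the mean value in the variance of a field on one spin is
half the tail of the spin overlaps.
-/

open MeasureTheory ProbabilityTheory Real Finset
open Vale.Agent.P157 (cubeLaw)
open Vale.Agent.P157.Rsb (stdG val cnd tail Tame gaussSize val_map val_measurable_param_at
  cnd_measurable_param_at cnd_measurable_param cnd_abs_le)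

namespace Vale.Agent.P166.Rsb

variable {d N k : ℕ} (β : ℝ) (a : Fin (d + 1) → ℝ) (c : Fin N → Fin (d + 1))

theorem mul_permMat (U : Fin N → Fin N → ℝ) (p : Equiv.Perm (Fin N)) :
    mul U (permMat p.symm) = fun i l => U i (p l) := by
  funext i l
  simp [mul, permMat, Equiv.symm_apply_eq]

theorem mp_permute {ι α : Type} [Fintype ι] [MeasurableSpace α] (μ : Measure α) [SigmaFinite μ]
    (e : Equiv.Perm ι) :
    MeasurePreserving (fun (x : ι → α) i => x (e i)) (Measure.pi fun _ => μ) (Measure.pi fun _ => μ) := by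
  have h := measurePreserving_piCongrLeft (α := fun _ : ι => α) (fun _ => μ) e.symm
  have e' : (fun (x : ι → α) i => x (e i)) = MeasurableEquiv.piCongrLeft (fun _ : ι => α) e.symm := by
    funext x i
    conv_rhs => rw [← e.symm_apply_apply i]
    rw [MeasurableEquiv.coe_piCongrLeft, Equiv.piCongrLeft_apply_apply]
  rw [e']; exact h

theorem mp_spins (p : Equiv.Perm (Fin N)) :
    MeasurePreserving (fun (x : Fin N → Bool) i => x (p i)) (cubeLaw N) (cubeLaw N) :=
  mp_permute _ p

theorem fldV_inl_abs (U : Fin N → Fin N → ℝ) (i : Fin N) (x : Fin N → Bool) :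
    |fldV c U x (.inl i)| = 1 := by
  cases h : x i <;> simp [fldV, spin, h]

theorem gmv_inl_abs (U : Fin N → Fin N → ℝ) (τ : ℕ → ℝ) (i : Fin N) (l : ℕ)
    (z : Fin k → Fld N → ℝ) :
    |gmv (cubeLaw N) (fdata β a c U) (ampV (fun _ => 0) τ) l (.inl i) z| ≤ 1 :=
  cnd_abs_le (gham_linB _ _) (tame_v (fdata β a c U) (.inl i)).meas
    (fun _ x => (fldV_inl_abs c U i x).le) l z

theorem gq_inl_facts (τ : ℕ → ℝ) (i : Fin N) (l : ℕ) :
    (Measurable fun U => gq (cubeLaw N) k (fdata β a c U) (ampV (fun _ => 0) τ) (.inl i) l) ∧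
      ∀ U, |gq (cubeLaw N) k (fdata β a c U) (ampV (fun _ => 0) τ) (.inl i) l| ≤ 1 := by
  have hH : Measurable fun q : ((Fin N → Fin N → ℝ) × (Fin k → Fld N → ℝ)) × (Fin N → Bool) =>
      gham (fdata β a c q.1.1) (ampV (fun _ => 0) τ) q.1.2 q.2 := by
    have h := hamU_meas (k := k) β a c (fun _ => 0) τ
    simp only [hamU_eq] at h
    exact h
  constructor
  · have h1 := cnd_measurable_param (γ := stdG (Fld N)) (μ := cubeLaw N)
      (H := fun U => gham (k := k) (fdata β a c U) (ampV (fun _ => 0) τ))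
      (φ := fun (_ : Fin N → Fin N → ℝ) (_ : Fin k → Fld N → ℝ) (x : Fin N → Bool) => spin (x i)) hH
      ((measurable_of_countable fun x : Fin N → Bool => spin (x i)).comp measurable_snd) l
    exact cnd_measurable_param_at (γ := stdG (Fld N)) (μ := cubeLaw N)
      (H := fun U => gham (k := k) (fdata β a c U) (ampV (fun _ => 0) τ))
      (φ := fun (U : Fin N → Fin N → ℝ) z _ =>
        gmv (k := k) (cubeLaw N) (fdata β a c U) (ampV (fun _ => 0) τ) l (.inl i) z ^ 2) hH
      ((h1.pow_const 2).comp measurable_fst) 0 _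
  · exact fun U => cnd_abs_le (gham_linB _ _) (tame_gmv_sq (cubeLaw N) _ _ l _).meas (fun z _ => by
      rw [abs_pow]; exact pow_le_one₀ (abs_nonneg _) (gmv_inl_abs β a c U τ i l z)) 0 _

/-- Relabelling the spins moves the coordinates of the spin fields. -/
theorem gq_inl_perm (τ : ℕ → ℝ) (p : Equiv.Perm (Fin N)) (U : Fin N → Fin N → ℝ) (i : Fin N) (l : ℕ) :
    gq (cubeLaw N) k (fdata β a c fun i l => U i (p l)) (ampV (fun _ => 0) τ) (.inl i) l
      = gq (cubeLaw N) k (fdata β a c U) (ampV (fun _ => 0) τ) (.inl (p i)) l := by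
  set U' : Fin N → Fin N → ℝ := fun i l => U i (p l) with hU'
  set e : Equiv.Perm (Fld N) := Equiv.sumCongr p (Equiv.refl _)
  set F := fun (y : Fld N → ℝ) q => y (e q)
  set G := fun (x : Fin N → Bool) q => x (p q)
  have hF : MeasurePreserving F (stdG (Fld N)) (stdG (Fld N)) := mp_permute _ _
  have hG : MeasurePreserving G (cubeLaw N) (cubeLaw N) := mp_spins p
  have hrot : ∀ x m, rotate U' (G x) m = rotate U x m := fun x m =>
    Equiv.sum_comp p fun q => U m q * spin (x q)
  have hv : ∀ x q, fldV c U' (G x) q = fldV c U x (e q) := fun x q => by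
    cases q with
    | inl m => rfl
    | inr m => simp [fldV, e, hrot]
  have eH : (fun z x => gham (k := k) (fdata β a c U') (ampV (fun _ => 0) τ) (fun b => F (z b)) (G x))
      = gham (fdata β a c U) (ampV (fun _ => 0) τ) := by
    funext z x
    simp only [gham, fdata]
    refine congrArg₂ (· + ·) (sum_congr rfl fun b _ => ?_) (by simp [enV, hrot])
    have ha : ∀ q, ampV (N := N) (fun _ => 0) τ ((b : ℕ) + 1) q
        = ampV (fun _ => 0) τ ((b : ℕ) + 1) (e q) := fun q => by cases q <;> rfl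
    simp only [hv]
    refine (sum_congr rfl fun q _ => ?_).trans
      (Equiv.sum_comp e fun q => ampV (fun _ => 0) τ ((b : ℕ) + 1) q * z b q * fldV c U x q
        - ampV (fun _ => 0) τ ((b : ℕ) + 1) q ^ 2 / 2 * fldV c U x q ^ 2)
    rw [← ha]
  have hH := gham_linB (k := k) (fdata β a c U') (ampV (fun _ => 0) τ)
  have h1 : ∀ z : Fin k → Fld N → ℝ,
      gmv (cubeLaw N) (fdata β a c U') (ampV (fun _ => 0) τ) l (.inl i) (fun b => F (z b))
        = gmv (cubeLaw N) (fdata β a c U) (ampV (fun _ => 0) τ) l (.inl (p i)) z := fun z => by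
    have h := (val_map hF hG hH l z).2 _ (tame_v (fdata β a c U') (.inl i))
    rw [eH] at h
    exact h.symm
  have h2 := (val_map hF hG hH 0 (fun _ _ => 0)).2 _
    (tame_gmv_sq (cubeLaw N) (fdata β a c U') (ampV (fun _ => 0) τ) l (.inl i))
  rw [eH] at h2
  simp only [h1] at h2
  exact h2.symm

theorem gq_inl_mean {m : Measure (Fin N → Fin N → ℝ)} (hm : IsHaarOrth m) (τ : ℕ → ℝ) (i i₀ : Fin N)
    (l : ℕ) :
    ∫ U, gq (cubeLaw N) k (fdata β a c U) (ampV (fun _ => 0) τ) (.inl i) l ∂m
      = ∫ U, gq (cubeLaw N) k (fdata β a c U) (ampV (fun _ => 0) τ) (.inl i₀) l ∂m := by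
  set p := Equiv.swap i₀ i
  obtain ⟨hmeas, hb⟩ := gq_inl_facts (k := k) β a c τ i₀ l
  rw [← (isInv_zero hm).integral_right (inK_zero.2 (isOrth_permMat p.symm)) hmeas hb]
  refine integral_congr_ae (ae_of_all _ fun U => ?_)
  simp only
  rw [mul_permMat, gq_inl_perm, Equiv.swap_apply_left]

/-- The expansion of the mean value in the variance of the auxiliary field. -/
theorem exists_auxE_expand : ∃ C : ℝ, 0 ≤ C ∧
    ∀ (d N k : ℕ) (β : ℝ) (a : Fin (d + 1) → ℝ) (c : Fin N → Fin (d + 1))
      (m : Measure (Fin N → Fin N → ℝ)), IsHaarOrth m → ∀ (τ : ℕ → ℝ) (i₀ : Fin N) (j : ℕ) (s : ℝ),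
      1 ≤ j → j ≤ k → 0 ≤ s → s ≤ 1 →
        |auxE m k β a c τ i₀ j s - N * freeU m k β a c (fun _ => 0) τ
          + s / 2 * tail k (qSpin m k β a c (fun _ => 0) τ) j| ≤ C * (s * √s) := by
  refine ⟨6 * auxK, by have := auxK_nonneg; positivity,
    fun d N k β a c m hm τ i₀ j s hj hjk hs hs1 => ?_⟩
  obtain ⟨a₀, rfl⟩ : ∃ a₀ : Fin k, (a₀ : ℕ) + 1 = j := ⟨⟨j - 1, by omega⟩, by simp; omega⟩
  have := hm.1
  have hN : (N : ℝ) ≠ 0 := by
    have : 0 < N := i₀.pos
    positivity
  set A := ampV (N := N) (fun _ => 0) τ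
  have hA : A ((a₀ : ℕ) + 1) (.inl i₀) = 0 := rfl
  have haux : ∀ U, gham (k := k) ((fdata β a c U).aux √s) (auxS A a₀ (.inl i₀) √s)
      = gham (fdata β a c U) (auxAmp τ i₀ ((a₀ : ℕ) + 1) s) := fun U => by
    funext z x
    simp only [gham, FData.aux, FData.shift, auxS, lineAmp, oneDir, auxAmp, A, mul_ite, mul_one,
      mul_zero, add_zero]
  have hexp : ∀ U, |val (stdG (Fld N)) (cubeLaw N)
        (gham (k := k) (fdata β a c U) (auxAmp τ i₀ ((a₀ : ℕ) + 1) s)) 0 (fun _ _ => 0)
      - rootU k β a c (fun _ => 0) τ U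
      + s / 2 * gtail (cubeLaw N) k (fdata β a c U) A (.inl i₀) ((a₀ : ℕ) + 1)|
        ≤ 6 * auxK * (s * √s) := fun U => by
    have h := gval_aux_expand (μ := cubeLaw N) (fdata β a c U) A a₀ (.inl i₀) hA
      (fldV_inl_abs c U i₀) (sqrt_nonneg s) (sqrt_le_one.2 hs1)
    rw [haux, sq_sqrt hs, ← rootU_eq] at h
    refine h.trans_eq ?_
    rw [pow_succ, sq_sqrt hs]
  -- the mean tail of one spin is the tail of the overlaps
  set T := fun (i : Fin N) (U : Fin N → Fin N → ℝ) =>
    gtail (cubeLaw N) k (fdata β a c U) A (.inl i) ((a₀ : ℕ) + 1)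
  have hgi : ∀ i l, Integrable (fun U => gq (cubeLaw N) k (fdata β a c U) A (.inl i) l) m := fun i l =>
    integrable_of_abs_le (gq_inl_facts β a c τ i l).1 (gq_inl_facts β a c τ i l).2
  have hTi : ∀ i, Integrable (T i) m := fun i =>
    (integrable_finsetSum _ fun l _ => hgi i l).const_mul _
  have hTe : ∀ i, ∫ U, T i U ∂m = ∫ U, T i₀ U ∂m := fun i => by
    simp only [T, gtail]
    rw [integral_const_mul, integral_const_mul, integral_finsetSum _ fun l _ => hgi i l,
      integral_finsetSum _ fun l _ => hgi i₀ l]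
    exact congrArg _ (sum_congr rfl fun l _ => gq_inl_mean β a c hm τ i i₀ l)
  have hT : ∫ U, T i₀ U ∂m = tail k (qSpin m k β a c (fun _ => 0) τ) ((a₀ : ℕ) + 1) := by
    have h := qSpin_tail β a c hm (k := k) (fun _ => 0) τ (j := (a₀ : ℕ) + 1) (by omega)
    simp only [spinTailR_eq] at h
    rw [integral_finsetSum _ fun i _ => hTi i, sum_congr rfl fun i _ => hTe i, sum_const, card_univ,
      Fintype.card_fin, nsmul_eq_mul] at h
    exact mul_left_cancel₀ hN h
  -- integrate
  set V := fun U => val (stdG (Fld N)) (cubeLaw N)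
    (gham (k := k) (fdata β a c U) (auxAmp τ i₀ ((a₀ : ℕ) + 1) s)) 0 (fun _ _ => 0)
  have hR := rootU_integrable (k := k) β a c hm (fun _ => 0) τ
  have hVi : Integrable V m := by
    have hVm : Measurable V := val_measurable_param_at
      (H := fun U => gham (k := k) (fdata β a c U) (auxAmp τ i₀ ((a₀ : ℕ) + 1) s))
      (measurable_from_prod_countable_left fun x => by
        simp only [gham, fdata, fldV, enV, rotate, Fintype.sum_sum_type, Sum.elim_inl, Sum.elim_inr]
        fun_prop) 0 _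
    have hdiff : Integrable (fun U => V U - rootU k β a c (fun _ => 0) τ U + s / 2 * T i₀ U) m :=
      Integrable.of_bound ((hVm.sub (rootU_meas β a c _ τ)).add
        (((Finset.measurable_sum _ fun l _ => (gq_inl_facts β a c τ i₀ l).1).const_mul _).const_mul
          _)).aestronglyMeasurable (6 * auxK * (s * √s))
        (ae_of_all _ fun U => (Real.norm_eq_abs _).trans_le (hexp U))
    refine ((hdiff.add hR).sub ((hTi i₀).const_mul (s / 2))).congr (ae_of_all _ fun U => ?_)
    simp only [Pi.add_apply, Pi.sub_apply]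
    ring
  have e : auxE m k β a c τ i₀ ((a₀ : ℕ) + 1) s - N * freeU m k β a c (fun _ => 0) τ
      + s / 2 * tail k (qSpin m k β a c (fun _ => 0) τ) ((a₀ : ℕ) + 1)
      = ∫ U, (V U - rootU k β a c (fun _ => 0) τ U + s / 2 * T i₀ U) ∂m := by
    have hsub : Integrable (fun U => V U - rootU k β a c (fun _ => 0) τ U) m := hVi.sub hR
    rw [integral_add hsub ((hTi i₀).const_mul _), integral_sub hVi hR, integral_const_mul, hT,
      freeU, mul_div_cancel₀ _ hN]
    rfl
  rw [e, ← Real.norm_eq_abs]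
  exact (norm_integral_le_of_norm_le_const (ae_of_all _ fun U =>
    (Real.norm_eq_abs _).trans_le (hexp U))).trans (by rw [probReal_univ, mul_one])

/-- Without auxiliary field. -/
theorem auxE_zero (m : Measure (Fin N → Fin N → ℝ)) (τ : ℕ → ℝ) (i₀ : Fin N) (j : ℕ) :
    auxE m k β a c τ i₀ j 0 = N * freeU m k β a c (fun _ => 0) τ := by
  have : 0 < N := i₀.pos
  rw [freeU, mul_div_cancel₀ _ (by positivity)]
  refine integral_congr_ae (ae_of_all _ fun U => ?_)
  rw [rootU_eq]
  have e : auxAmp τ i₀ j 0 = ampV (fun _ => 0) τ := by funext l i; simp [auxAmp]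
  simp only [e]

end Vale.Agent.P166.Rsb
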