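import Vale.Agent.P157.Cube2.LowTools
import Vale.Agent.P157.Cube2.Consist
import Vale.Agent.P157.Cube2.AuxField
import Vale.Agent.P157.Cube2.Product
import Vale.Agent.P157.Cube2.SpinFacts
import Vale.Agent.P157.Cube2.Path
import Vale.Agent.P157.Rsb.Deriv

/-!
# P166: the one-spin functional in the variances

It is Lipschitz for the uniform distance, its slope in a bump of the variances is its tail, and
consistent variances nearly solve the dual problem of the shrunk path.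
-/

open MeasureTheory ProbabilityTheory Real Filter Topology Finset
open Vale.Agent.P157.Rsb (lev mass tail IsPath lift lift_succ)
open Vale.Agent.P157.Cube2

namespace Vale.Agent.P166.Rsb

variable {k : ℕ}

/-- The amplitudes of variances. -/
noncomputable def ampR (k : ℕ) (r : ℕ → ℝ) (i : Fin k) : ℝ := √(r ((i : ℕ) + 1) - r i)

theorem cum_ampR {r : ℕ → ℝ} (hr : IsVar k r) : ∀ j ≤ k, cum (lift (ampR k r)) j = r j := by
  intro j hj
  rw [cum, P157.Rsb.sum_Icc_one, ← sub_zero (r j), ← hr.1, ← sum_range_sub r j]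
  refine sum_congr rfl fun i hi => ?_
  have hik : i < k := by have := mem_range.1 hi; omega
  have := lift_succ (ampR k r) ⟨i, hik⟩
  simp only at this
  rw [this, ampR]
  exact sq_sqrt (sub_nonneg.2 (hr.2 i hik))

theorem spinG_eq_free {r : ℕ → ℝ} (hr : IsVar k r) :
    spinG k r = cubeFree (fun _ => 0) 0 0 k (lift (ampR k r)) := by
  rw [cubeProduct.1, Low.spinG_congr fun j hj => (cum_ampR hr j hj).symm]

/-- Strictly increasing variances near given ones have nearly their value. -/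
theorem spinG_slant {r : ℕ → ℝ} (hv : IsVar k r) :
    ∃ C, ∀ η : ℝ, 0 ≤ η → η ≤ 1 →
      |spinG k (fun l => r l + η * l) - spinG k r| ≤ C * √η := by
  set R := r k + 2
  refine ⟨R * k, fun η h0 h1 => ?_⟩
  have hv' : IsVar k fun l => r l + η * l := ⟨by simp [hv.1], fun j hj => by
    have := hv.2 j hj
    push_cast
    linarith⟩
  have hRb : ∀ {x : ℝ}, 0 ≤ x → x ≤ r k + 1 → |√x| ≤ R := fun {x} hx hx' => by
    have := isVar_nonneg hv (le_refl k)
    rw [abs_of_nonneg (sqrt_nonneg _), sqrt_le_left (by simp only [R]; linarith)]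
    simp only [R]; nlinarith
  have hinc : ∀ i : Fin k, 0 ≤ r ((i : ℕ) + 1) - r i ∧ r ((i : ℕ) + 1) - r i ≤ r k := fun i =>
    ⟨sub_nonneg.2 (hv.2 i i.2), by linarith [isVar_le hv i.2 le_rfl, isVar_nonneg hv i.2.le]⟩
  have e : ∀ i : Fin k, r ((i : ℕ) + 1) + η * ((i : ℕ) + 1 : ℕ) - (r i + η * (i : ℕ))
      = r ((i : ℕ) + 1) - r i + η := fun i => by push_cast; ring
  have h := P157.Rsb.Gen.fr_lip (S := cubeLeaf 0) (f := fun _ => (0 : ℝ)) (L := 0) P157.Rsb.deriv_amp
    (N := ((0 : ℕ) : ℝ) + 1) (by norm_num)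
    (fun M σ => cubePath _ 0 measurable_const (fun _ => by simp) 0 M k σ) measurable_const
    (fun _ => by simp) (M := 0) (R := R) (y := ampR k r) (y' := ampR k fun l => r l + η * l)
    (fun i => hRb (hinc i).1 (by linarith [(hinc i).2]))
    (fun i => by rw [ampR, e]; exact hRb (by linarith [(hinc i).1]) (by linarith [(hinc i).2]))
  rw [spinG_eq_free hv, spinG_eq_free hv']
  refine h.trans ?_
  have hR0 : 0 ≤ R := by have := isVar_nonneg hv (le_refl k); simp only [R]; linarith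
  rw [mul_assoc R]
  refine mul_le_mul_of_nonneg_left ?_ hR0
  refine (sum_le_card_nsmul _ _ √η fun i _ => ?_).trans_eq (by simp)
  rw [ampR, ampR, e, abs_of_nonneg (sub_nonneg.2 (sqrt_le_sqrt (le_add_of_nonneg_right h0))),
    sub_le_iff_le_add]
  rw [sqrt_le_left (by positivity)]
  nlinarith [mul_nonneg (sqrt_nonneg (r ((i : ℕ) + 1) - r i)) (sqrt_nonneg η),
    sq_sqrt (hinc i).1, sq_sqrt h0]

/-- The one-spin functional is Lipschitz in the variances. -/
theorem spinG_le_add {r r' : ℕ → ℝ} (hr : IsVar k r) (hr' : IsVar k r') {δ : ℝ} (hδ : 0 ≤ δ)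
    (h : ∀ l ∈ Icc 1 k, |r l - r' l| ≤ δ) : spinG k r ≤ spinG k r' + δ / 2 := by
  obtain ⟨C, hC⟩ := spinG_slant hr'
  have key : ∀ η : ℝ, 0 < η → η ≤ 1 → spinG k r ≤ spinG k r' + δ / 2 + (|C| * √η + k * η) := by
    intro η h0 h1
    set rη : ℕ → ℝ := fun l => r' l + η * l
    have hs : ∀ j, 1 ≤ j → j ≤ k → rη (j - 1) < rη j := fun j a b => by
      have h2 := isVar_le hr' (Nat.sub_le j 1) b
      have h3 : ((j - 1 : ℕ) : ℝ) + 1 = j := by norm_cast; omega
      simp only [rη]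
      nlinarith
    have ht := spinG_tangent (k := k) (r := r) (r' := rη) (by simp [rη, hr.1, hr'.1])
      (fun j a b => isVar_le hr (Nat.sub_le j 1) b) hs
    have hb : -(mass k / 2 * ∑ l ∈ Icc 1 k, spinQ k rη l * (r l - rη l)) ≤ (δ + k * η) / 2 := by
      have h2 : ∀ l ∈ Icc 1 k, -(δ + k * η) ≤ spinQ k rη l * (r l - rη l) := fun l hl => by
        obtain ⟨q0, q1⟩ := spinQ_mem (r := rη) (mem_Icc.1 hl).2
        have h3 := (abs_le.1 (h l hl)).1
        have hlk : (l : ℝ) ≤ k := by exact_mod_cast (mem_Icc.1 hl).2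
        have h4 : -(δ + k * η) ≤ r l - rη l := by simp only [rη]; nlinarith
        nlinarith [mul_nonneg (Nat.cast_nonneg (α := ℝ) k) h0.le]
      have h5 := mul_le_mul_of_nonneg_left (sum_le_sum h2) (massK_pos (k := k)).le
      rw [sum_const, Nat.card_Icc, nsmul_eq_mul, Nat.add_sub_cancel] at h5
      have h6 : mass k * ((k : ℝ) * (δ + k * η)) ≤ δ + k * η := by
        rw [← mul_assoc]
        refine mul_le_of_le_one_left (by positivity) ?_
        unfold P157.Rsb.mass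
        rw [div_mul_eq_mul_div, one_mul, div_le_one (by positivity)]
        linarith
      linarith
    have hc := (abs_le.1 (hC η h0.le h1)).2
    have := mul_le_mul_of_nonneg_right (le_abs_self C) (sqrt_nonneg η)
    nlinarith [mul_nonneg (Nat.cast_nonneg (α := ℝ) k) h0.le]
  have hlim : Tendsto (fun η : ℝ => spinG k r' + δ / 2 + (|C| * √η + k * η)) (𝓝[>] 0)
      (𝓝 (spinG k r' + δ / 2)) := by
    have hc : Continuous fun η : ℝ => spinG k r' + δ / 2 + (|C| * √η + k * η) := by fun_prop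
    simpa using (hc.tendsto 0).mono_left nhdsWithin_le_nhds
  refine ge_of_tendsto hlim ?_
  filter_upwards [Ioc_mem_nhdsGT (zero_lt_one' ℝ)] with η hη
  exact key η hη.1 hη.2

theorem abs_spinG_sub_le {r r' : ℕ → ℝ} (hr : IsVar k r) (hr' : IsVar k r') {δ : ℝ} (hδ : 0 ≤ δ)
    (h : ∀ l ∈ Icc 1 k, |r l - r' l| ≤ δ) : |spinG k r - spinG k r'| ≤ δ / 2 := by
  have h1 := spinG_le_add hr hr' hδ h
  have h2 := spinG_le_add hr' hr hδ fun l hl => abs_sub_comm (r' l) _ ▸ h l hl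
  rw [abs_le]; constructor <;> linarith

theorem isVar_bump {r : ℕ → ℝ} (hr : IsVar k r) {j : ℕ} (hj : 1 ≤ j) {s : ℝ} (hs : 0 ≤ s) :
    IsVar k (bump r j s) := by
  refine ⟨by simp [bump, hr.1, show ¬ j ≤ 0 by omega], fun i hi => ?_⟩
  have := hr.2 i hi
  simp only [bump]
  split_ifs <;> first | omega | linarith

/-- The slope in a bump is the tail. -/
theorem exists_spinG_expand : ∃ C : ℝ, 0 ≤ C ∧ ∀ (k : ℕ) (r : ℕ → ℝ), IsVar k r → ∀ (j : ℕ) (s : ℝ),
    1 ≤ j → j ≤ k → 0 ≤ s → s ≤ 1 →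
      |spinG k (bump r j s) - spinG k r + s / 2 * spinTail k r j| ≤ C * (s * √s) := by
  obtain ⟨C, hC, hA⟩ := AuxF.cubeAux
  refine ⟨C, hC, fun k r hr j s hj hjk hs hs1 => ?_⟩
  set σ := lift (ampR k r)
  have hcum : ∀ i ≤ k, cum σ i = r i := cum_ampR hr
  have hone := hA (fun _ => 0) 0 measurable_const (fun _ => by simp) 0 0 k j σ s hj hjk hs hs1
  have hbump : spinG k (bump r j s) = P157.Rsb.free (cubeLeaf 0) (fun _ => 0) 0 k 1 σ
      (P157.Cube2.auxAmp j s) - s / 2 := by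
    rw [cubeProduct.2.2 (fun _ => 0) k j σ s hs hj hjk]
    exact Low.spinG_congr fun i hi => by simp [bump, hcum i hi]
  have htail : tail k (cubeQ (fun _ => 0) 0 0 k σ) j = spinTail k r j := by
    rw [P157.Rsb.tail, spinTail]
    congr 1
    refine sum_congr rfl fun l hl => ?_
    obtain ⟨hl1, hlk⟩ := mem_Icc.1 hl
    rw [cubeProduct.2.1 _ k σ l (mem_Icc.2 ⟨hj.trans hl1, hlk⟩), spinQ_congr hcum hlk]
  rw [htail, ← spinG_eq_free hr, Nat.cast_zero, zero_add, one_mul] at hone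
  rw [hbump]
  refine le_of_eq_of_le ?_ hone
  congr 1
  ring

/-- Close variances have close tails. -/
theorem exists_spinTail_close : ∃ C : ℝ, 0 ≤ C ∧ ∀ (k : ℕ) (r r' : ℕ → ℝ), IsVar k r → IsVar k r' →
    ∀ (δ s : ℝ), 0 ≤ δ → 0 < s → s ≤ 1 → (∀ l ∈ Icc 1 k, |r l - r' l| ≤ δ) → ∀ j ∈ Icc 1 k,
      |spinTail k r j - spinTail k r' j| ≤ C * (δ / s + √s) := by
  obtain ⟨C, hC, hE⟩ := exists_spinG_expand
  refine ⟨4 * C + 2, by linarith, fun k r r' hr hr' δ s hδ hs hs1 h j hj => ?_⟩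
  obtain ⟨hj1, hjk⟩ := mem_Icc.1 hj
  have a := abs_le.1 (hE k r hr j s hj1 hjk hs.le hs1)
  have b := abs_le.1 (hE k r' hr' j s hj1 hjk hs.le hs1)
  have c := abs_le.1 (abs_spinG_sub_le hr hr' hδ h)
  have e := abs_le.1 (abs_spinG_sub_le (isVar_bump hr hj1 hs.le) (isVar_bump hr' hj1 hs.le) hδ
    fun l hl => by simpa [bump] using h l hl)
  have key : s / 2 * |spinTail k r j - spinTail k r' j| ≤ δ + 2 * C * (s * √s) := by
    rw [← abs_of_nonneg (show 0 ≤ s / 2 by linarith), ← abs_mul, abs_le]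
    constructor <;> linarith [a.1, a.2, b.1, b.2, c.1, c.2, e.1, e.2]
  have h2 : |spinTail k r j - spinTail k r' j| ≤ 2 * δ / s + 4 * C * √s := by
    rw [div_add' _ _ _ hs.ne', le_div_iff₀ hs]
    linarith
  refine h2.trans ?_
  have h3 : 0 ≤ δ / s := by positivity
  have h4 := sqrt_nonneg s
  rw [mul_div_assoc]
  nlinarith [mul_nonneg hC h3]

/-- Consistent variances nearly solve the dual problem of the shrunk path. -/
theorem exists_cap {e : ℝ} (he : 0 < e) (he1 : e ≤ 1) :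
    ∃ R : ℝ, 0 ≤ R ∧ ∀ (k : ℕ) (q r : ℕ → ℝ), 1 ≤ k → IsPath k q → IsVar k r →
      (∀ j < k, r j < r (j + 1)) → ∀ ε : ℝ, (∀ j ∈ Icc 1 k, |tail k q j - spinTail k r j| ≤ ε) →
        spinSup k (fun l => (1 - e) * q l) ≤ spinObj k q r + ε / 2 * (R + r k) + e := by
  obtain ⟨R, hR⟩ := spin.2.2 e he he1
  refine ⟨max R 0, le_max_right _ _, fun k q r h0 hq hr hs ε hε => ?_⟩
  have hq' : IsPath k fun l => (1 - e) * q l := by
    refine ⟨by simp [hq.1], fun j hj => mul_le_mul_of_nonneg_left (hq.2.1 j hj) (sub_nonneg.2 he1), ?_⟩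
    nlinarith [(isPath_mem hq le_rfl).1, (isPath_mem hq le_rfl).2]
  refine csSup_le (spin.2.1 k _ hq').1 ?_
  rintro _ ⟨x, hx, rfl⟩
  obtain ⟨x', hx', hxR, hle⟩ := hR k q x hq hx
  have h := spin.1 k q x' r ε hx' hr hs hε
  have hk := isVar_nonneg hx' (le_refl k)
  have hε0 : 0 ≤ ε := (abs_nonneg _).trans (hε k (mem_Icc.2 ⟨h0, le_rfl⟩))
  have := mul_le_mul_of_nonneg_left (add_le_add (hxR.trans (le_max_left R 0)) (le_refl (r k)))
    (show 0 ≤ ε / 2 by linarith)
  linarith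

end Vale.Agent.P166.Rsb
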