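import Vale.Agent.P166.Rsb.CavPins
import Vale.Agent.P166.Rsb.Cav.SpinTools
import Vale.Agent.P166.Rsb.Energy.GaussKer

/-!
# P166: the limit value is Lipschitz in tilts and couplings
-/

open Real Finset
open Vale.Agent.P157.Rsb (lev lev_pos lev_le_one)
open Vale.Agent.P157.Cube2 (IsVar spinG bump)
open Vale.Agent.P166.Rsb.Slot (IsKer)

namespace Vale.Agent.P166.Rsb.Cav

variable {p k : ℕ} {K : ℕ → ℝ} {P : ℝ}

/-- The tail variables lie between zero and the diagonal. -/
theorem kv_le (hK : IsKer k K P) (i : ℕ) : Energy.kv k K P i ≤ P := by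
  have h : ∑ l ∈ Ico i k, lev k (l + 1) * (K (l + 1) - K l) ≤ ∑ l ∈ range k, (K (l + 1) - K l) := by
    refine (sum_le_sum fun l hl => mul_le_of_le_one_left (sub_nonneg.2 (hK.2.1 l (mem_Ico.1 hl).2))
      (lev_le_one (by have := (mem_Ico.1 hl).2; omega))).trans
      (sum_le_sum_of_subset_of_nonneg (fun l hl => mem_range.2 (mem_Ico.1 hl).2) fun l hl _ =>
        sub_nonneg.2 (hK.2.1 l (mem_range.1 hl)))
  rw [sum_range_sub, hK.1, sub_zero] at h
  simp only [Energy.kv]
  linarith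

theorem kv_diff (hK : IsKer k K P) {i : ℕ} (hi : i < k) :
    0 ≤ K (i + 1) - K i ∧ Energy.kv k K P i - Energy.kv k K P (i + 1) = lev k (i + 1) * (K (i + 1) - K i) :=
  ⟨sub_nonneg.2 (hK.2.1 i hi), by rw [Energy.kv_step hi]; ring⟩

/-- A bound level by level is a bound on the sum over the levels. -/
theorem sum_lev_le (hK : IsKer k K P) {j : ℕ} (hj : j ≤ k) {F : ℕ → ℝ} {M : ℝ} (hM : 0 ≤ M)
    (h : ∀ i < k, |F i| ≤ M * (Energy.kv k K P i - Energy.kv k K P (i + 1))) :
    |∑ i ∈ range j, F i / lev k (i + 1)| ≤ M * P := by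
  refine (abs_sum_le_sum_abs _ _).trans ((sum_le_sum (g := fun i => M * (K (i + 1) - K i)) fun i hi => ?_).trans ?_)
  · have hik : i < k := lt_of_lt_of_le (mem_range.1 hi) hj
    have hm : 0 < lev k (i + 1) := lev_pos (Nat.le_add_left 1 i)
    rw [abs_div, abs_of_pos hm, div_le_iff₀ hm]
    refine (h i hik).trans_eq ?_
    rw [(kv_diff hK hik).2]
    ring
  · rw [← mul_sum, sum_range_sub, hK.1, sub_zero]
    refine mul_le_mul_of_nonneg_left ?_ hM
    have hmono : ∀ a, j + a ≤ k → K j ≤ K (j + a) := fun a => by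
      induction a with
      | zero => intro _; rfl
      | succ a ih => exact fun ha => (ih (by omega)).trans (hK.2.1 (j + a) (by omega))
    have h1 := hmono (k - j) (by omega)
    rw [Nat.add_sub_cancel' hj] at h1
    exact h1.trans hK.2.2

theorem frac_lip {T T' a b B : ℝ} (hT : 0 ≤ T) (hT' : 0 ≤ T') (hTB : T ≤ B) (hTB' : T' ≤ B) (hb : 0 ≤ b)
    (hba : b ≤ a) (haB : a ≤ B) :
    |(Energy.tiltV T a - Energy.tiltV T b) - (Energy.tiltV T' a - Energy.tiltV T' b)|
      ≤ (2 * B + 2 * B ^ 3) * |T - T'| * (a - b) := by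
  have ha : 0 ≤ a := hb.trans hba
  have p1 : 0 < 1 + T * a := by positivity
  have p2 : 0 < 1 + T * b := by positivity
  have p3 : 0 < 1 + T' * a := by positivity
  have p4 : 0 < 1 + T' * b := by positivity
  have e : (Energy.tiltV T a - Energy.tiltV T b) - (Energy.tiltV T' a - Energy.tiltV T' b)
      = (a - b) * ((T' - T) * (a + b + (T' + T) * (a * b)))
        / ((1 + T * a) * (1 + T * b) * ((1 + T' * a) * (1 + T' * b))) := by
    simp only [Energy.tiltV]
    field_simp
    ring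
  rw [e, abs_div, abs_mul, abs_mul, abs_of_nonneg (sub_nonneg.2 hba), abs_sub_comm T' T,
    abs_of_nonneg (show 0 ≤ a + b + (T' + T) * (a * b) by positivity),
    abs_of_pos (show 0 < (1 + T * a) * (1 + T * b) * ((1 + T' * a) * (1 + T' * b)) by positivity)]
  refine (div_le_self (by have := sub_nonneg.2 hba; positivity) ?_).trans ?_
  · refine one_le_mul_of_one_le_of_one_le (one_le_mul_of_one_le_of_one_le ?_ ?_)
      (one_le_mul_of_one_le_of_one_le ?_ ?_) <;> exact le_add_of_nonneg_right (by positivity)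
  · have hab : a * b ≤ B * B := mul_le_mul haB (hba.trans haB) hb (ha.trans haB)
    have h1 : (T' + T) * (a * b) ≤ 2 * B ^ 3 := by
      calc (T' + T) * (a * b) ≤ (B + B) * (B * B) :=
            mul_le_mul (add_le_add hTB' hTB) hab (by positivity) (by linarith)
        _ = 2 * B ^ 3 := by ring
    calc (a - b) * (|T - T'| * (a + b + (T' + T) * (a * b)))
        ≤ (a - b) * (|T - T'| * (2 * B + 2 * B ^ 3)) :=
          mul_le_mul_of_nonneg_left (mul_le_mul_of_nonneg_left (by linarith) (abs_nonneg _))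
            (sub_nonneg.2 hba)
      _ = _ := by ring

theorem log_lip {T T' a b : ℝ} (hT : 0 ≤ T) (hT' : 0 ≤ T') (hb : 0 ≤ b) (hba : b ≤ a) :
    |(log (1 + T * a) - log (1 + T * b)) - (log (1 + T' * a) - log (1 + T' * b))| ≤ |T - T'| * (a - b) := by
  have key : ∀ S S', 0 ≤ S' → S' ≤ S →
      0 ≤ (log (1 + S * a) - log (1 + S * b)) - (log (1 + S' * a) - log (1 + S' * b)) ∧
      (log (1 + S * a) - log (1 + S * b)) - (log (1 + S' * a) - log (1 + S' * b)) ≤ (S - S') * (a - b) := by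
    intro S S' h' h
    have ha : 0 ≤ a := hb.trans hba
    have hS : 0 ≤ S := h'.trans h
    have p1 : 0 < 1 + S * a := by positivity
    have p2 : 0 < 1 + S * b := by positivity
    have p3 : 0 < 1 + S' * a := by positivity
    have p4 : 0 < 1 + S' * b := by positivity
    have e : (log (1 + S * a) - log (1 + S * b)) - (log (1 + S' * a) - log (1 + S' * b))
        = log (((1 + S * a) * (1 + S' * b)) / ((1 + S * b) * (1 + S' * a))) := by
      rw [log_div (by positivity) (by positivity), log_mul p1.ne' p4.ne', log_mul p2.ne' p3.ne']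
      ring
    have hx : ((1 + S * a) * (1 + S' * b)) / ((1 + S * b) * (1 + S' * a)) - 1
        = (S - S') * (a - b) / ((1 + S * b) * (1 + S' * a)) := by
      rw [div_sub_one (by positivity)]
      ring_nf
    have h0 : 0 ≤ (S - S') * (a - b) := mul_nonneg (sub_nonneg.2 h) (sub_nonneg.2 hba)
    have hx0 : 0 ≤ (S - S') * (a - b) / ((1 + S * b) * (1 + S' * a)) := by positivity
    rw [e]
    refine ⟨log_nonneg (by linarith), (log_le_sub_one_of_pos (by positivity)).trans ?_⟩
    rw [hx]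
    exact div_le_self h0 (one_le_mul_of_one_le_of_one_le (le_add_of_nonneg_right (by positivity))
      (le_add_of_nonneg_right (by positivity)))
  rcases le_total T' T with h | h
  · obtain ⟨h1, h2⟩ := key T T' hT' h
    rw [abs_of_nonneg h1, abs_of_nonneg (sub_nonneg.2 h)]
    exact h2
  · obtain ⟨h1, h2⟩ := key T' T hT h
    rw [abs_sub_comm, abs_of_nonneg h1, abs_sub_comm T T', abs_of_nonneg (sub_nonneg.2 h)]
    exact h2

theorem tiltR_eq_kq (T b : Fin p → ℝ) (l : ℕ) :
    tiltR k T b (dOfK k K P) l = ∑ r, b r ^ 2 * Energy.kq (T r) k K P l := by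
  simp only [tiltR, tiltF, ← sum_sub_distrib, Finset.sum_div, Energy.kq, mul_sum]
  rw [sum_comm]
  refine sum_congr rfl fun r _ => sum_congr rfl fun i _ => ?_
  simp only [Energy.tiltV, show ∀ n, dOfK k K P n = Energy.kv k K P n from fun _ => rfl]
  ring

theorem isVar_tiltR (hK : IsKer k K P) {T : Fin p → ℝ} (hT : ∀ r, 0 ≤ T r) (b : Fin p → ℝ) :
    IsVar k (tiltR k T b (dOfK k K P)) := by
  refine ⟨by simp [tiltR], fun l hl => ?_⟩
  rw [tiltR_eq_kq, tiltR_eq_kq]
  exact sum_le_sum fun r _ => mul_le_mul_of_nonneg_left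
    (Energy.kq_mono (hT r) hK (Nat.le_succ l) hl) (sq_nonneg _)

theorem sq_mul_lip {b b' x x' B M D E : ℝ} (hB : 0 ≤ B) (hb : |b| ≤ B) (hb' : |b'| ≤ B) (hx : |x'| ≤ M)
    (hd : |x - x'| ≤ D * E) :
    |b ^ 2 * x - b' ^ 2 * x'| ≤ B ^ 2 * D * E + 2 * B * M * |b - b'| := by
  have e : b ^ 2 * x - b' ^ 2 * x' = b ^ 2 * (x - x') + (b + b') * x' * (b - b') := by ring
  rw [e]
  refine (abs_add_le _ _).trans (add_le_add ?_ ?_)
  · rw [abs_mul, abs_pow, mul_assoc]
    exact mul_le_mul (pow_le_pow_left₀ (abs_nonneg _) hb 2) hd (abs_nonneg _) (sq_nonneg B)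
  · rw [abs_mul, abs_mul]
    refine mul_le_mul_of_nonneg_right ?_ (abs_nonneg _)
    have hM : 0 ≤ M := (abs_nonneg _).trans hx
    calc |b + b'| * |x'| ≤ (B + B) * M :=
          mul_le_mul ((abs_add_le _ _).trans (add_le_add hb hb')) hx (abs_nonneg _) (by linarith)
      _ = 2 * B * M := by ring

theorem contStmt : ContStmt := by
  intro p B
  rcases lt_or_ge B 0 with hneg | hB
  · refine ⟨0, le_rfl, fun k K P hK hP => ?_⟩
    have := (Energy.kv_nonneg hK 0).trans ((kv_le hK 0).trans hP)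
    linarith
  set L := 2 * B + 2 * B ^ 3 with hL
  have hL0 : 0 ≤ L := by positivity
  refine ⟨2 * (B ^ 2 * (L * B + B ^ 2)) + 4 * B * B + B + 1, by positivity,
    fun k K P hK hP T T' b b' h j s hj hjk hs => ?_⟩
  have hT : ∀ r, 0 ≤ T r := fun r => (h r).1
  have hT' : ∀ r, 0 ≤ T' r := fun r => (h r).2.2.1
  have hP0 : 0 ≤ P := (Energy.kv_nonneg hK 0).trans (kv_le hK 0)
  set v := Energy.kv k K P k with hv
  have hv0 : 0 ≤ v := Energy.kv_nonneg hK k
  have hvB : v ≤ B := (kv_le hK k).trans hP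
  have hord : ∀ i < k, Energy.kv k K P (i + 1) ≤ Energy.kv k K P i ∧ Energy.kv k K P i ≤ B := fun i hi =>
    ⟨sub_nonneg.1 ((kv_diff hK hi).2 ▸ mul_nonneg (P157.Rsb.lev_nonneg _) (kv_diff hK hi).1),
      (kv_le hK i).trans hP⟩
  have hkq : ∀ r, ∀ l ≤ k, |Energy.kq (T r) k K P l - Energy.kq (T' r) k K P l| ≤ L * B * |T r - T' r| := by
    intro r l hl
    obtain ⟨t0, tB, t0', tB', -, -⟩ := h r
    simp only [Energy.kq, ← sum_sub_distrib, ← sub_div]
    refine (sum_lev_le hK hl (M := L * |T r - T' r|) (by positivity) fun i hi => ?_).trans ?_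
    · exact frac_lip t0 t0' tB tB' (Energy.kv_nonneg hK _) (hord i hi).1 (hord i hi).2
    · rw [mul_right_comm]
      exact mul_le_mul_of_nonneg_right (mul_le_mul_of_nonneg_left hP hL0) (abs_nonneg _)
  have hkqB : ∀ r, ∀ l ≤ k, |Energy.kq (T' r) k K P l| ≤ B := fun r l hl => by
    have h0 := Energy.kq_mono (hT' r) hK (Nat.zero_le l) hl
    rw [Energy.kq_zero] at h0
    rw [abs_of_nonneg h0]
    exact ((Energy.kq_le_kQ (hT' r) hK hl).trans (Energy.kQ_le (hT' r) hK)).trans hP
  set Δ := fun r => |T r - T' r| + |b r - b' r|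
  have hΔ : ∀ r, |T r - T' r| ≤ Δ r ∧ |b r - b' r| ≤ Δ r := fun r =>
    ⟨le_add_of_nonneg_right (abs_nonneg _), le_add_of_nonneg_left (abs_nonneg _)⟩
  set δ := (B ^ 2 * (L * B) + 2 * B * B) * ∑ r, Δ r
  have hR : ∀ l ≤ k, |tiltR k T b (dOfK k K P) l - tiltR k T' b' (dOfK k K P) l| ≤ δ := by
    intro l hl
    rw [tiltR_eq_kq, tiltR_eq_kq, ← sum_sub_distrib, show δ = _ * ∑ r, Δ r from rfl, mul_sum]
    refine (abs_sum_le_sum_abs _ _).trans (sum_le_sum fun r _ => ?_)
    refine (sq_mul_lip (D := L * B) (E := |T r - T' r|) hB (h r).2.2.2.2.1 (h r).2.2.2.2.2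
      (hkqB r l hl) (hkq r l hl)).trans ?_
    exact (add_le_add (mul_le_mul_of_nonneg_left (hΔ r).1 (by positivity))
      (mul_le_mul_of_nonneg_left (hΔ r).2 (by positivity))).trans_eq (by ring)
  have hF : |tiltF T b v - tiltF T' b' v| ≤ (B ^ 2 * B ^ 2 + 2 * B * B) * ∑ r, Δ r := by
    simp only [tiltF, ← sum_sub_distrib, mul_sum, mul_div_assoc]
    refine (abs_sum_le_sum_abs _ _).trans (sum_le_sum fun r _ => ?_)
    have p1 : 0 < 1 + T r * v := by have := hT r; positivity
    have p2 : 0 < 1 + T' r * v := by have := hT' r; positivity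
    refine (sq_mul_lip (D := B ^ 2) (E := |T r - T' r|) hB (h r).2.2.2.2.1 (h r).2.2.2.2.2 (M := B) ?_ ?_).trans ?_
    · rw [abs_of_nonneg (div_nonneg hv0 p2.le)]
      exact (div_le_self hv0 (le_add_of_nonneg_right (mul_nonneg (hT' r) hv0))).trans hvB
    · rw [show v / (1 + T r * v) - v / (1 + T' r * v) = v ^ 2 * (T' r - T r) / ((1 + T r * v) * (1 + T' r * v))
        by rw [div_sub_div _ _ p1.ne' p2.ne']; ring_nf, abs_div, abs_mul, abs_sub_comm (T' r), abs_of_nonneg (sq_nonneg v),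
        abs_of_pos (mul_pos p1 p2)]
      refine (div_le_self (by positivity) (one_le_mul_of_one_le_of_one_le
        (le_add_of_nonneg_right (mul_nonneg (hT r) hv0)) (le_add_of_nonneg_right (mul_nonneg (hT' r) hv0)))).trans ?_
      exact mul_le_mul_of_nonneg_right (pow_le_pow_left₀ hv0 hvB 2) (abs_nonneg _)
    · exact (add_le_add (mul_le_mul_of_nonneg_left (hΔ r).1 (by positivity))
        (mul_le_mul_of_nonneg_left (hΔ r).2 (by positivity))).trans_eq (by ring)
  have hG := abs_spinG_sub_le (isVar_bump (isVar_tiltR hK hT b) hj hs)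
    (isVar_bump (isVar_tiltR hK hT' b') hj hs)
    (show 0 ≤ δ by positivity) fun l hl => by simpa [bump] using hR l (mem_Icc.1 hl).2
  have hC : |∑ r, combV k (dOfK k K P) (fun x => log (1 + T r * x))
      - ∑ r, combV k (dOfK k K P) (fun x => log (1 + T' r * x))| ≤ 2 * B * ∑ r, Δ r := by
    rw [← sum_sub_distrib, mul_sum]
    refine (abs_sum_le_sum_abs _ _).trans (sum_le_sum fun r _ => ?_)
    have h1 : |log (1 + T r * v) - log (1 + T' r * v)| ≤ B * |T r - T' r| := by
      have h2 := log_lip (a := v) (b := 0) (hT r) (hT' r) le_rfl hv0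
      simp only [mul_zero, add_zero, log_one, sub_zero] at h2
      exact h2.trans (by rw [mul_comm]; exact mul_le_mul_of_nonneg_right hvB (abs_nonneg _))
    have h3 := sum_lev_le hK le_rfl (F := fun i => (log (1 + T r * Energy.kv k K P i)
        - log (1 + T r * Energy.kv k K P (i + 1)))
        - (log (1 + T' r * Energy.kv k K P i) - log (1 + T' r * Energy.kv k K P (i + 1))))
      (M := |T r - T' r|) (abs_nonneg _) fun i hi =>
        log_lip (hT r) (hT' r) (Energy.kv_nonneg hK _) (hord i hi).1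
    simp only [sub_div, sum_sub_distrib] at h3
    simp only [combV, show ∀ n, dOfK k K P n = Energy.kv k K P n from fun _ => rfl, ← hv, sub_div, sum_sub_distrib]
    have h4 : |T r - T' r| * P ≤ B * |T r - T' r| := by rw [mul_comm B]; exact mul_le_mul_of_nonneg_left hP (abs_nonneg _)
    have h5 := mul_le_mul_of_nonneg_left (hΔ r).1 hB
    have a1 := abs_le.1 h1
    have a3 := abs_le.1 h3
    rw [abs_le]
    constructor <;> linarith
  have hS : 0 ≤ ∑ r, Δ r := sum_nonneg fun r _ => add_nonneg (abs_nonneg _) (abs_nonneg _)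
  have hRk := abs_le.1 (hR k le_rfl)
  have a1 := abs_le.1 hF
  have a2 := abs_le.1 hG
  have a3 := abs_le.1 hC
  simp only [tiltV, show dOfK k K P k = v from rfl]
  have h0 : δ = (B ^ 2 * (L * B) + 2 * B * B) * ∑ r, Δ r := rfl
  rw [abs_le]
  constructor <;> nlinarith [mul_nonneg (by positivity : (0 : ℝ) ≤ B ^ 2 * (L * B)) hS,
    mul_nonneg (by positivity : (0 : ℝ) ≤ B ^ 2 * B ^ 2) hS, mul_nonneg (by positivity : (0 : ℝ) ≤ B * B) hS]

end Vale.Agent.P166.Rsb.Cav
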