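import Vale.Agent.P166.Rsb.CavDefs
import Vale.Agent.P166.Rsb.Calc
import Vale.Agent.P166.Rsb.Sync.Export
import Vale.Agent.P166.Rsb.Energy.KerAlg
import Vale.Agent.P166.Rsb.Slot.Ends

/-!
# P166: the kernel of the last block and its image on the spins

The kernel is monotone and below its diagonal.  The image is Lipschitz in the kernel, crudely in the
number of levels.
-/

open MeasureTheory Real Finset
open Vale.Agent.P157.Rsb (lev IsPath)
open Vale.Agent.P166.Rsb.Slot (IsKer)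

namespace Vale.Agent.P166.Rsb

variable {d N k : ℕ}

section kernel

variable {m : Measure (Fin N → Fin N → ℝ)} (β : ℝ) (a : Fin (d + 1) → ℝ) (c : Fin N → Fin (d + 1))

theorem qTop_le_pTop (hm : IsHaarOrth m) (hN : 1 ≤ N) (σ τ : ℕ → ℝ) :
    qTop m k β a c σ τ k ≤ pTop m k β a c σ τ := by
  have := hm.1
  unfold qTop
  split_ifs with h
  · exact (Syn.pTop_mem β c σ hm τ a).1
  rw [pairU_eq, pTop, gibU_eq]
  refine integral_mono_ae
    (integrable_of_ae hm (pairR_meas β a c σ τ k fun x y => by unfold topOv rotate; fun_prop)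
      fun U hU => abs_pairR_le β a c U σ τ k (abs_topOv_le c U hU))
    (integrable_of_ae hm (gibR_meas β a c σ τ
      fun s => (continuous_topSq c s).measurable.div_const _) (C := 1) fun U hU =>
      abs_gibR_le β a c U σ τ fun s => by
        rw [abs_div, Nat.abs_cast, abs_of_nonneg (topSq_nonneg c U s),
          div_le_one (by exact_mod_cast hN)]
        exact topSq_le c U hU s) (ae_of_all _ fun U => ?_)
  simp only [pairR_topOv]
  rw [show (fun s => topSq c U s / (N : ℝ)) = fun s => (N : ℝ)⁻¹ * topSq c U s from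
    funext fun s => div_eq_inv_mul _ _, gibR_mul]
  refine mul_le_mul_of_nonneg_left ((sum_le_sum fun i _ => gq_le _ _ _ i k).trans (le_of_eq ?_))
    (by positivity)
  rw [gibR, hamU_eq]
  simp only [groot]
  rw [← P157.Rsb.cnd_finsum (gham_linB _ _) _ fun i _ => tame_v_sq (fdata β a c U) i]
  refine congrArg (fun φ => P157.Rsb.cnd (k := k) (P157.Rsb.stdG (Fld N)) (P157.cubeLaw N)
    (gham (fdata β a c U) (ampV σ τ)) φ 0 fun _ _ => 0) ?_
  funext _ s
  simp only [topIdx, sum_map, Function.Embedding.coeFn_mk]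
  exact sum_sq_inr c U s

theorem isKer_ker (hm : IsHaarOrth m) (hN : 1 ≤ N) (τ : ℕ → ℝ) :
    IsKer k (kerK m k β a c τ) (kerP m k β a c τ) := by
  obtain ⟨h0, h1, -⟩ := isPath_qTop (k := k) β a c hm hN (fun _ => 0) τ
  have hn : 0 ≤ nTop c := Nat.cast_nonneg _
  refine ⟨by simp [kerK, h0], fun j hj => ?_, ?_⟩
  · exact div_le_div_of_nonneg_right (mul_le_mul_of_nonneg_right (h1 j hj) (Nat.cast_nonneg N)) hn
  · exact div_le_div_of_nonneg_right
      (mul_le_mul_of_nonneg_right (qTop_le_pTop β a c hm hN _ τ) (Nat.cast_nonneg N)) hn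

theorem kerP_le (hm : IsHaarOrth m) {L : ℝ} (hL : (N : ℝ) ≤ L * nTop c) (hn : 0 < nTop c) (τ : ℕ → ℝ) :
    kerP m k β a c τ ≤ L := by
  rw [kerP, div_le_iff₀ hn]
  exact (mul_le_of_le_one_left (Nat.cast_nonneg N) (Syn.pTop_mem β c _ hm τ a).2).trans hL

end kernel

/-! ### tail variables and images -/

variable {K K' : ℕ → ℝ} {P P' : ℝ}

theorem dOfK_eq_kv : dOfK k K P = Energy.kv k K P := rfl

theorem dOfK_nonneg (h : IsKer k K P) (j : ℕ) : 0 ≤ dOfK k K P j :=
  Energy.IsKer.kv_nonneg (Qm := P) ⟨h.1, h.2.1, h.2.2, le_rfl⟩ j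

theorem dOfK_le (h : IsKer k K P) {j : ℕ} (hj : j ≤ k) : dOfK k K P j ≤ P :=
  Energy.IsKer.kv_le (Qm := P) ⟨h.1, h.2.1, h.2.2, le_rfl⟩ hj

/-- The distance of two kernels. -/
noncomputable def kerDist (k : ℕ) (K : ℕ → ℝ) (P : ℝ) (K' : ℕ → ℝ) (P' : ℝ) : ℝ :=
  |P - P'| + 3 * ((k : ℝ) + 1) * ∑ l ∈ Icc 1 k, |K l - K' l|

theorem kerDist_nonneg : 0 ≤ kerDist k K P K' P' := by unfold kerDist; positivity

theorem abs_dOfK_sub_le (h0 : K 0 = 0) (h0' : K' 0 = 0) (j : ℕ) :
    |dOfK k K P j - dOfK k K' P' j| ≤ kerDist k K P K' P' := by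
  set S := ∑ l ∈ Icc 1 k, |K l - K' l|
  have hS : 0 ≤ S := sum_nonneg fun _ _ => abs_nonneg _
  have hl : ∀ l ≤ k, |K l - K' l| ≤ S := fun l hl => by
    rcases Nat.eq_zero_or_pos l with rfl | h
    · simpa [h0, h0'] using hS
    · exact single_le_sum (f := fun l => |K l - K' l|) (fun _ _ => abs_nonneg _) (mem_Icc.2 ⟨h, hl⟩)
  have hsum : |∑ i ∈ Ico j k, lev k (i + 1) * (K (i + 1) - K i)
      - ∑ i ∈ Ico j k, lev k (i + 1) * (K' (i + 1) - K' i)| ≤ k * (2 * S) := by
    rw [← sum_sub_distrib]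
    refine (abs_sum_le_sum_abs _ _).trans ((sum_le_card_nsmul _ _ (2 * S) fun i hi => ?_).trans ?_)
    · obtain ⟨-, hik⟩ := mem_Ico.1 hi
      rw [← mul_sub, abs_mul, abs_of_pos (lev_pos' k i)]
      refine (mul_le_of_le_one_left (abs_nonneg _)
        (P157.Rsb.lev_le_one (by omega : i + 1 ≤ k + 1))).trans ?_
      have h1 := abs_le.1 (hl (i + 1) (by omega))
      have h2 := abs_le.1 (hl i (by omega))
      rw [abs_le]; constructor <;> linarith
    · rw [Nat.card_Ico, nsmul_eq_mul]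
      exact mul_le_mul_of_nonneg_right (by exact_mod_cast Nat.sub_le k j) (by positivity)
  have hk := abs_le.1 (hl k le_rfl)
  have hP := abs_le.1 (le_refl |P - P'|)
  rw [abs_le] at hsum
  have hk0 : (0 : ℝ) ≤ k * S := mul_nonneg (Nat.cast_nonneg k) hS
  unfold dOfK kerDist
  rw [abs_le]
  constructor <;> linarith

theorem abs_swapV_sub_le (A : Atoms d) {β : ℝ} (hβ : 0 < β) {u u' : ℝ} (hu : 0 ≤ u) (hu' : 0 ≤ u') :
    |A.swapV β u - A.swapV β u'| ≤ |u - u'| := by
  have key : ∀ {x y : ℝ}, 0 ≤ x → x ≤ y → 0 ≤ A.swapV β y - A.swapV β x ∧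
      A.swapV β y - A.swapV β x ≤ y - x := fun {x y} hx hxy => by
    simp only [Atoms.swapV, ← sum_sub_distrib, ← mul_sub]
    refine ⟨sum_nonneg fun e _ => mul_nonneg (A.w_pos e).le (A.swapK_sub_le hβ e hx hxy).1, ?_⟩
    calc ∑ e, A.w e * (A.swapK β e y - A.swapK β e x) ≤ ∑ e, A.w e * (y - x) :=
          sum_le_sum fun e _ => mul_le_mul_of_nonneg_left (A.swapK_sub_le hβ e hx hxy).2 (A.w_pos e).le
      _ = y - x := by rw [← sum_mul, A.w_sum, one_mul]
  rcases le_total u' u with h | h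
  · obtain ⟨h1, h2⟩ := key hu' h
    rw [abs_of_nonneg h1, abs_of_nonneg (sub_nonneg.2 h)]; exact h2
  · obtain ⟨h1, h2⟩ := key hu h
    rw [abs_sub_comm, abs_of_nonneg h1, abs_sub_comm u, abs_of_nonneg (sub_nonneg.2 h)]; exact h2

theorem abs_imgV_sub_le (A : Atoms d) {β : ℝ} (hβ : 0 < β) (h : IsKer k K P) (h' : IsKer k K' P')
    (j : ℕ) : |imgV A β k K P j - imgV A β k K' P' j| ≤ kerDist k K P K' P' :=
  (abs_swapV_sub_le A hβ (dOfK_nonneg h j) (dOfK_nonneg h' j)).trans (abs_dOfK_sub_le h.1 h'.1 j)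

theorem combV_id (V : ℕ → ℝ) : combV k V (fun v => v) = V k + imgQ k V k := rfl

theorem imgQ_sub_le {V V' : ℕ → ℝ} {E : ℝ} (hE : ∀ i ≤ k, |V i - V' i| ≤ E) {l : ℕ} (hl : l ≤ k) :
    |imgQ k V l - imgQ k V' l| ≤ 2 * k * ((k : ℝ) + 1) * E := by
  have hE0 : 0 ≤ E := (abs_nonneg _).trans (hE 0 (Nat.zero_le k))
  simp only [imgQ, ← sum_sub_distrib, ← sub_div]
  refine (abs_sum_le_sum_abs _ _).trans ((sum_le_card_nsmul _ _ (2 * E * ((k : ℝ) + 1)) fun i hi => ?_).trans ?_)
  · have hi := mem_range.1 hi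
    have h1 := abs_le.1 (hE i (by omega))
    have h2 := abs_le.1 (hE (i + 1) (by omega))
    rw [abs_div, abs_of_pos (lev_pos' k i), div_le_iff₀ (lev_pos' k i)]
    have hlev : 1 ≤ ((k : ℝ) + 1) * lev k (i + 1) := by
      simp only [P157.Rsb.lev]
      rw [mul_div_cancel₀ _ (by positivity)]
      push_cast
      linarith [(Nat.cast_nonneg i : (0 : ℝ) ≤ i)]
    calc |V i - V (i + 1) - (V' i - V' (i + 1))| ≤ 2 * E := by rw [abs_le]; constructor <;> linarith
      _ ≤ 2 * E * (((k : ℝ) + 1) * lev k (i + 1)) := le_mul_of_one_le_right (by positivity) hlev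
      _ = _ := by ring
  · rw [card_range, nsmul_eq_mul]
    calc (l : ℝ) * (2 * E * ((k : ℝ) + 1)) ≤ k * (2 * E * ((k : ℝ) + 1)) :=
          mul_le_mul_of_nonneg_right (by exact_mod_cast hl) (by positivity)
      _ = _ := by ring

/-- How far the spin path `q` is from the image of the kernel. -/
noncomputable def imgDist (A : Atoms d) (β : ℝ) (k : ℕ) (K : ℕ → ℝ) (P : ℝ) (q : ℕ → ℝ) : ℝ :=
  |combV k (imgV A β k K P) (fun v => v) - 1|
    + P157.Rsb.mass k * ∑ l ∈ Icc 1 k, |q l - imgQ k (imgV A β k K P) l|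

theorem imgDist_nonneg (A : Atoms d) (β : ℝ) (q : ℕ → ℝ) : 0 ≤ imgDist A β k K P q :=
  add_nonneg (abs_nonneg _) (mul_nonneg P157.Rsb.mass_pos.le (sum_nonneg fun _ _ => abs_nonneg _))

theorem mass_sum_const_le (E : ℝ) (hE : 0 ≤ E) {f : ℕ → ℝ} (hf : ∀ l ∈ Icc 1 k, f l ≤ E) :
    P157.Rsb.mass k * ∑ l ∈ Icc 1 k, f l ≤ E := by
  refine (mul_le_mul_of_nonneg_left (sum_le_card_nsmul _ _ E hf) P157.Rsb.mass_pos.le).trans ?_
  rw [Nat.card_Icc, nsmul_eq_mul, Nat.add_sub_cancel, ← mul_assoc]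
  refine mul_le_of_le_one_left hE ?_
  unfold P157.Rsb.mass
  rw [div_mul_eq_mul_div, one_mul, div_le_one (by positivity)]
  linarith

/-- The distance of the image moves with the kernel. -/
theorem imgDist_le (A : Atoms d) {β : ℝ} (hβ : 0 < β) (h : IsKer k K P) (h' : IsKer k K' P')
    (q : ℕ → ℝ) :
    imgDist A β k K P q ≤ imgDist A β k K' P' q
      + (1 + 4 * k * ((k : ℝ) + 1)) * kerDist k K P K' P' := by
  set V := imgV A β k K P
  set V' := imgV A β k K' P'
  set E := kerDist k K P K' P'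
  have hE : ∀ i ≤ k, |V i - V' i| ≤ E := fun i _ => abs_imgV_sub_le A hβ h h' i
  have h1 : |combV k V (fun v => v) - 1| ≤ |combV k V' (fun v => v) - 1|
      + (E + 2 * k * ((k : ℝ) + 1) * E) := by
    have a1 := abs_le.1 (hE k le_rfl)
    have a2 := abs_le.1 (imgQ_sub_le hE (le_refl k))
    have a3 := abs_le.1 (le_refl |combV k V' (fun v => v) - 1|)
    rw [combV_id, combV_id] at *
    rw [abs_le]; constructor <;> linarith
  have h2 : P157.Rsb.mass k * ∑ l ∈ Icc 1 k, |q l - imgQ k V l|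
      ≤ P157.Rsb.mass k * ∑ l ∈ Icc 1 k, |q l - imgQ k V' l| + 2 * k * ((k : ℝ) + 1) * E := by
    have h3 := mass_sum_const_le (k := k) (2 * k * ((k : ℝ) + 1) * E)
      (by have := kerDist_nonneg (k := k) (K := K) (P := P) (K' := K') (P' := P'); positivity)
      (f := fun l => |imgQ k V' l - imgQ k V l|) fun l hl => by
        rw [abs_sub_comm]; exact imgQ_sub_le hE (mem_Icc.1 hl).2
    refine le_trans ?_ (add_le_add le_rfl h3)
    rw [← mul_add, ← sum_add_distrib]
    exact mul_le_mul_of_nonneg_left (sum_le_sum fun l _ => abs_sub_le _ _ _) P157.Rsb.mass_pos.le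
  simp only [imgDist]
  linarith

/-- A crude bound on the distance of the image. -/
theorem imgDist_bdd (A : Atoms d) {β L : ℝ} (hβ : 0 < β) (h : IsKer k K P) (hL : P ≤ L) {q : ℕ → ℝ}
    (hq : IsPath k q) :
    imgDist A β k K P q ≤ 3 + (1 + 4 * k * ((k : ℝ) + 1)) * L := by
  set V := imgV A β k K P
  have hV : ∀ i ≤ k, |V i - (fun _ => (0 : ℝ)) i| ≤ L := fun i hi => by
    have h0 := dOfK_nonneg h i
    have hu := abs_swapV_sub_le A hβ h0 (le_refl (0 : ℝ))
    have e : A.swapV β 0 = 0 := by simp [Atoms.swapV, Atoms.swapK]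
    rw [e, sub_zero, sub_zero, abs_of_nonneg h0] at hu
    simpa [V, imgV] using hu.trans ((dOfK_le h hi).trans hL)
  have e0 : ∀ l, imgQ k (fun _ => (0 : ℝ)) l = 0 := fun l => by simp [imgQ]
  have hL0 : 0 ≤ L := ((dOfK_nonneg h 0).trans (dOfK_le h (Nat.zero_le k))).trans hL
  have h2 : ∀ l ∈ Icc 1 k, |q l - imgQ k V l| ≤ 1 + 2 * k * ((k : ℝ) + 1) * L := fun l hl => by
    have a := imgQ_sub_le hV (mem_Icc.1 hl).2
    rw [e0, sub_zero] at a
    have b := P157.Rsb.path_mem hq (mem_Icc.1 hl).2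
    rw [abs_le] at a ⊢
    constructor <;> linarith
  have h3 := mass_sum_const_le (k := k) _ (by positivity) h2
  have h4 : |combV k V (fun v => v) - 1| ≤ 1 + L + 2 * k * ((k : ℝ) + 1) * L := by
    have a := imgQ_sub_le hV (le_refl k)
    have b := hV k le_rfl
    rw [e0, sub_zero] at a
    simp only [sub_zero] at b
    rw [combV_id]
    rw [abs_le] at a b ⊢
    constructor <;> linarith
  simp only [imgDist]
  linarith

/-- The distance of the image of a system, as a function of the perturbation, is integrable. -/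
theorem pertInt_imgDist {η δ δ' β : ℝ} {m : Measure (Fin N → Fin N → ℝ)} (A : Atoms d) (hβ : 0 < β)
    (c : Fin N → Fin (d + 1)) (hm : IsHaarOrth m) (hN : 1 ≤ N) (hn : 0 < nTop c) (hδ : 0 < δ)
    (hδ' : 0 < δ') :
    Syn.PertInt k η δ δ' fun τ h => imgDist (A.up h) β k (kerK m k β (raise A.a h) c τ)
      (kerP m k β (raise A.a h) c τ) (qSpin m k β (raise A.a h) c (fun _ => 0) τ) := by
  refine Syn.PertInt.of_meas (C := 3 + (1 + 4 * k * ((k : ℝ) + 1)) * (N / nTop c)) hδ hδ' ?_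
    fun y h => ?_
  · have hK := fun l => ((Syn.qTop_meas (k := k) β A.a c (fun _ => 0) hm l).mul_const (N : ℝ)).div_const (nTop c)
    have hP := ((Syn.pTop_meas (k := k) β A.a c (fun _ => 0) hm).mul_const (N : ℝ)).div_const (nTop c)
    have hS := fun l => Syn.qSpin_meas (k := k) β A.a c (fun _ => 0) hm l
    have hV : ∀ i, Measurable fun q : (Fin k → ℝ) × ℝ => imgV (A.up q.2) β k
        (kerK m k β (raise A.a q.2) c (P157.Rsb.lift q.1))
        (kerP m k β (raise A.a q.2) c (P157.Rsb.lift q.1)) i := fun i => by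
      have hD : Measurable fun q : (Fin k → ℝ) × ℝ => dOfK k
          (kerK m k β (raise A.a q.2) c (P157.Rsb.lift q.1))
          (kerP m k β (raise A.a q.2) c (P157.Rsb.lift q.1)) i :=
        (hP.sub (hK k)).add
          (Finset.measurable_sum _ fun l _ => ((hK (l + 1)).sub (hK l)).const_mul _)
      have hA : ∀ e, Measurable fun q : (Fin k → ℝ) × ℝ => raise A.a (max q.2 0) e := fun e => by
        unfold raise; split_ifs <;> fun_prop
      simp only [imgV, Atoms.swapV, Atoms.swapK, Atoms.top, Atoms.up]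
      exact Finset.measurable_sum _ fun e _ => (hD.div (measurable_const.add
        ((((hA _).sub (hA e)).const_mul β).mul hD))).const_mul _
    have hQ : ∀ l, Measurable fun q : (Fin k → ℝ) × ℝ => imgQ k (imgV (A.up q.2) β k
        (kerK m k β (raise A.a q.2) c (P157.Rsb.lift q.1))
        (kerP m k β (raise A.a q.2) c (P157.Rsb.lift q.1))) l := fun l =>
      Finset.measurable_sum _ fun i _ => ((hV i).sub (hV (i + 1))).div_const _
    simp only [imgDist, combV_id]
    exact (continuous_abs.measurable.comp (((hV k).add (hQ k)).sub_const 1)).add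
      ((Finset.measurable_sum _ fun l _ => continuous_abs.measurable.comp ((hS l).sub (hQ l))).const_mul _)
  · rw [abs_of_nonneg (imgDist_nonneg _ _ _)]
    exact imgDist_bdd (A.up h) hβ (isKer_ker β _ c hm hN _)
      (kerP_le β _ c hm (le_of_eq (div_mul_cancel₀ _ hn.ne').symm) hn _)
      (isPath_qSpin β _ c hm hN _ _)

end Vale.Agent.P166.Rsb
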