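import Vale.Agent.P166.Rsb.CavPins

/-!
# P166: the secular data depend continuously on the weights
-/

open Real Finset

namespace Vale.Agent.P166.Rsb

variable {d : ℕ}

namespace Secular

variable (S : Secular d) {γ η R w₀ : ℝ}

/-- Every zero stays away from every value. -/
theorem abs_ν_sub_ge (hγ : 0 < γ) (hgap : ∀ r : Fin d, S.a r.castSucc + γ ≤ S.a r.succ) (hw : 0 < w₀)
    (hω : ∀ e, w₀ ≤ S.ω e) (r : Fin d) (e : Fin (d + 1)) :
    w₀ * γ / 2 ≤ |S.ν r - S.a e| := by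
  obtain ⟨h1, h2⟩ := S.ν_mem r
  set lo := S.a r.castSucc
  set hi := S.a r.succ
  set x := S.ν r
  have hw1 : w₀ ≤ 1 := by
    refine (hω 0).trans ?_
    rw [← S.sum]
    exact single_le_sum (f := S.ω) (fun i _ => (S.pos i).le) (mem_univ 0)
  -- the values below and above
  set L := univ.filter fun e : Fin (d + 1) => e ≤ r.castSucc
  set H := univ.filter fun e : Fin (d + 1) => ¬ e ≤ r.castSucc
  have hg : ∑ e ∈ L, S.ω e / (x - S.a e) = ∑ e ∈ H, S.ω e / (S.a e - x) := by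
    have h := (sum_filter_add_sum_filter_not univ (fun e : Fin (d + 1) => e ≤ r.castSucc)
      fun e => S.ω e / (x - S.a e)).trans (S.g_ν r)
    have e1 : ∑ e ∈ H, S.ω e / (S.a e - x) = -∑ e ∈ H, S.ω e / (x - S.a e) := by
      rw [← sum_neg_distrib]
      exact sum_congr rfl fun e _ => by rw [← neg_sub, div_neg]
    rw [e1]
    linarith
  have hLle : ∀ e ∈ L, S.a e ≤ lo := fun e he => S.mono.monotone (mem_filter.1 he).2
  have hHle : ∀ e ∈ H, hi ≤ S.a e := fun e he =>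
    S.mono.monotone (Fin.castSucc_lt_iff_succ_le.1 (not_le.1 (mem_filter.1 he).2))
  have hpart : ∀ T : Finset (Fin (d + 1)), ∑ e ∈ T, S.ω e ≤ 1 := fun T => by
    rw [← S.sum]; exact sum_le_univ_sum_of_nonneg fun i => (S.pos i).le
  have hbelow : ∑ e ∈ L, S.ω e / (x - S.a e) ≤ 1 / (x - lo) := by
    refine (sum_le_sum fun e he => div_le_div_of_nonneg_left (S.pos e).le (sub_pos.2 h1)
      (by linarith [hLle e he] : x - lo ≤ x - S.a e)).trans ?_
    rw [← sum_div]
    exact div_le_div_of_nonneg_right (hpart L) (sub_pos.2 h1).le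
  have habove : ∑ e ∈ H, S.ω e / (S.a e - x) ≤ 1 / (hi - x) := by
    refine (sum_le_sum fun e he => div_le_div_of_nonneg_left (S.pos e).le (sub_pos.2 h2)
      (by linarith [hHle e he] : hi - x ≤ S.a e - x)).trans ?_
    rw [← sum_div]
    exact div_le_div_of_nonneg_right (hpart H) (sub_pos.2 h2).le
  have hlo : S.ω r.castSucc / (x - lo) ≤ ∑ e ∈ L, S.ω e / (x - S.a e) :=
    single_le_sum (f := fun e => S.ω e / (x - S.a e))
      (fun e he => div_nonneg (S.pos e).le (by linarith [hLle e he]))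
      (mem_filter.2 ⟨mem_univ _, le_rfl⟩)
  have hhi : S.ω r.succ / (hi - x) ≤ ∑ e ∈ H, S.ω e / (S.a e - x) :=
    single_le_sum (f := fun e => S.ω e / (S.a e - x))
      (fun e he => div_nonneg (S.pos e).le (by linarith [hHle e he]))
      (mem_filter.2 ⟨mem_univ _, not_le.2 Fin.castSucc_lt_succ⟩)
  have hgp := hgap r
  have a1 : w₀ * γ / 2 ≤ x - lo := by
    by_cases h : γ / 2 ≤ x - lo
    · nlinarith
    · have h3 : 1 / (hi - x) ≤ 2 / γ := by
        rw [div_le_div_iff₀ (sub_pos.2 h2) hγ]; linarith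
      have h4 : w₀ / (x - lo) ≤ 2 / γ :=
        ((div_le_div_of_nonneg_right (hω _) (sub_pos.2 h1).le).trans hlo).trans
          ((hg.trans_le habove).trans h3)
      rw [div_le_div_iff₀ (sub_pos.2 h1) hγ] at h4
      linarith
  have a2 : w₀ * γ / 2 ≤ hi - x := by
    by_cases h : γ / 2 ≤ hi - x
    · nlinarith
    · have h3 : 1 / (x - lo) ≤ 2 / γ := by
        rw [div_le_div_iff₀ (sub_pos.2 h1) hγ]; linarith
      have h4 : w₀ / (hi - x) ≤ 2 / γ :=
        ((div_le_div_of_nonneg_right (hω _) (sub_pos.2 h2).le).trans hhi).trans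
          ((hg.symm.trans_le hbelow).trans h3)
      rw [div_le_div_iff₀ (sub_pos.2 h2) hγ] at h4
      linarith
  by_cases he : e ≤ r.castSucc
  · have := hLle e (mem_filter.2 ⟨mem_univ _, he⟩)
    rw [abs_of_pos (by linarith)]
    linarith
  · have := hHle e (mem_filter.2 ⟨mem_univ _, he⟩)
    rw [abs_of_neg (by linarith)]
    linarith

theorem abs_ν_sub_le (hR : ∀ e f, |S.a e - S.a f| ≤ R) (r : Fin d) (e : Fin (d + 1)) :
    |S.ν r - S.a e| ≤ R := by
  obtain ⟨h1, h2⟩ := S.ν_mem r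
  have a := abs_le.1 (hR r.succ e)
  have b := abs_le.1 (hR r.castSucc e)
  rw [abs_le]
  constructor <;> linarith

theorem nrm_ge (hR : ∀ e f, |S.a e - S.a f| ≤ R) (r : Fin d) : 1 / R ^ 2 ≤ S.nrm r := by
  rw [← S.sum, sum_div]
  refine sum_le_sum fun e _ => div_le_div_of_nonneg_left (S.pos e).le (sq_pos_of_ne_zero (S.ν_sub_ne r e)) ?_
  rw [← sq_abs (S.ν r - S.a e)]
  exact pow_le_pow_left₀ (abs_nonneg _) (S.abs_ν_sub_le hR r e) 2

theorem abs_cpl_le (hR : ∀ e f, |S.a e - S.a f| ≤ R) (r : Fin d) : |S.cpl r| ≤ R := by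
  have hR0 : 0 < R := (abs_pos.2 (S.ν_sub_ne r 0)).trans_le (S.abs_ν_sub_le hR r 0)
  have h : 1 / R ≤ √(S.nrm r) := by
    rw [← sqrt_sq (by positivity : 0 ≤ 1 / R)]
    exact sqrt_le_sqrt (by rw [div_pow, one_pow]; exact S.nrm_ge hR r)
  rw [cpl, abs_div, abs_neg, abs_one, abs_of_nonneg (sqrt_nonneg _),
    div_le_iff₀ (sqrt_pos.2 (S.nrm_pos r))]
  rw [div_le_iff₀ hR0] at h
  linarith

/-- The data move by a multiple of the change of the weights. -/
theorem data_close (T : Secular d) (ha : S.a = T.a) (hR : ∀ e f, |S.a e - S.a f| ≤ R) (hη : 0 < η)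
    (hS : ∀ r e, η ≤ |S.ν r - S.a e|) (hT : ∀ r e, η ≤ |T.ν r - T.a e|) {ρ : ℝ}
    (hρ : ∀ e, |S.ω e - T.ω e| ≤ ρ) (r : Fin d) :
    |S.ν r - T.ν r| ≤ (d + 1) * ρ * R ^ 2 / η ∧
      |S.cpl r - T.cpl r| ≤
        R ^ 3 * ((d + 1) * ρ / η ^ 2 + 2 * R * ((d + 1) * ρ * R ^ 2 / η) / η ^ 4) := by
  have hR0 : 0 < R := hη.trans_le ((hS r 0).trans (S.abs_ν_sub_le hR r 0))
  have hRT : ∀ e f, |T.a e - T.a f| ≤ R := fun e f => by rw [← ha]; exact hR e f
  set x := S.ν r
  set y := T.ν r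
  have hyb : ∀ e, |y - S.a e| ≤ R := fun e => by rw [ha]; exact T.abs_ν_sub_le hRT r e
  have hye : ∀ e, η ≤ |y - S.a e| := fun e => by rw [ha]; exact hT r e
  have hprod : ∀ e, 0 < (x - S.a e) * (y - S.a e) ∧ (x - S.a e) * (y - S.a e) ≤ R ^ 2 := fun e => by
    have hxb := S.abs_ν_sub_le hR r e
    have hpos : 0 < (x - S.a e) * (y - S.a e) := by
      obtain ⟨h1, h2⟩ := S.ν_mem r
      obtain ⟨h3, h4⟩ := T.ν_mem r
      rw [← ha] at h3 h4
      rcases le_or_gt e r.castSucc with he | he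
      · have := S.mono.monotone he
        exact mul_pos (by linarith) (by linarith)
      · have := S.mono.monotone (Fin.castSucc_lt_iff_succ_le.1 he)
        exact mul_pos_of_neg_of_neg (by linarith) (by linarith)
    refine ⟨hpos, (le_abs_self _).trans ?_⟩
    rw [abs_mul, sq]
    exact mul_le_mul hxb (hyb e) (abs_nonneg _) hR0.le
  have hd : |x - y| ≤ (d + 1) * ρ * R ^ 2 / η := by
    set P := ∑ e, T.ω e / ((x - S.a e) * (y - S.a e))
    have hP : 1 / R ^ 2 ≤ P := by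
      rw [← T.sum, sum_div]
      exact sum_le_sum fun e _ => div_le_div_of_nonneg_left (T.pos e).le (hprod e).1 (hprod e).2
    have e1 : (y - x) * P = ∑ e, (T.ω e - S.ω e) / (x - S.a e) := by
      have hy0 : ∑ e, T.ω e / (y - S.a e) = 0 := by rw [ha]; exact T.g_ν r
      have hx0 : ∑ e, S.ω e / (x - S.a e) = 0 := S.g_ν r
      simp only [sub_div, sum_sub_distrib, hx0, sub_zero]
      rw [mul_sum, ← sub_zero (∑ e, T.ω e / (x - S.a e)), ← hy0, ← sum_sub_distrib]
      refine sum_congr rfl fun e _ => ?_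
      have : x - S.a e ≠ 0 := S.ν_sub_ne r e
      have := abs_pos.1 (hη.trans_le (hye e))
      field_simp
      ring
    have e2 : |(y - x) * P| ≤ (d + 1) * ρ / η := by
      rw [e1]
      refine (abs_sum_le_sum_abs _ _).trans ((sum_le_card_nsmul univ _ (ρ / η) fun e _ => ?_).trans_eq ?_)
      · rw [abs_div, abs_sub_comm]
        exact (div_le_div_of_nonneg_right (hρ e) (abs_nonneg _)).trans
          (div_le_div_of_nonneg_left ((abs_nonneg _).trans (hρ e)) hη (hS r e))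
      · simp [mul_div_assoc]
    rw [abs_mul, abs_of_pos ((by positivity : (0 : ℝ) < 1 / R ^ 2).trans_le hP), abs_sub_comm] at e2
    have e3 := (mul_le_mul_of_nonneg_left hP (abs_nonneg (x - y))).trans e2
    rw [mul_one_div, div_le_iff₀ (by positivity)] at e3
    exact e3.trans (le_of_eq (by ring))
  refine ⟨hd, ?_⟩
  set K := (d + 1) * ρ / η ^ 2 + 2 * R * ((d + 1) * ρ * R ^ 2 / η) / η ^ 4
  have hn : |S.nrm r - T.nrm r| ≤ K := by
    simp only [nrm, ← ha]
    have e1 : ∀ e, S.ω e / (x - S.a e) ^ 2 - T.ω e / (y - S.a e) ^ 2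
        = (S.ω e - T.ω e) / (x - S.a e) ^ 2
          + T.ω e * ((y - x) * ((y - S.a e) + (x - S.a e)) / ((x - S.a e) ^ 2 * (y - S.a e) ^ 2)) := fun e => by
      have : x - S.a e ≠ 0 := S.ν_sub_ne r e
      have := abs_pos.1 (hη.trans_le (hye e))
      field_simp
      ring
    rw [← sum_sub_distrib, sum_congr rfl fun e _ => e1 e, sum_add_distrib]
    refine (abs_add_le _ _).trans (add_le_add ?_ ?_)
    · refine (abs_sum_le_sum_abs _ _).trans ((sum_le_card_nsmul univ _ (ρ / η ^ 2) fun e _ => ?_).trans_eq ?_)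
      · rw [abs_div, abs_pow]
        exact (div_le_div_of_nonneg_right (hρ e) (by positivity)).trans
          (div_le_div_of_nonneg_left ((abs_nonneg _).trans (hρ e)) (by positivity)
            (pow_le_pow_left₀ hη.le (hS r e) 2))
      · simp [mul_div_assoc]
    · set Q := 2 * R * ((d + 1) * ρ * R ^ 2 / η) / η ^ 4
      refine (abs_sum_le_sum_abs _ _).trans ((sum_le_sum (g := fun e => T.ω e * Q) fun e _ => ?_).trans_eq ?_)
      · rw [abs_mul, abs_of_pos (T.pos e)]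
        refine mul_le_mul_of_nonneg_left ?_ (T.pos e).le
        rw [abs_div, abs_mul, abs_mul, abs_pow, abs_pow, abs_sub_comm y x]
        refine div_le_div₀ (mul_nonneg (by linarith) ((abs_nonneg _).trans hd)) ?_ (by positivity) ?_
        · rw [mul_comm]
          exact mul_le_mul ((abs_add_le _ _).trans (by linarith [hyb e, S.abs_ν_sub_le hR r e])) hd
            (abs_nonneg _) (by linarith)
        · rw [show η ^ 4 = η ^ 2 * η ^ 2 by ring]
          exact mul_le_mul (pow_le_pow_left₀ hη.le (hS r e) 2) (pow_le_pow_left₀ hη.le (hye e) 2)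
            (by positivity) (by positivity)
      · rw [← sum_mul, T.sum, one_mul]
  have hu := sqrt_pos.2 (S.nrm_pos r)
  have hv := sqrt_pos.2 (T.nrm_pos r)
  have h1 : ∀ U : Secular d, (∀ e f, |U.a e - U.a f| ≤ R) → 1 / R ≤ √(U.nrm r) := fun U hU => by
    rw [← sqrt_sq (by positivity : 0 ≤ 1 / R)]
    exact sqrt_le_sqrt (by rw [div_pow, one_pow]; exact U.nrm_ge hU r)
  have e2 : S.cpl r - T.cpl r
      = (S.nrm r - T.nrm r) / ((√(S.nrm r) + √(T.nrm r)) * (√(S.nrm r) * √(T.nrm r))) := by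
    rw [cpl, cpl]
    field_simp
    linear_combination sq_sqrt (S.nrm_pos r).le - sq_sqrt (T.nrm_pos r).le
  rw [e2, abs_div, abs_of_pos (mul_pos (add_pos hu hv) (mul_pos hu hv))]
  refine (div_le_div₀ ((abs_nonneg _).trans hn) hn (by positivity : (0 : ℝ) < (1 / R) * ((1 / R) * (1 / R))) ?_).trans
    (le_of_eq (by field_simp))
  refine mul_le_mul (by linarith [h1 S hR, h1 T hRT]) (mul_le_mul (h1 S hR) (h1 T hRT) (by positivity) hu.le)
    (by positivity) (by positivity)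

/-- The tilts and couplings move by a multiple of the change of the weights. -/
theorem tilt_close (T : Secular d) (ha : S.a = T.a) (hR : ∀ e f, |S.a e - S.a f| ≤ R) (hη : 0 < η)
    (hS : ∀ r e, η ≤ |S.ν r - S.a e|) (hT : ∀ r e, η ≤ |T.ν r - T.a e|) {ρ β : ℝ}
    (hρ : ∀ e, |S.ω e - T.ω e| ≤ ρ) (hβ : 0 ≤ β) (r : Fin d) :
    β * η ≤ S.tT β r ∧ S.tT β r ≤ β * R ∧ |S.tB β r| ≤ β * R ∧
      |S.tT β r - T.tT β r| ≤ β * (((d : ℝ) + 1) * R ^ 2 / η) * ρ ∧
      |S.tB β r - T.tB β r| ≤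
        β * (R ^ 3 * (((d : ℝ) + 1) / η ^ 2 + 2 * R * (((d : ℝ) + 1) * R ^ 2 / η) / η ^ 4)) * ρ := by
  obtain ⟨hν, hc⟩ := S.data_close T ha hR hη hS hT hρ r
  have htop := S.ν_lt_top r
  have hlow := hS r (Fin.last d)
  rw [abs_of_neg (by linarith)] at hlow
  have hup := abs_le.1 (S.abs_ν_sub_le hR r (Fin.last d))
  refine ⟨mul_le_mul_of_nonneg_left (by linarith) hβ, mul_le_mul_of_nonneg_left (by linarith) hβ,
    ?_, ?_, ?_⟩
  · rw [tB, abs_mul, abs_of_nonneg hβ]
    exact mul_le_mul_of_nonneg_left (S.abs_cpl_le hR r) hβ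
  · rw [tT, tT, ← mul_sub, abs_mul, abs_of_nonneg hβ, ← ha, sub_sub_sub_cancel_left, abs_sub_comm,
      mul_assoc β]
    exact mul_le_mul_of_nonneg_left (hν.trans (le_of_eq (by ring))) hβ
  · rw [tB, tB, ← mul_sub, abs_mul, abs_of_nonneg hβ, mul_assoc β]
    exact mul_le_mul_of_nonneg_left (hc.trans (le_of_eq (by ring))) hβ

/-- The mean moves by a multiple of the change of the weights. -/
theorem mean_close (T : Secular d) (ha : S.a = T.a) (hM : ∀ e, |S.a e| ≤ R) {ρ : ℝ}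
    (hρ : ∀ e, |S.ω e - T.ω e| ≤ ρ) : |S.mean - T.mean| ≤ ((d : ℝ) + 1) * R * ρ := by
  have e1 : S.mean - T.mean = ∑ e, (S.ω e - T.ω e) * S.a e := by
    simp only [mean, ← sum_sub_distrib, sub_mul, ha]
  rw [e1]
  refine (abs_sum_le_sum_abs _ _).trans ((sum_le_card_nsmul univ _ (ρ * R) fun e _ => ?_).trans_eq ?_)
  · rw [abs_mul]
    exact mul_le_mul (hρ e) (hM e) (abs_nonneg _) ((abs_nonneg _).trans (hρ e))
  · rw [card_univ, Fintype.card_fin, nsmul_eq_mul]
    push_cast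
    ring

end Secular

/-- Module H, continuity of the secular data. -/
theorem secStmt : SecStmt := by
  intro d A β hβ
  obtain ⟨e₀, -, he₀⟩ := exists_min_image (univ : Finset (Fin (d + 1))) A.w univ_nonempty
  set w₀ := A.w e₀ / 2 with hw₀
  have hw : 0 < w₀ := by have := A.w_pos e₀; positivity
  have hgp : ∀ r : Fin d, 0 < A.a r.succ - A.a r.castSucc := fun r => sub_pos.2 (A.mono Fin.castSucc_lt_succ)
  set γ := 1 / (1 + ∑ r : Fin d, 1 / (A.a r.succ - A.a r.castSucc)) with hγd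
  have hden : 0 < 1 + ∑ r : Fin d, 1 / (A.a r.succ - A.a r.castSucc) :=
    add_pos_of_pos_of_nonneg one_pos (sum_nonneg fun r _ => (one_div_pos.2 (hgp r)).le)
  have hγ : 0 < γ := one_div_pos.2 hden
  have hγr : ∀ r : Fin d, γ ≤ A.a r.succ - A.a r.castSucc := fun r => by
    rw [hγd, div_le_iff₀ hden, ← div_le_iff₀' (hgp r)]
    exact (single_le_sum (f := fun r : Fin d => 1 / (A.a r.succ - A.a r.castSucc))
      (fun r _ => (one_div_pos.2 (hgp r)).le) (mem_univ r)).trans (by linarith)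
  set R := 2 * (∑ e, |A.a e|) + 1
  have hR0 : 0 < R := by positivity
  set η := min (w₀ * γ / 2) γ
  have hη : 0 < η := lt_min (by positivity) hγ
  set C₁ := ((d : ℝ) + 1) * R ^ 2 / η
  set C₂ := R ^ 3 * (((d : ℝ) + 1) / η ^ 2 + 2 * R * C₁ / η ^ 4)
  set C₃ := β * (C₁ + C₂) + ((d : ℝ) + 1) * R + 1
  have hC₃ : 0 < C₃ := by positivity
  refine ⟨β * η, β * R, mul_pos hβ hη, fun ε hε => ⟨min w₀ (ε / C₃), lt_min hw (div_pos hε hC₃),
    fun h hh0 hh1 ω hp hs hω => ?_⟩⟩
  intro S S₀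
  have hωw : ∀ e, w₀ ≤ ω e := fun e => by
    have := abs_le.1 ((hω e).trans (min_le_left _ _))
    have := he₀ e (mem_univ e)
    linarith
  have hwA : ∀ e, w₀ ≤ A.w e := fun e => by linarith [he₀ e (mem_univ e)]
  have hα : ∀ e, (A.up h).a e = A.a e + if e = Fin.last d then h else 0 := fun e => by
    show raise A.a (max h 0) e = _
    rw [max_eq_left hh0, raise]
  have hgap : ∀ r : Fin d, (A.up h).a r.castSucc + γ ≤ (A.up h).a r.succ := fun r => by
    rw [hα, hα, if_neg (Fin.castSucc_lt_last r).ne]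
    split_ifs <;> linarith [hγr r]
  have hb : ∀ e, |(A.up h).a e| ≤ ∑ e, |A.a e| + h := fun e => by
    have hsum := single_le_sum (f := fun e => |A.a e|) (fun _ _ => abs_nonneg _) (mem_univ e)
    rw [hα, abs_le]
    have := abs_le.1 hsum
    split_ifs <;> constructor <;> linarith
  have hR : ∀ e f, |(A.up h).a e - (A.up h).a f| ≤ R := fun e f => by
    rw [hα, hα]
    have h1 := single_le_sum (f := fun e => |A.a e|) (fun _ _ => abs_nonneg _) (mem_univ e)
    have h2 := single_le_sum (f := fun e => |A.a e|) (fun _ _ => abs_nonneg _) (mem_univ f)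
    rw [abs_le]
    split_ifs <;> constructor <;>
      linarith [(abs_le.1 h1).1, (abs_le.1 h1).2, (abs_le.1 h2).1, (abs_le.1 h2).2]
  have hS : ∀ r e, η ≤ |S.ν r - S.a e| := fun r e =>
    (min_le_left _ _).trans (S.abs_ν_sub_ge hγ hgap hw hωw r e)
  have hS₀ : ∀ r e, η ≤ |S₀.ν r - S₀.a e| := fun r e =>
    (min_le_left _ _).trans (S₀.abs_ν_sub_ge hγ hgap hw hwA r e)
  have hρ : 0 < min w₀ (ε / C₃) := lt_min hw (div_pos hε hC₃)
  have hρε : C₃ * min w₀ (ε / C₃) ≤ ε := by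
    have := (le_div_iff₀ hC₃).1 (min_le_right w₀ (ε / C₃))
    linarith
  have hle : ∀ C, 0 ≤ C → C ≤ C₃ → C * min w₀ (ε / C₃) ≤ ε := fun C _ h =>
    (mul_le_mul_of_nonneg_right h hρ.le).trans hρε
  have p1 : 0 ≤ β * C₁ := by positivity
  have p2 : 0 ≤ β * C₂ := by positivity
  have p3 : 0 ≤ ((d : ℝ) + 1) * R := by positivity
  have h3 : C₃ = β * C₁ + β * C₂ + ((d : ℝ) + 1) * R + 1 := by simp only [C₃]; ring
  refine ⟨fun r => ?_, ?_, fun f => ?_⟩
  · obtain ⟨k1, k2, k3, k4, k5⟩ := S.tilt_close S₀ rfl hR hη hS hS₀ hω hβ.le r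
    exact ⟨k1, k2, k3, k4.trans (hle _ p1 (by linarith)), k5.trans (hle _ p2 (by linarith))⟩
  · have : 0 ≤ ∑ e, |A.a e| := sum_nonneg fun _ _ => abs_nonneg _
    refine (S.mean_close S₀ rfl (fun e => (hb e).trans ?_) hω).trans (hle _ p3 (by linarith))
    linarith
  · have hlt : A.a f.castSucc + γ ≤ A.a (Fin.last d) := by
      have := hγr f
      linarith [A.mono.monotone (Fin.le_last f.succ)]
    have h2 := abs_le.1 (hR (Fin.last d) f.castSucc)
    simp only [baseT, add_zero]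
    refine ⟨mul_le_mul_of_nonneg_left ?_ hβ.le, mul_le_mul_of_nonneg_left h2.2 hβ.le⟩
    rw [hα, hα, if_pos rfl, if_neg (Fin.castSucc_lt_last f).ne]
    linarith [min_le_right (w₀ * γ / 2) γ]

end Vale.Agent.P166.Rsb
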