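import Vale.Agent.P166.Rsb.CavDefs
import Vale.Agent.P166.Rsb.Pins

/-!
# P166: telescoping over the dimension

With the labels drawn independently from the weights the mean value grows by exactly the mean
increment.  Labels far from the weights are rare, and labels close to them have close pressures.
-/

open MeasureTheory Real Finset

namespace Vale.Agent.P166.Rsb

variable {d N : ℕ} (A : Atoms d)

/-- The weight of a labelling. -/
noncomputable def labP (c : Fin N → Fin (d + 1)) : ℝ := ∏ i, A.w (c i)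

theorem labP_nonneg (c : Fin N → Fin (d + 1)) : 0 ≤ labP A c := prod_nonneg fun i _ => (A.w_pos _).le

theorem labP_cons (e : Fin (d + 1)) (c : Fin N → Fin (d + 1)) :
    labP A (Fin.cons e c : Fin (N + 1) → Fin (d + 1)) = A.w e * labP A c := by
  simp [labP, Fin.prod_univ_succ]

theorem sum_labP : ∑ c : Fin N → Fin (d + 1), labP A c = 1 := by
  unfold labP
  rw [← Fintype.prod_sum (f := fun (_ : Fin N) e => A.w e)]
  simp [A.w_sum]

theorem sum_cons (f : (Fin (N + 1) → Fin (d + 1)) → ℝ) :
    ∑ c, f c = ∑ e, ∑ c : Fin N → Fin (d + 1), f (Fin.cons e c) := by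
  rw [← (Fin.consEquiv fun _ : Fin (N + 1) => Fin (d + 1)).sum_comp f, Fintype.sum_prod_type]
  rfl

theorem sum_labP_cons (f : (Fin (N + 1) → Fin (d + 1)) → ℝ) :
    ∑ c, labP A c * f c
      = ∑ c : Fin N → Fin (d + 1), labP A c * ∑ e, A.w e * f (Fin.cons e c) := by
  rw [sum_cons, sum_comm]
  refine sum_congr rfl fun c _ => ?_
  rw [mul_sum]
  exact sum_congr rfl fun e _ => by rw [labP_cons]; ring

/-- The deviation of one count. -/
noncomputable def dev (c : Fin N → Fin (d + 1)) (e : Fin (d + 1)) : ℝ := blockCard c e - A.w e * N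

theorem dev_cons (e' e : Fin (d + 1)) (c : Fin N → Fin (d + 1)) :
    dev A (Fin.cons e' c : Fin (N + 1) → Fin (d + 1)) e
      = dev A c e + ((if e' = e then 1 else 0) - A.w e) := by
  simp only [dev, blockCard, card_filter, Fin.sum_univ_succ, Fin.cons_zero, Fin.cons_succ]
  push_cast
  split_ifs <;> ring

theorem sum_w_ind (e : Fin (d + 1)) : ∑ f, A.w f * ((if f = e then (1 : ℝ) else 0) - A.w e) = 0 := by
  simp only [mul_sub, sum_sub_distrib, mul_ite, mul_one, mul_zero, sum_ite_eq', mem_univ, if_true,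
    ← sum_mul, A.w_sum, one_mul, sub_self]

theorem w_le_one (e : Fin (d + 1)) : A.w e ≤ 1 :=
  A.w_sum ▸ single_le_sum (f := A.w) (fun f _ => (A.w_pos f).le) (mem_univ e)

theorem abs_ind_le (f e : Fin (d + 1)) : |(if f = e then (1 : ℝ) else 0) - A.w e| ≤ 1 := by
  have := A.w_pos e
  have := w_le_one A e
  rw [abs_le]
  split_ifs <;> constructor <;> linarith

theorem mean_dev (e : Fin (d + 1)) : ∀ N, ∑ c : Fin N → Fin (d + 1), labP A c * dev A c e = 0 := by
  intro N
  induction N with
  | zero => simp [dev, blockCard]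
  | succ N ih =>
    rw [sum_labP_cons]
    simp only [dev_cons, mul_add, sum_add_distrib, sum_w_ind, add_zero, ← sum_mul, A.w_sum, one_mul]
    simpa using ih

theorem sq_dev_le (e : Fin (d + 1)) : ∀ N, ∑ c : Fin N → Fin (d + 1), labP A c * dev A c e ^ 2 ≤ N := by
  intro N
  induction N with
  | zero => simp [dev, blockCard]
  | succ N ih =>
    rw [sum_labP_cons]
    have h : ∀ c : Fin N → Fin (d + 1), labP A c *
        ∑ f, A.w f * dev A (Fin.cons f c : Fin (N + 1) → Fin (d + 1)) e ^ 2
          ≤ labP A c * dev A c e ^ 2 + labP A c := fun c => by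
      rw [← mul_add_one]
      refine mul_le_mul_of_nonneg_left ?_ (labP_nonneg A c)
      calc ∑ f, A.w f * dev A (Fin.cons f c : Fin (N + 1) → Fin (d + 1)) e ^ 2
          ≤ ∑ f, (A.w f * (dev A c e ^ 2 + 1)
              + 2 * dev A c e * (A.w f * ((if f = e then 1 else 0) - A.w e))) :=
            sum_le_sum fun f _ => by
              rw [dev_cons]
              have h1 := sq_le_one_iff_abs_le_one _ |>.2 (abs_ind_le A f e)
              have := mul_le_mul_of_nonneg_left h1 (A.w_pos f).le
              linarith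
        _ = _ := by rw [sum_add_distrib, ← sum_mul, A.w_sum, ← mul_sum, sum_w_ind]; ring
    refine (sum_le_sum fun c _ => h c).trans ?_
    rw [sum_add_distrib, sum_labP]
    push_cast
    linarith

theorem pow4_dev_le (e : Fin (d + 1)) :
    ∀ N, ∑ c : Fin N → Fin (d + 1), labP A c * dev A c e ^ 4 ≤ 3 * (N : ℝ) ^ 2 := by
  intro N
  induction N with
  | zero => simp [dev, blockCard]
  | succ N ih =>
    rw [sum_labP_cons]
    set τ : ℝ := ∑ f, A.w f * ((if f = e then 1 else 0) - A.w e) ^ 3
    have h : ∀ c : Fin N → Fin (d + 1), labP A c *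
        ∑ f, A.w f * dev A (Fin.cons f c : Fin (N + 1) → Fin (d + 1)) e ^ 4
          ≤ labP A c * dev A c e ^ 4 + 6 * (labP A c * dev A c e ^ 2)
            + 4 * τ * (labP A c * dev A c e) + labP A c := fun c => by
      have e1 : labP A c * dev A c e ^ 4 + 6 * (labP A c * dev A c e ^ 2)
          + 4 * τ * (labP A c * dev A c e) + labP A c
          = labP A c * (dev A c e ^ 4 + 6 * dev A c e ^ 2 + 4 * dev A c e * τ + 1) := by ring
      rw [e1]
      refine mul_le_mul_of_nonneg_left ?_ (labP_nonneg A c)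
      set S := dev A c e
      calc ∑ f, A.w f * dev A (Fin.cons f c : Fin (N + 1) → Fin (d + 1)) e ^ 4
          ≤ ∑ f, (A.w f * (S ^ 4 + 6 * S ^ 2 + 1)
              + 4 * S ^ 3 * (A.w f * ((if f = e then 1 else 0) - A.w e))
              + 4 * S * (A.w f * ((if f = e then 1 else 0) - A.w e) ^ 3)) :=
            sum_le_sum fun f _ => by
              rw [dev_cons]
              set X : ℝ := (if f = e then 1 else 0) - A.w e
              have h2 : X ^ 2 ≤ 1 := sq_le_one_iff_abs_le_one _ |>.2 (abs_ind_le A f e)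
              have h4 : X ^ 4 ≤ 1 := by nlinarith [sq_nonneg X]
              have := mul_le_mul_of_nonneg_left
                (add_le_add (mul_le_mul_of_nonneg_left h2 (by positivity : (0 : ℝ) ≤ 6 * S ^ 2)) h4)
                (A.w_pos f).le
              linarith [show A.w f * (S + X) ^ 4 = A.w f * (S ^ 4 + (6 * S ^ 2 * X ^ 2 + X ^ 4))
                + 4 * S ^ 3 * (A.w f * X) + 4 * S * (A.w f * X ^ 3) by ring]
        _ = _ := by
            rw [sum_add_distrib, sum_add_distrib, ← sum_mul, A.w_sum, ← mul_sum, ← mul_sum, sum_w_ind]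
            ring
    refine (sum_le_sum fun c _ => h c).trans ?_
    rw [sum_add_distrib, sum_add_distrib, sum_add_distrib, ← mul_sum, ← mul_sum, sum_labP, mean_dev]
    have := sq_dev_le A e N
    push_cast
    nlinarith

open Classical in
/-- Labellings far from the weights are rare. -/
theorem bad_le {θ : ℝ} (hθ : 0 < θ) (hN : 1 ≤ N) :
    ∑ c : Fin N → Fin (d + 1), labP A c * (if Fits A c θ then 0 else 1)
      ≤ 3 * ((d : ℝ) + 1) / (θ ^ 4 * (N : ℝ) ^ 2) := by
  have hN' : (0 : ℝ) < N := by exact_mod_cast hN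
  have hθN : 0 < θ * N := mul_pos hθ hN'
  have h : ∀ c : Fin N → Fin (d + 1),
      (if Fits A c θ then (0 : ℝ) else 1) ≤ ∑ e, dev A c e ^ 4 / (θ * N) ^ 4 := fun c => by
    split_ifs with hf
    · exact sum_nonneg fun e _ => div_nonneg (by positivity) (by positivity)
    · simp only [Fits, not_forall, not_le] at hf
      obtain ⟨e, he⟩ := hf
      refine le_trans ?_ (single_le_sum (f := fun e => dev A c e ^ 4 / (θ * N) ^ 4)
        (fun e _ => div_nonneg (by positivity) (by positivity)) (mem_univ e))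
      rw [one_le_div (pow_pos hθN 4), show dev A c e ^ 4 = |dev A c e| ^ 4 by
        rw [pow_abs, abs_of_nonneg (by positivity)]]
      exact pow_le_pow_left₀ hθN.le he.le 4
  refine (sum_le_sum fun c _ => mul_le_mul_of_nonneg_left (h c) (labP_nonneg A c)).trans ?_
  simp only [mul_sum, ← mul_div_assoc]
  rw [sum_comm]
  simp only [← sum_div]
  rw [sum_div]
  refine (sum_le_sum (g := fun _ => 3 * (N : ℝ) ^ 2 / (θ * N) ^ 4) fun e _ =>
    div_le_div_of_nonneg_right (pow4_dev_le A e N) (by positivity)).trans (le_of_eq ?_)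
  rw [sum_const, card_univ, Fintype.card_fin, nsmul_eq_mul]
  push_cast
  field_simp

omit A in
/-- Two labellings agree after a permutation outside the difference of their counts. -/
theorem exists_perm_agree (c c' : Fin N → Fin (d + 1)) :
    ∃ pr : Equiv.Perm (Fin N), ((univ.filter fun i => c i ≠ c' (pr i)).card : ℝ)
      ≤ ∑ e, |(blockCard c e : ℝ) - blockCard c' e| := by
  classical
  obtain ⟨pr, -, hpr⟩ := exists_min_image (univ : Finset (Equiv.Perm (Fin N)))
    (fun pr => (univ.filter fun i => c i ≠ c' (pr i)).card) univ_nonempty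
  refine ⟨pr, ?_⟩
  set D := fun e => univ.filter fun i => c i = e ∧ c' (pr i) ≠ e
  set E := fun e => univ.filter fun i => c' (pr i) = e ∧ c i ≠ e
  have hcnt : ∀ e, (blockCard c e : ℝ) - blockCard c' e = (D e).card - (E e).card := fun e => by
    have h1 : blockCard c' e = (univ.filter fun i => c' (pr i) = e).card :=
      card_equiv pr.symm fun i => by simp
    rw [h1, blockCard]
    simp only [D, E, card_filter]
    push_cast
    rw [← sum_sub_distrib, ← sum_sub_distrib]
    refine sum_congr rfl fun i _ => ?_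
    by_cases h1 : c i = e <;> by_cases h2 : c' (pr i) = e <;> simp [h1, h2]
  have hone : ∀ e, D e = ∅ ∨ E e = ∅ := fun e => by
    by_contra hne
    simp only [not_or, ← nonempty_iff_ne_empty] at hne
    obtain ⟨⟨i, hi⟩, j, hj⟩ := hne
    simp only [D, E, mem_filter, mem_univ, true_and] at hi hj
    have hlt : (univ.filter fun l => c l ≠ c' ((Equiv.swap i j).trans pr l)).card
        < (univ.filter fun l => c l ≠ c' (pr l)).card := by
      refine card_lt_card ((ssubset_iff_of_subset fun l hl => ?_).2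
        ⟨i, mem_filter.2 ⟨mem_univ _, fun h : c i = c' (pr i) => hi.2 (h.symm.trans hi.1)⟩,
          fun h => (mem_filter.1 h).2 (by rw [Equiv.trans_apply, Equiv.swap_apply_left, hi.1, hj.1])⟩)
      have hl' : c l ≠ c' (pr (Equiv.swap i j l)) := (mem_filter.1 hl).2
      refine mem_filter.2 ⟨mem_univ _, ?_⟩
      rcases eq_or_ne l i with rfl | hli
      · rw [Equiv.swap_apply_left] at hl'; exact absurd (hi.1.trans hj.1.symm) hl'
      rcases eq_or_ne l j with rfl | hlj
      · exact fun h => hj.2 (h.trans hj.1)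
      · rwa [Equiv.swap_apply_of_ne_of_ne hli hlj] at hl'
    exact absurd (hpr ((Equiv.swap i j).trans pr) (mem_univ _)) (not_le.2 hlt)
  have hle : ∀ e, ((D e).card : ℝ) ≤ |(blockCard c e : ℝ) - blockCard c' e| := fun e => by
    rw [hcnt]
    rcases hone e with h | h
    · simp [h]
    · simp [h]
  refine le_trans (le_of_eq ?_) (sum_le_sum fun e _ => hle e)
  rw [← Nat.cast_sum]
  congr 1
  rw [card_eq_sum_card_fiberwise (f := c) (t := univ) fun _ _ => mem_univ _]
  refine sum_congr rfl fun e _ => congrArg Finset.card ?_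
  ext i
  simp only [D, mem_filter, mem_univ, true_and]
  exact ⟨fun h => ⟨h.2, fun h' => h.1 (h.2.trans h'.symm)⟩, fun h => ⟨fun h' => h.2 (h'.symm.trans h.1), h.1⟩⟩

omit A in
/-- A coordinate carries at most the share of its block. -/
theorem blockCard_mul_mass {β : ℝ} {m : Measure (Fin N → Fin N → ℝ)} (hm : IsHaarOrth m)
    (a : Fin (d + 1) → ℝ) (c : Fin N → Fin (d + 1)) (i : Fin N) :
    (blockCard c (c i) : ℝ) * P166.mass β m (fun l => a (c l)) i ≤ N := by
  have h : ∀ l ∈ univ.filter (fun l => c l = c i),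
      P166.mass β m (fun l => a (c l)) l = P166.mass β m (fun l => a (c l)) i := fun l hl => by
    have hl : c l = c i := (mem_filter.1 hl).2
    have hc : (fun l => a (c l)) ∘ Equiv.swap i l = fun l => a (c l) := by
      funext x
      simp only [Function.comp_apply, Equiv.swap_apply_def]
      split_ifs with h1 h2 <;> simp [*]
    have := mass_perm (β := β) hm (Equiv.swap i l) (fun l => a (c l)) i
    rw [hc, Equiv.swap_apply_left] at this
    exact this.symm
  calc (blockCard c (c i) : ℝ) * P166.mass β m (fun l => a (c l)) i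
      = ∑ l ∈ univ.filter (fun l => c l = c i), P166.mass β m (fun l => a (c l)) l := by
        rw [sum_congr rfl h, sum_const, nsmul_eq_mul, blockCard]
    _ ≤ ∑ l, P166.mass β m (fun l => a (c l)) l :=
        sum_le_univ_sum_of_nonneg fun l => mass_nonneg _ _
    _ = N := sum_mass hm _

/-- Labellings close to the weights have close pressures. -/
theorem exists_meanP_lip {β : ℝ} (hβ : 0 ≤ β) :
    ∃ C θ₀ : ℝ, 0 ≤ C ∧ 0 < θ₀ ∧ ∀ θ : ℝ, θ ≤ θ₀ → ∀ (N : ℕ), 1 ≤ N →
      ∀ (c c' : Fin N → Fin (d + 1)), Fits A c θ → Fits A c' θ →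
        ∀ (m : Measure (Fin N → Fin N → ℝ)), IsHaarOrth m →
          |meanP m β A.a c - meanP m β A.a c'| ≤ C * θ := by
  obtain ⟨e₀, -, he₀⟩ := exists_min_image univ A.w univ_nonempty
  set w₀ := A.w e₀
  have hw : 0 < w₀ := A.w_pos _
  set R := ∑ e, |A.a e|
  have hR : 0 ≤ R := sum_nonneg fun e _ => abs_nonneg _
  refine ⟨β * (2 * R) * (4 / w₀) * ((d : ℝ) + 1), w₀ / 2, by positivity, by linarith,
    fun θ hθ N hN c c' hc hc' m hm => ?_⟩
  have hN' : (0 : ℝ) < N := by exact_mod_cast hN
  have := hm.1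
  obtain ⟨pr, hpr⟩ := exists_perm_agree c c'
  set lam := fun i => A.a (c i)
  set lam' := fun i => A.a (c' (pr i))
  have hperm : ∫ U, press β lam' U ∂m = meanP m β A.a c' := by
    have := integral_press_perm (β := β) hm pr (fun i => A.a (c' i)) continuous_id
    simpa [Function.comp_def, meanP, lam'] using this
  have hmass : ∀ (f : Fin N → Fin (d + 1)), Fits A f θ → ∀ i,
      P166.mass β m (fun l => A.a (f l)) i ≤ 2 / w₀ := fun f hf i => by
    have h1 : w₀ / 2 * N ≤ blockCard f (f i) := by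
      have h2 := (abs_le.1 (hf (f i))).1
      have h3 := mul_le_mul_of_nonneg_right (he₀ (f i) (mem_univ _)) hN'.le
      have h4 := mul_le_mul_of_nonneg_right hθ hN'.le
      simp only [blockCard] at *
      linarith
    have h2 := (mul_le_mul_of_nonneg_right h1 (mass_nonneg (β := β) (m := m)
      (fun l => A.a (f l)) i)).trans (blockCard_mul_mass hm A.a f i)
    rw [le_div_iff₀ hw]
    nlinarith
  have hfit : Fits A (fun i => c' (pr i)) θ := fun e => by
    have h1 : (univ.filter fun i => c' (pr i) = e).card = (univ.filter fun i => c' i = e).card :=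
      card_equiv pr fun i => by simp
    rw [h1]; exact hc' e
  have hcard : ((univ.filter fun i => c i ≠ c' (pr i)).card : ℝ) ≤ 2 * ((d : ℝ) + 1) * (θ * N) := by
    refine hpr.trans ((sum_le_sum fun e _ => ?_).trans (le_of_eq (b := ∑ _e : Fin (d + 1), 2 * (θ * N)) rfl) |>.trans ?_)
    · have a1 := abs_le.1 (hc e)
      have a2 := abs_le.1 (hc' e)
      simp only [blockCard]
      rw [abs_le]
      constructor <;> linarith
    · rw [sum_const, card_univ, Fintype.card_fin, nsmul_eq_mul]
      push_cast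
      linarith
  calc |meanP m β A.a c - meanP m β A.a c'|
      = |∫ U, (press β lam U - press β lam' U) ∂m| := by
        rw [integral_sub (integrable_press hm hβ (by omega) _) (integrable_press hm hβ (by omega) _),
          hperm]
        rfl
    _ ≤ ∫ U, |press β lam U - press β lam' U| ∂m := abs_integral_le_integral_abs
    _ ≤ β / (2 * N) * ∑ i, |lam i - lam' i| * (P166.mass β m lam i + P166.mass β m lam' i) :=
        integral_abs_press_sub_le hm hβ (by omega) lam lam'
    _ ≤ β / (2 * N) * ∑ i, (if c i ≠ c' (pr i) then 2 * R * (4 / w₀) else 0) := by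
        refine mul_le_mul_of_nonneg_left (sum_le_sum fun i _ => ?_) (by positivity)
        by_cases h : c i = c' (pr i)
        · simp [lam, lam', h]
        · rw [if_pos h]
          have hs : ∀ e, |A.a e| ≤ R := fun e =>
            single_le_sum (f := fun e => |A.a e|) (fun _ _ => abs_nonneg _) (mem_univ e)
          have hm1 := hmass c hc i
          have hm2 := hmass _ hfit i
          refine mul_le_mul ((abs_sub _ _).trans (by linarith [hs (c i), hs (c' (pr i))])) ?_
            (add_nonneg (mass_nonneg _ _) (mass_nonneg _ _)) (by positivity)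
          have : 4 / w₀ = 2 / w₀ + 2 / w₀ := by ring
          rw [this]
          exact add_le_add hm1 hm2
    _ = β / (2 * N) * ((univ.filter fun i => c i ≠ c' (pr i)).card * (2 * R * (4 / w₀))) := by
        rw [← sum_filter, sum_const, nsmul_eq_mul]
    _ ≤ β / (2 * N) * (2 * ((d : ℝ) + 1) * (θ * N) * (2 * R * (4 / w₀))) :=
        mul_le_mul_of_nonneg_left (mul_le_mul_of_nonneg_right hcard (by positivity)) (by positivity)
    _ = _ := by field_simp

/-- The mean of a functional over the labellings. -/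
noncomputable def avgF (F : ∀ N, (Fin N → Fin (d + 1)) → ℝ) (N : ℕ) : ℝ :=
  ∑ c : Fin N → Fin (d + 1), labP A c * F N c

open Classical in
/-- The mean increment where the increments are bounded below off rare labellings. -/
theorem avgF_step {B I θ : ℝ} (hθ : 0 < θ) (F : ∀ N, (Fin N → Fin (d + 1)) → ℝ)
    (hB : ∀ N c, |F N c| ≤ B * N) (hN : 1 ≤ N)
    (hinc : ∀ c : Fin N → Fin (d + 1), Fits A c θ →
      I ≤ ∑ e, A.w e * F (N + 1) (Fin.cons e c) - F N c) :
    I - 3 * ((d : ℝ) + 1) * (|I| + 3 * B) / (θ ^ 4 * N) ≤ avgF A F (N + 1) - avgF A F N := by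
  have hNp : (0 : ℝ) < N := by exact_mod_cast hN
  have h4 : (1 : ℝ) ≤ N := by exact_mod_cast hN
  have hB0 : 0 ≤ B := by simpa using (abs_nonneg _).trans (hB 1 fun _ => 0)
  set K := (|I| + 3 * B) * N with hK
  have key : ∀ c : Fin N → Fin (d + 1),
      labP A c * I - labP A c * (if Fits A c θ then 0 else 1) * K
        ≤ labP A c * (∑ e, A.w e * F (N + 1) (Fin.cons e c)) - labP A c * F N c := fun c => by
    rw [← mul_sub, mul_assoc, ← mul_sub]
    refine mul_le_mul_of_nonneg_left ?_ (labP_nonneg A c)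
    split_ifs with hf
    · simpa using hinc c hf
    · have h2 : -(B * (N + 1 : ℕ)) ≤ ∑ e, A.w e * F (N + 1) (Fin.cons e c) := by
        calc -(B * (N + 1 : ℕ)) = ∑ e, A.w e * -(B * (N + 1 : ℕ)) := by
              rw [← sum_mul, A.w_sum, one_mul]
          _ ≤ _ := sum_le_sum fun e _ =>
              mul_le_mul_of_nonneg_left (abs_le.1 (hB _ _)).1 (A.w_pos e).le
      have h3 := (abs_le.1 (hB N c)).2
      have h5 := (le_abs_self I).trans (le_mul_of_one_le_right (abs_nonneg I) h4)
      have h6 := le_mul_of_one_le_right hB0 h4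
      push_cast at h2
      rw [hK, one_mul, add_mul]
      linarith
  have h := sum_le_sum (s := univ) fun c _ => key c
  rw [sum_sub_distrib, sum_sub_distrib, ← sum_mul, sum_labP, one_mul, ← sum_mul, ← sum_labP_cons] at h
  refine le_trans ?_ h
  have hb := mul_le_mul_of_nonneg_right (bad_le A hθ hN) (show 0 ≤ K by positivity)
  have e : 3 * ((d : ℝ) + 1) / (θ ^ 4 * (N : ℝ) ^ 2) * K
      = 3 * ((d : ℝ) + 1) * (|I| + 3 * B) / (θ ^ 4 * N) := by
    rw [hK]; field_simp
  linarith

open Classical in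
/-- The mean is at most the value at the labellings close to the weights. -/
theorem avgF_le {B X θ : ℝ} (hθ : 0 < θ) (F : ∀ N, (Fin N → Fin (d + 1)) → ℝ)
    (hB : ∀ N c, |F N c| ≤ B * N) (hN : 1 ≤ N)
    (hX : ∀ c : Fin N → Fin (d + 1), Fits A c θ → F N c ≤ X) :
    avgF A F N ≤ X + 3 * ((d : ℝ) + 1) * (B * N + |X|) / (θ ^ 4 * (N : ℝ) ^ 2) := by
  have hB0 : 0 ≤ B := by simpa using (abs_nonneg _).trans (hB 1 fun _ => 0)
  set K := B * (N : ℝ) + |X| with hK
  have key : ∀ f : Fin N → Fin (d + 1), labP A f * F N f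
      ≤ labP A f * X + labP A f * (if Fits A f θ then 0 else 1) * K := fun f => by
    rw [mul_assoc (labP A f) (ite _ _ _), ← mul_add]
    refine mul_le_mul_of_nonneg_left ?_ (labP_nonneg A f)
    split_ifs with hf
    · simpa using hX f hf
    · rw [one_mul, hK]
      linarith [(abs_le.1 (hB N f)).2, neg_abs_le X]
  refine (sum_le_sum fun f _ => key f).trans ?_
  rw [sum_add_distrib, ← sum_mul, sum_labP, one_mul, ← sum_mul]
  refine add_le_add le_rfl ((mul_le_mul_of_nonneg_right (bad_le A hθ hN) (by positivity)).trans_eq ?_)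
  field_simp

/-- A lower bound on the mean increment passes to the pressure of every labelling close to the
weights, for any functional that is uniformly close to the pressure. -/
theorem meanP_ge_of_increments {β : ℝ} (hβ : 0 ≤ β) {B I ρ ε θ : ℝ} (hε : 0 < ε) (hθ : 0 < θ)
    (F : ∀ N, (Fin N → Fin (d + 1)) → ℝ) (hB : ∀ N c, |F N c| ≤ B * N)
    (hclose : ∀ N, 1 ≤ N → ∀ (c : Fin N → Fin (d + 1)) (m : Measure (Fin N → Fin N → ℝ)),
      IsHaarOrth m → |F N c - N * meanP m β A.a c| ≤ ρ * N)
    (N₀ : ℕ) (hinc : ∀ N, N₀ ≤ N → ∀ c : Fin N → Fin (d + 1), Fits A c θ →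
      I ≤ ∑ e, A.w e * F (N + 1) (Fin.cons e c) - F N c) :
    ∃ θ' : ℝ, 0 < θ' ∧ ∃ N' : ℕ, ∀ N, N' ≤ N → ∀ c : Fin N → Fin (d + 1), Fits A c θ' →
      ∀ (m : Measure (Fin N → Fin N → ℝ)), IsHaarOrth m → I - ρ - ε ≤ meanP m β A.a c := by
  obtain ⟨C, θ₀, hC, hθ₀, hlip⟩ := exists_meanP_lip A hβ
  have hB0 : 0 ≤ B := by simpa using (abs_nonneg _).trans (hB 1 fun _ => 0)
  set W := 3 * ((d : ℝ) + 1) * (|I| + 3 * B) / θ ^ 4
  have hW : 0 ≤ W := by positivity
  obtain ⟨N₁, hN₁⟩ := exists_nat_gt (W / (ε / 8) + N₀ + 1)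
  have hgrow : ∀ N, N₁ ≤ N → avgF A F N₁ + ((N : ℝ) - N₁) * (I - ε / 8) ≤ avgF A F N := by
    intro N hN
    induction N, hN using Nat.le_induction with
    | base => simp
    | succ N hN ih =>
      have hNb : (W / (ε / 8) : ℝ) + N₀ + 1 < N := hN₁.trans_le (by exact_mod_cast hN)
      have q : 0 ≤ W / (ε / 8) := by positivity
      have q' : (0 : ℝ) ≤ N₀ := Nat.cast_nonneg _
      have hNp : (0 : ℝ) < N := by linarith
      have hN0' : N₀ ≤ N := by exact_mod_cast (show (N₀ : ℝ) ≤ N by linarith)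
      have hN1' : 1 ≤ N := by exact_mod_cast (show (1 : ℝ) ≤ N by linarith)
      have h := avgF_step A hθ F hB hN1' (hinc N hN0')
      rw [← div_div] at h
      have hW8 : W / N ≤ ε / 8 := by
        rw [div_le_iff₀ hNp]
        have : W / (ε / 8) ≤ N := by linarith
        rw [div_le_iff₀ (by positivity)] at this
        linarith
      simp only [W] at hW8
      push_cast
      linarith
  set θ' := min θ₀ (ε / (8 * (C + 1)))
  have hθ' : 0 < θ' := lt_min hθ₀ (by positivity)
  have hCθ : C * θ' ≤ ε / 8 := by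
    refine (mul_le_mul_of_nonneg_left (min_le_right θ₀ (ε / (8 * (C + 1)))) hC).trans ?_
    rw [← mul_div_assoc, div_le_iff₀ (by positivity)]
    nlinarith
  set Z := 3 * ((d : ℝ) + 1) * (2 * B + 2 * |ρ| + ε) / θ' ^ 4
  obtain ⟨N', hN'⟩ := exists_nat_gt ((|avgF A F N₁| + N₁ * (|I| + ε) + Z) / (ε / 8) + N₁ + 1)
  refine ⟨θ', hθ', N', fun N hN c hc m hm => ?_⟩
  have hN2 : (|avgF A F N₁| + N₁ * (|I| + ε) + Z) / (ε / 8) + N₁ + 1 < (N : ℝ) :=
    hN'.trans_le (by exact_mod_cast hN)
  have q0 : 0 ≤ Z := by positivity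
  have q1 : 0 ≤ (|avgF A F N₁| + N₁ * (|I| + ε) + Z) / (ε / 8) := by positivity
  have q' : (0 : ℝ) ≤ N₁ := Nat.cast_nonneg _
  have hN1 : N₁ ≤ N := by exact_mod_cast (show (N₁ : ℝ) ≤ N by linarith)
  have h1N : 1 ≤ N := by exact_mod_cast (show (1 : ℝ) ≤ N by linarith)
  have hNp : (0 : ℝ) < N := by exact_mod_cast h1N
  set M := meanP m β A.a c
  have hM : |M| ≤ B + |ρ| := by
    have h2 := abs_le.1 ((hclose N h1N c m hm).trans
      (mul_le_mul_of_nonneg_right (le_abs_self ρ) hNp.le))
    have h3 := abs_le.1 (hB N c)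
    rw [abs_le]
    exact ⟨le_of_mul_le_mul_right (by linarith) hNp, le_of_mul_le_mul_right (by linarith) hNp⟩
  have hup := avgF_le A hθ' F hB h1N (X := N * (M + ρ + C * θ')) fun f hf => by
    have h2 := (abs_le.1 (hlip θ' (min_le_left _ _) N h1N f c hf hc m hm)).2
    have h3 := (abs_le.1 (hclose N h1N f m hm)).2
    have h4 := mul_le_mul_of_nonneg_left h2 hNp.le
    linarith
  have hX : |(N : ℝ) * (M + ρ + C * θ')| ≤ N * (B + 2 * |ρ| + ε / 8) := by
    rw [abs_mul, abs_of_pos hNp]
    refine mul_le_mul_of_nonneg_left ?_ hNp.le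
    refine (abs_add_three _ _ _).trans ?_
    rw [abs_of_nonneg (mul_nonneg hC hθ'.le)]
    linarith
  have hZ : 3 * ((d : ℝ) + 1) * (B * N + |(N : ℝ) * (M + ρ + C * θ')|) / (θ' ^ 4 * (N : ℝ) ^ 2)
      ≤ Z / N := by
    have e : Z / (N : ℝ) = 3 * ((d : ℝ) + 1) * ((2 * B + 2 * |ρ| + ε) * N) / (θ' ^ 4 * (N : ℝ) ^ 2) := by
      simp only [Z]; field_simp
    rw [e]
    refine div_le_div_of_nonneg_right (mul_le_mul_of_nonneg_left ?_ (by positivity)) (by positivity)
    linarith [mul_pos hε hNp]
  have a1 : |avgF A F N₁| + N₁ * (|I| + ε) + Z ≤ (N : ℝ) * (ε / 8) := by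
    have : (|avgF A F N₁| + N₁ * (|I| + ε) + Z) / (ε / 8) ≤ N := by linarith
    rwa [div_le_iff₀ (by positivity)] at this
  have a2 : Z / N ≤ Z := div_le_self q0 (by exact_mod_cast h1N)
  have a3 := hgrow N hN1
  have a4 : -((N₁ : ℝ) * (|I| + ε)) ≤ -((N₁ : ℝ) * (I - ε / 8)) :=
    neg_le_neg (mul_le_mul_of_nonneg_left (by linarith [le_abs_self I]) q')
  have a5 := mul_le_mul_of_nonneg_left hCθ hNp.le
  have a6 : (N : ℝ) * (I - ρ - ε) ≤ N * M := by
    linarith [neg_abs_le (avgF A F N₁), mul_pos hε hNp]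
  exact le_of_mul_le_mul_left a6 hNp

end Vale.Agent.P166.Rsb
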