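import Vale.Agent.P166.Rsb.Cav.LowPins
import Vale.Agent.P166.Rsb.Cav.Column
import Vale.Agent.P166.Rsb.Cav.Sec
import Vale.Agent.P166.Rsb.Cav.Cont
import Vale.Agent.P166.Rsb.Cav.Consist
import Vale.Agent.P166.Rsb.Cav.KerFacts
import Vale.Agent.P166.Rsb.Cav.Tele
import Vale.Agent.P166.Rsb.Cav.Alg

/-!
# P166: bounds on one step

`boundsStmt` puts the comparison in law, the tilt, the columns and the continuity in the weights
together.  Off the set where all weights of the new column are close to those of the law the crude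
bounds are used; that set has a mass of order one over the dimension.
-/

open MeasureTheory Real Finset
open Vale.Agent.P157.Cube2 (IsVar spinG bump)
open Vale.Agent.P166.Rsb.Slot (IsKer)

namespace Vale.Agent.P166.Rsb

variable {d N k p : ℕ}

/-! ### the limit value -/

/-- The limit value of bounded tilts is bounded. -/
theorem abs_tiltV_le {B C : ℝ}
    (hC : ∀ (k : ℕ) (K : ℕ → ℝ) (P : ℝ), IsKer k K P → P ≤ B →
      ∀ (T T' b b' : Fin p → ℝ), (∀ r, 0 ≤ T r ∧ T r ≤ B ∧ 0 ≤ T' r ∧ T' r ≤ B ∧ |b r| ≤ B ∧ |b' r| ≤ B) →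
        ∀ (j : ℕ) (s : ℝ), 1 ≤ j → j ≤ k → 0 ≤ s →
          |tiltV k T b K P j s - tiltV k T' b' K P j s| ≤ C * ∑ r, (|T r - T' r| + |b r - b' r|))
    (hC0 : 0 ≤ C) (hB : 0 ≤ B) {K : ℕ → ℝ} {P : ℝ} (hK : IsKer k K P) (hP : P ≤ B) {T b : Fin p → ℝ}
    (hT : ∀ r, 0 ≤ T r ∧ T r ≤ B ∧ |b r| ≤ B) {j : ℕ} (hj : 1 ≤ j) (hjk : j ≤ k) {s : ℝ} (hs : 0 ≤ s)
    (hs1 : s ≤ 1) : |tiltV k T b K P j s| ≤ C * (p * (2 * B)) + 1 := by
  have h := hC k K P hK hP T (fun _ => 0) b (fun _ => 0)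
    (fun r => ⟨(hT r).1, (hT r).2.1, le_rfl, hB, (hT r).2.2, by simpa using hB⟩) j s hj hjk hs
  have e : tiltV k (fun _ : Fin p => (0 : ℝ)) (fun _ => 0) K P j s = spinG k (bump (fun _ => 0) j s) := by
    have e1 : tiltR k (fun _ : Fin p => (0 : ℝ)) (fun _ => 0) (dOfK k K P) = fun _ => 0 :=
      funext fun i => by simp [tiltR, tiltF]
    rw [tiltV, e1]
    simp [tiltF, combV]
  have hz : IsVar k (fun _ : ℕ => (0 : ℝ)) := ⟨rfl, fun _ _ => le_rfl⟩
  have e2 : spinG k (fun _ => (0 : ℝ)) = 0 := by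
    simp [spinG, P157.Cube2.spinF_zero (Nat.zero_le k)]
  have h2 := abs_spinG_sub_le (isVar_bump hz hj hs) hz hs fun l _ => by
    simp only [bump, zero_add, sub_zero]
    split_ifs
    · rw [abs_of_nonneg hs]
    · simpa using hs
  have hsum : ∑ r, (|T r - 0| + |b r - 0|) ≤ p * (2 * B) := by
    refine (sum_le_card_nsmul univ _ (2 * B) fun r _ => ?_).trans_eq (by simp)
    rw [sub_zero, sub_zero, abs_of_nonneg (hT r).1]
    linarith [(hT r).2.1, (hT r).2.2]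
  rw [e2, sub_zero] at h2
  rw [e] at h
  have h3 := abs_le.1 (h.trans (mul_le_mul_of_nonneg_left hsum hC0))
  rw [abs_le] at h2 ⊢
  constructor <;> linarith

/-! ### tilts of the gain -/

/-- The tilts of the gain are admissible. -/
theorem gainT_mem {S : Secular d} {β t B u u' : ℝ} (hu : |u| ≤ t / 2) (hu' : |u'| ≤ t / 2)
    (hS : ∀ r, t ≤ S.tT β r ∧ S.tT β r ≤ B ∧ |S.tB β r| ≤ B)
    (hb : ∀ f : Fin d, t ≤ baseT β S.a 0 f ∧ baseT β S.a 0 f ≤ B) (e r : Fin (d + 1)) :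
    (t / 2 ≤ S.gainT β u u' e r ∧ S.gainT β u u' e r ≤ B + t / 2 ∧ |S.gainB β r| ≤ B + t / 2) ∨
      (S.gainT β u u' e r = 0 ∧ S.gainB β r = 0) := by
  obtain ⟨h1, h2⟩ := abs_le.1 hu
  obtain ⟨h3, h4⟩ := abs_le.1 hu'
  induction r using Fin.lastCases with
  | last =>
    by_cases he : e = Fin.last d
    · right; simp [Secular.gainT, Secular.gainB, he]
    · left
      obtain ⟨f, rfl⟩ := Fin.exists_castSucc_eq.2 he
      obtain ⟨b1, b2⟩ := hb f
      simp only [baseT, add_zero] at b1 b2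
      simp only [Secular.gainT, Secular.gainB, Fin.snoc_last, if_neg he, abs_zero]
      refine ⟨?_, ?_, ?_⟩ <;> linarith
  | cast r =>
    left
    obtain ⟨a1, a2, a3⟩ := hS r
    simp only [Secular.gainT, Secular.gainB, Fin.snoc_castSucc]
    refine ⟨?_, ?_, ?_⟩ <;> linarith

/-- The tilts of the gain at close weights are close. -/
theorem gain_dist {S S₀ : Secular d} {β η u u' : ℝ} (ha : S.a = S₀.a) (hη : 0 ≤ η)
    (h : ∀ r, |S.tT β r - S₀.tT β r| ≤ η ∧ |S.tB β r - S₀.tB β r| ≤ η) (e : Fin (d + 1)) :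
    ∑ r, (|S.gainT β u u' e r - S₀.gainT β 0 0 e r| + |S.gainB β r - S₀.gainB β r|)
      ≤ ((d : ℝ) + 1) * (2 * η + |u| + |u'|) := by
  refine (sum_le_card_nsmul univ _ (2 * η + |u| + |u'|) fun r _ => ?_).trans_eq (by simp; ring)
  have hu0 := abs_nonneg u
  have hu0' := abs_nonneg u'
  induction r using Fin.lastCases with
  | last =>
    simp only [Secular.gainT, Secular.gainB, Fin.snoc_last, ha, sub_self, abs_zero, add_zero]
    split_ifs with he
    · simp; linarith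
    · rw [add_sub_cancel_left]; linarith
  | cast r =>
    simp only [Secular.gainT, Secular.gainB, Fin.snoc_castSucc, add_zero]
    have := abs_add_le (S.tT β r - S₀.tT β r) u
    rw [show S.tT β r + u - S₀.tT β r = S.tT β r - S₀.tT β r + u by ring]
    linarith [h r]

theorem abs_mean_le (S : Secular d) : |S.mean| ≤ ∑ e, |S.a e| := by
  refine (abs_sum_le_sum_abs _ _).trans (sum_le_sum fun e _ => ?_)
  rw [abs_mul, abs_of_pos (S.pos e)]
  refine mul_le_of_le_one_left (abs_nonneg _) ?_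
  exact S.sum ▸ single_le_sum (f := S.ω) (fun f _ => (S.pos f).le) (mem_univ e)

theorem sum_abs_raise_le (A : Atoms d) {h : ℝ} (hh : |h| ≤ 1) :
    ∑ e, |raise A.a h e| ≤ ∑ e, |A.a e| + 1 := by
  refine (sum_le_sum fun e _ => abs_add_le (A.a e) (if e = Fin.last d then h else 0)).trans ?_
  rw [sum_add_distrib, sum_eq_single (f := fun e => |if e = Fin.last d then h else 0|) (Fin.last d)
    (fun e _ he => by simp [he]) (by simp), if_pos rfl]
  linarith

theorem strictMono_raise (A : Atoms d) {h : ℝ}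
    (hh : ∀ f : Fin d, A.a f.castSucc < A.a (Fin.last d) + h) : StrictMono (raise A.a h) := by
  intro e f hef
  have he : e ≠ Fin.last d := (hef.trans_le (Fin.le_last f)).ne
  simp only [raise, if_neg he]
  by_cases hf : f = Fin.last d
  · obtain ⟨e', rfl⟩ := Fin.exists_castSucc_eq.2 he
    subst hf
    rw [if_pos rfl]
    linarith [hh e']
  · rw [if_neg hf]
    linarith [A.mono hef]

/-! ### the weights of the new column -/

theorem colW_measurable (c : Fin (N + 1) → Fin (d + 1)) (e : Fin (d + 1)) :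
    Measurable fun U => colW c U e := by
  unfold colW; fun_prop

theorem sum_colW (c : Fin (N + 1) → Fin (d + 1)) {U : Fin (N + 1) → Fin (N + 1) → ℝ} (hU : IsOrth U) :
    ∑ e, colW c U e = 1 := by
  simp only [colW]
  rw [sum_fiberwise univ c fun i => U i 0 ^ 2]
  simpa [sq] using hU.2 0 0

theorem colW_mem (c : Fin (N + 1) → Fin (d + 1)) {U : Fin (N + 1) → Fin (N + 1) → ℝ} (hU : IsOrth U)
    (e : Fin (d + 1)) : 0 ≤ colW c U e ∧ colW c U e ≤ 1 := by
  have h0 : ∀ f, 0 ≤ colW c U f := fun f => sum_nonneg fun i _ => sq_nonneg _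
  exact ⟨h0 e, sum_colW c hU ▸ single_le_sum (fun f _ => h0 f) (mem_univ e)⟩

/-- The column weights are rarely far from the weights of the law. -/
theorem colW_bad_le {c : Fin (N + 1) → Fin (d + 1)} {m : Measure (Fin (N + 1) → Fin (N + 1) → ℝ)}
    (hm : IsHaarOrth m) {w : Fin (d + 1) → ℝ} {ρ : ℝ} (hρ : 0 < ρ)
    (hw : ∀ e, |(blockCard c e : ℝ) / (N + 1 : ℕ) - w e| ≤ ρ / 2) :
    m.real {U | ∃ e, ρ < |colW c U e - w e|} ≤ ((d : ℝ) + 1) * (16 / (ρ ^ 2 * (N + 1 : ℕ))) := by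
  have := hm.1
  set X := fun e (U : Fin (N + 1) → Fin (N + 1) → ℝ) =>
    (colW c U e - (blockCard c e : ℝ) / (N + 1 : ℕ)) ^ 2
  have hX : ∀ e, m.real {U | ρ < |colW c U e - w e|} ≤ 16 / (ρ ^ 2 * (N + 1 : ℕ)) := fun e => by
    have hsub : {U | ρ < |colW c U e - w e|} ⊆ {U | ρ ^ 2 / 4 ≤ X e U} := fun U (hU : ρ < _) => by
      have h := abs_sub_le (colW c U e) ((blockCard c e : ℝ) / (N + 1 : ℕ)) (w e)
      show ρ ^ 2 / 4 ≤ (colW c U e - (blockCard c e : ℝ) / (N + 1 : ℕ)) ^ 2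
      rw [← sq_abs (colW c U e - _)]
      nlinarith [hw e]
    have hint : Integrable (X e) m := integrable_of_ae hm
      (((colW_measurable c e).sub_const _).pow_const 2)
      (C := (1 + (blockCard c e : ℝ) / (N + 1 : ℕ)) ^ 2) fun U hU => by
        obtain ⟨h0, h1⟩ := colW_mem c hU e
        have : (0 : ℝ) ≤ (blockCard c e : ℝ) / (N + 1 : ℕ) := by positivity
        rw [abs_of_nonneg (sq_nonneg _)]
        exact sq_le_sq' (by linarith) (by linarith)
    have h1 := mul_meas_ge_le_integral_of_nonneg (ae_of_all _ fun U => sq_nonneg _) hint (ρ ^ 2 / 4)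
    have h2 : ∫ U, X e U ∂m ≤ 4 / (N + 1 : ℕ) := columnStmt.2 d N c m hm e
    have h3 := measureReal_mono (μ := m) hsub
    have h4 : ρ ^ 2 / 4 * m.real {U | ρ < |colW c U e - w e|} ≤ 4 / (N + 1 : ℕ) :=
      ((mul_le_mul_of_nonneg_left h3 (by positivity)).trans h1).trans h2
    rw [← div_div, div_right_comm, le_div_iff₀ (by positivity),
      show (16 : ℝ) / ((N + 1 : ℕ) : ℝ) = 4 * (4 / ((N + 1 : ℕ) : ℝ)) by ring]
    linarith
  rw [show {U | ∃ e, ρ < |colW c U e - w e|}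
      = ⋃ e ∈ (univ : Finset (Fin (d + 1))), {U | ρ < |colW c U e - w e|} by ext U; simp]
  refine (measureReal_biUnion_finset_le univ _).trans
    ((sum_le_card_nsmul univ _ _ fun e _ => hX e).trans_eq (by simp))

/-- The integral of a function with two values. -/
theorem integrable_two {α : Type*} [MeasurableSpace α] {μ : Measure α} [IsProbabilityMeasure μ]
    {s : Set α} (hs : MeasurableSet s) (a b : ℝ) :
    Integrable (fun x => a + s.indicator (fun _ => b) x) μ ∧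
      ∫ x, a + s.indicator (fun _ => b) x ∂μ = a + μ.real s * b := by
  have hi : Integrable (s.indicator fun _ : α => b) μ := (integrable_const b).indicator hs
  refine ⟨(integrable_const a).add hi, ?_⟩
  rw [integral_add (integrable_const a) hi, integral_indicator_const b hs, integral_const,
    probReal_univ, one_smul, smul_eq_mul]

/-- A bound with a rare exception, from below. -/
theorem le_of_two_value {α : Type*} [MeasurableSpace α] {μ : Measure α} [IsProbabilityMeasure μ]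
    {s : Set α} (hs : MeasurableSet s) {G η cst low X : ℝ} (hG : 0 ≤ G) (hm : μ.real s * G ≤ η)
    (hd : cst - low ≤ G)
    (hq : ∀ g, Integrable g μ → (∀ x ∈ s, g x ≤ low) → (∀ x ∉ s, g x = cst) → ∫ x, g x ∂μ ≤ X) :
    cst - η ≤ X := by
  obtain ⟨hi, hint⟩ := integrable_two (μ := μ) hs cst (-max 0 (cst - low))
  have h := hq _ hi (fun x hx => by rw [Set.indicator_of_mem hx]; linarith [le_max_right 0 (cst - low)])
    fun x hx => by rw [Set.indicator_of_notMem hx, add_zero]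
  rw [hint] at h
  have := mul_le_mul_of_nonneg_left (max_le hG hd) (measureReal_nonneg (μ := μ) (s := s))
  linarith

/-- A bound with a rare exception, from above. -/
theorem two_value_le {α : Type*} [MeasurableSpace α] {μ : Measure α} [IsProbabilityMeasure μ]
    {s : Set α} (hs : MeasurableSet s) {G η cst high X : ℝ} (hG : 0 ≤ G) (hm : μ.real s * G ≤ η)
    (hd : high - cst ≤ G)
    (hq : ∀ g, Integrable g μ → (∀ x ∈ s, high ≤ g x) → (∀ x ∉ s, g x = cst) → X ≤ ∫ x, g x ∂μ) :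
    X ≤ cst + η := by
  obtain ⟨hi, hint⟩ := integrable_two (μ := μ) hs cst (max 0 (high - cst))
  have h := hq _ hi (fun x hx => by rw [Set.indicator_of_mem hx]; linarith [le_max_right 0 (high - cst)])
    fun x hx => by rw [Set.indicator_of_notMem hx, add_zero]
  rw [hint] at h
  have := mul_le_mul_of_nonneg_left (max_le hG hd) (measureReal_nonneg (μ := μ) (s := s))
  linarith

/-- The counts after one more label still follow the weights. -/
theorem cons_dev (A : Atoms d) {c : Fin N → Fin (d + 1)} {θ ρ : ℝ} (hθ : θ ≤ ρ / 4)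
    (hN : 8 ≤ ρ * N) (e f : Fin (d + 1)) (hc : |(blockCard c f : ℝ) - A.w f * N| ≤ θ * N) :
    |(blockCard (Fin.cons e c : Fin (N + 1) → Fin (d + 1)) f : ℝ) / (N + 1 : ℕ) - A.w f| ≤ ρ / 2 := by
  have h1 := dev_cons A e f c
  simp only [dev] at h1
  have h2 := abs_le.1 hc
  have h3 := abs_le.1 (abs_ind_le A e f)
  have h4 := mul_le_mul_of_nonneg_right hθ (Nat.cast_nonneg (α := ℝ) N)
  have hρ : 0 < ρ := by
    by_contra h
    linarith [mul_nonpos_of_nonpos_of_nonneg (not_lt.1 h) (Nat.cast_nonneg (α := ℝ) N)]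
  rw [div_sub' (by positivity), abs_div, abs_of_pos (show (0 : ℝ) < ((N + 1 : ℕ) : ℝ) by positivity),
    div_le_iff₀ (by positivity), abs_le]
  push_cast at h1 ⊢
  constructor <;> linarith

theorem pos_of_close {x w wm ρ : ℝ} (hw : wm ≤ w) (hwm : 0 < wm) (hρ : ρ ≤ wm / 2) (h : |x - w| ≤ ρ) :
    0 < x := by
  have := abs_le.1 h
  linarith

/-- The gain at close weights, for any value `X` of a tilt that is close to the limit value. -/
theorem gain_close {β t B₀ B C κ E F : ℝ} {K : ℕ → ℝ} {P : ℝ} {j : ℕ} {s : ℝ}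
    (hC : ∀ (T T' b b' : Fin (d + 1) → ℝ),
      (∀ r, 0 ≤ T r ∧ T r ≤ B ∧ 0 ≤ T' r ∧ T' r ≤ B ∧ |b r| ≤ B ∧ |b' r| ≤ B) →
        |tiltV k T b K P j s - tiltV k T' b' K P j s| ≤ C * ∑ r, (|T r - T' r| + |b r - b' r|))
    (hC0 : 0 ≤ C) (hβ : 0 ≤ β) (ht : 0 < t) (hB : B₀ + t ≤ B) (hB0 : 0 ≤ B) (hκ : 0 ≤ κ)
    {S S₀ : Secular d} (ha : S.a = S₀.a)
    (hS : ∀ r, t ≤ S.tT β r ∧ S.tT β r ≤ B₀ ∧ |S.tB β r| ≤ B₀ ∧ |S.tT β r - S₀.tT β r| ≤ κ ∧
      |S.tB β r - S₀.tB β r| ≤ κ)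
    (hS₀ : ∀ r, t ≤ S₀.tT β r ∧ S₀.tT β r ≤ B₀ ∧ |S₀.tB β r| ≤ B₀)
    (hb : ∀ f : Fin d, t ≤ baseT β S₀.a 0 f ∧ baseT β S₀.a 0 f ≤ B₀) (hmean : |S.mean - S₀.mean| ≤ κ)
    (e : Fin (d + 1)) {X : (Fin (d + 1) → ℝ) → (Fin (d + 1) → ℝ) → ℝ}
    (hX : ∀ T b : Fin (d + 1) → ℝ, (∀ r, (t / 2 ≤ T r ∧ T r ≤ B ∧ |b r| ≤ B) ∨ (T r = 0 ∧ b r = 0)) →
      |X T b - (F + tiltV k T b K P j s)| ≤ E)
    {u u' : ℝ} (hu : |u| ≤ t / 2) (hu' : |u'| ≤ t / 2) (hu8 : |u| + |u'| ≤ 8 * κ) :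
    |β * S.mean / 2 + X (S.gainT β u u' e) (S.gainB β)
        - (F + (β * S₀.mean / 2 + tiltV k (S₀.gainT β 0 0 e) (S₀.gainB β) K P j s))|
      ≤ E + β * κ + C * (((d : ℝ) + 1) * (10 * κ)) := by
  have hm1 : ∀ r, (t / 2 ≤ S.gainT β u u' e r ∧ S.gainT β u u' e r ≤ B ∧ |S.gainB β r| ≤ B) ∨
      (S.gainT β u u' e r = 0 ∧ S.gainB β r = 0) := fun r =>
    (gainT_mem hu hu' (fun r => ⟨(hS r).1, (hS r).2.1, (hS r).2.2.1⟩) (ha ▸ hb) e r).imp
      (fun ⟨x1, x2, x3⟩ => ⟨x1, by linarith, by linarith⟩) id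
  have h0t : |(0 : ℝ)| ≤ t / 2 := by rw [abs_zero]; linarith
  have hm0 : ∀ r, 0 ≤ S₀.gainT β 0 0 e r ∧ S₀.gainT β 0 0 e r ≤ B ∧ |S₀.gainB β r| ≤ B := fun r => by
    rcases gainT_mem h0t h0t hS₀ hb e r with ⟨x1, x2, x3⟩ | ⟨x1, x2⟩
    · exact ⟨by linarith, by linarith, by linarith⟩
    · rw [x1, x2, abs_zero]; exact ⟨le_rfl, hB0, hB0⟩
  have h1 := abs_le.1 (hX _ _ hm1)
  have h2 := hC (S.gainT β u u' e) (S₀.gainT β 0 0 e) (S.gainB β) (S₀.gainB β) fun r => by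
    rcases hm1 r with ⟨y1, y2, y3⟩ | ⟨y1, y2⟩
    · exact ⟨by linarith, y2, (hm0 r).1, (hm0 r).2.1, y3, (hm0 r).2.2⟩
    · exact ⟨y1.ge, y1.le.trans hB0, (hm0 r).1, (hm0 r).2.1, by rw [y2, abs_zero]; exact hB0,
        (hm0 r).2.2⟩
  have hd := gain_dist (u := u) (u' := u') ha hκ (fun r => ⟨(hS r).2.2.2.1, (hS r).2.2.2.2⟩) e
  have h3 := abs_le.1 (h2.trans (mul_le_mul_of_nonneg_left (hd.trans
    (mul_le_mul_of_nonneg_left (by linarith : 2 * κ + |u| + |u'| ≤ 10 * κ) (by positivity))) hC0))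
  have h4 := abs_le.1 hmean
  have h5 := mul_le_mul_of_nonneg_left h4.1 hβ
  have h6 := mul_le_mul_of_nonneg_left h4.2 hβ
  have h7 : 0 ≤ β * κ := mul_nonneg hβ hκ
  rw [abs_le]
  constructor <;> linarith

set_option maxHeartbeats 400000 in
/-- One step against the reference labelling. -/
theorem boundsStmt (hT : TiltStmt) (hH : CavHaarStmt) : BoundsStmt := by
  intro d A β hβ
  obtain ⟨t, B₀, ht, hsec⟩ := secStmt d A β hβ
  obtain ⟨wm, hwm, hwmle⟩ : ∃ wm : ℝ, 0 < wm ∧ ∀ e, wm ≤ A.w e := by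
    obtain ⟨e₀, -, he₀⟩ := exists_min_image (univ : Finset (Fin (d + 1))) A.w univ_nonempty
    exact ⟨A.w e₀, A.w_pos e₀, fun e => he₀ e (mem_univ e)⟩
  set L := 2 / wm with hLdef
  have hL : 0 < L := by positivity
  set B := max (max (B₀ + t) L) 0
  have hB0 : 0 ≤ B := le_max_right _ _
  have hBt : B₀ + t ≤ B := (le_max_left _ _).trans (le_max_left _ _)
  have hBL : L ≤ B := (le_max_right _ _).trans (le_max_left _ _)
  obtain ⟨C₁, hC₁, hc₁⟩ := Cav.contStmt (d + 1) B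
  obtain ⟨C₀, hC₀, hc₀⟩ := Cav.contStmt d B
  set A₁ := ∑ e, |A.a e| + 1
  have hA₁ : 0 ≤ A₁ := by positivity
  set Gg := β * A₁ + C₁ * ((d + 1 : ℕ) * (2 * B)) + C₀ * ((d : ℕ) * (2 * B)) + 1 with hGg
  have hg1 : 0 ≤ C₁ * ((d + 1 : ℕ) * (2 * B)) := by positivity
  have hg0 : 0 ≤ C₀ * ((d : ℕ) * (2 * B)) := by positivity
  have hβA : 0 ≤ β * A₁ := by positivity
  set Cr := (β * A₁ + 2) * (1 + ((d : ℝ) + 1) * L)
  have hCr : 0 ≤ Cr := by positivity
  -- the exact weights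
  obtain ⟨ρ₀', hρ₀', hsec₀⟩ := hsec 1 one_pos
  have hex : ∀ h, 0 ≤ h → h ≤ 1 → (∀ r, t ≤ (secOf A h).tT β r ∧ (secOf A h).tT β r ≤ B₀ ∧
      |(secOf A h).tB β r| ≤ B₀) ∧
      ∀ f : Fin d, t ≤ baseT β (A.up h).a 0 f ∧ baseT β (A.up h).a 0 f ≤ B₀ := fun h h0 h1 => by
    obtain ⟨a1, -, a3⟩ := hsec₀ h h0 h1 A.w A.w_pos A.w_sum fun f => by simpa using hρ₀'.le
    exact ⟨fun r => ⟨(a1 r).1, (a1 r).2.1, (a1 r).2.2.1⟩, a3⟩
  have hmeanA : ∀ h, 0 ≤ h → h ≤ 1 → |β * (secOf A h).mean / 2| ≤ β * A₁ := fun h h0 h1 => by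
    rw [abs_div, abs_mul, abs_of_pos hβ, abs_two]
    refine (div_le_self (by positivity) one_le_two).trans (mul_le_mul_of_nonneg_left ?_ hβ.le)
    exact (abs_mean_le _).trans (sum_abs_up_le A h0 h1)
  have hgain : ∀ h, 0 ≤ h → h ≤ 1 → ∀ (k : ℕ) (K : ℕ → ℝ) (P : ℝ), IsKer k K P → P ≤ L →
      ∀ e j s, 1 ≤ j → j ≤ k → 0 ≤ s → s ≤ 1 → |gainG A β h k K P e j s| ≤ Gg :=
    fun h h0 h1 k K P hK hP e j s hj hjk hs hs1 => by
      have hv := abs_tiltV_le hc₁ hC₁ hB0 hK (hP.trans hBL) (T := (secOf A h).gainT β 0 0 e)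
        (b := (secOf A h).gainB β) (fun r => by
          rcases gainT_mem (u := 0) (u' := 0) (t := t) (by rw [abs_zero]; linarith)
            (by rw [abs_zero]; linarith) (hex h h0 h1).1 (hex h h0 h1).2 e r with ⟨x1, x2, x3⟩ | ⟨x1, x2⟩
          · exact ⟨by linarith, by linarith, by linarith⟩
          · rw [x1, x2, abs_zero]; exact ⟨le_rfl, hB0, hB0⟩) hj hjk hs hs1
      have := hmeanA h h0 h1
      rw [gainG]
      refine (abs_add_le _ _).trans ?_
      linarith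
  set G := Gg + Cr + β * A₁ + 3 with hG
  have hG0 : 0 ≤ G := by positivity
  refine ⟨L, G, hL, by positivity, fun h h0 h1 k K P hk hK hP => ⟨?_, fun e =>
    (hgain h h0 h1 k K P hK hP e 1 0 le_rfl hk le_rfl zero_le_one).trans (by linarith)⟩, ?_⟩
  · refine (abs_tiltV_le hc₀ hC₀ hB0 hK (hP.trans hBL) (fun r => ?_) le_rfl hk le_rfl zero_le_one).trans
      (by linarith)
    obtain ⟨x1, x2⟩ := (hex h h0 h1).2 r
    exact ⟨by linarith, by linarith, by rw [abs_zero]; exact hB0⟩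
  intro ε hε
  -- the errors
  set M := β + (C₁ + C₀) * ((d : ℝ) + 1) * 10 + 4
  have hM : 0 < M := by positivity
  set κ := ε / (4 * M)
  have hκ : 0 < κ := by positivity
  have hκM : M * κ = ε / 4 := by simp only [κ]; field_simp
  obtain ⟨Ct₁, hCt₁, htilt₁⟩ := hT (d + 1) (t / 2) B L (ε / 4) (by linarith) (by linarith)
  obtain ⟨Ct₀, hCt₀, htilt₀⟩ := hT d (t / 2) B L (ε / 4) (by linarith) (by linarith)
  obtain ⟨ρs, hρs, hsecκ⟩ := hsec κ hκ
  set ρ := min ρs (wm / 2)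
  have hρ : 0 < ρ := lt_min hρs (by linarith)
  have hρw : ρ ≤ wm / 2 := min_le_right _ _
  set θ₁ := min (wm / 2) (ρ / 4)
  set ρ₁ := min (min 1 κ) (min (min (t / 16) (t / (2 * β))) (1 / (8 * ((d : ℝ) + 1) * L)))
  have hρ₁ : 0 < ρ₁ := lt_min (lt_min one_pos hκ) (lt_min (lt_min (by linarith) (by positivity)) (by positivity))
  obtain ⟨hr1, hr2, hr3, hr4, hr5⟩ : ρ₁ ≤ 1 ∧ ρ₁ ≤ κ ∧ ρ₁ ≤ t / 16 ∧ ρ₁ ≤ t / (2 * β) ∧
      ρ₁ ≤ 1 / (8 * ((d : ℝ) + 1) * L) := by
    simp only [ρ₁]; simp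
  refine ⟨max Ct₁ Ct₀, ρ₁, θ₁, hCt₁.trans (le_max_left _ _), hρ₁, hr1, lt_min (by linarith) (by linarith),
    fun k hk => ?_⟩
  obtain ⟨N₁, hN₁⟩ := htilt₁ k
  obtain ⟨N₂, hN₂⟩ := htilt₀ k
  obtain ⟨N₃, hN₃⟩ := exists_nat_ge (4 / wm + 8 / ρ + ((d : ℝ) + 1) * 64 * G / (ρ ^ 2 * ε))
  refine ⟨max (max N₁ N₂) (N₃ + 1), fun N hN c hc => ?_⟩
  simp only [max_le_iff] at hN
  obtain ⟨⟨hNa, hNb⟩, hNc⟩ := hN
  have hNR : 4 / wm + 8 / ρ + ((d : ℝ) + 1) * 64 * G / (ρ ^ 2 * ε) ≤ (N : ℝ) :=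
    hN₃.trans (by exact_mod_cast (by omega : N₃ ≤ N))
  have q1 : 0 < 4 / wm := by positivity
  have q2 : 0 < 8 / ρ := by positivity
  have q3 : 0 ≤ ((d : ℝ) + 1) * 64 * G / (ρ ^ 2 * ε) := by positivity
  have hN1 : 1 ≤ N := by omega
  have hN0 : (0 : ℝ) < N := by exact_mod_cast hN1
  have hcard : ∀ e, wm / 2 * N ≤ (blockCard c e : ℝ) := fun e => by
    have hce : |(blockCard c e : ℝ) - A.w e * N| ≤ θ₁ * N := hc e
    have := abs_le.1 hce
    have := mul_le_mul_of_nonneg_right (hwmle e) hN0.le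
    have := mul_le_mul_of_nonneg_right (min_le_left (wm / 2) (ρ / 4)) hN0.le
    linarith
  have hρN : 8 ≤ ρ * (N : ℝ) := by
    have := (div_le_iff₀ hρ).1 (show 8 / ρ ≤ (N : ℝ) by linarith)
    linarith
  have hNmass : ((d : ℝ) + 1) * (16 / (ρ ^ 2 * (N + 1 : ℕ))) * G ≤ ε / 4 := by
    have hden : 0 < ρ ^ 2 * ε := by positivity
    have h6 := (div_le_iff₀ hden).1 (show ((d : ℝ) + 1) * 64 * G / (ρ ^ 2 * ε) ≤ (N : ℝ) + 1 by linarith)
    rw [mul_div, div_mul_eq_mul_div, div_le_iff₀ (by positivity)]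
    push_cast
    linarith
  have hwN : 4 ≤ wm * (N : ℝ) := by
    have := (div_le_iff₀ hwm).1 (show 4 / wm ≤ (N : ℝ) by linarith)
    linarith
  have h2c : ∀ e, 2 ≤ blockCard c e := fun e => by
    have := hcard e
    exact_mod_cast (show (2 : ℝ) ≤ (blockCard c e : ℝ) by linarith)
  obtain ⟨cR, sp, hspi, hspl, hR1, hR2, hcav⟩ := hH d N c h2c
  have hnt : wm / 2 * N ≤ nTop cR := by
    rw [nTop, hR1, Nat.cast_add]
    linarith [hcard (Fin.last d), (Nat.cast_nonneg d : (0 : ℝ) ≤ d)]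
  have hnt0 : 0 < nTop cR := lt_of_lt_of_le (by positivity) hnt
  have hNL : (N : ℝ) ≤ L * nTop cR := by
    rw [hLdef, div_mul_eq_mul_div, le_div_iff₀ hwm]
    linarith
  refine ⟨cR, hR1, hR2, hNL, hnt0, fun m m' hm hm' τ hτ h hh => ?_⟩
  have := hm'.1
  set cp := fldC k τ with hcpdef
  have hcp0 : 0 ≤ cp := div_nonneg (sum_nonneg fun _ _ => sq_nonneg _) two_pos.le
  have hh1 : |h| ≤ 1 := hh.trans hr1
  have h8 : 8 * ((d : ℝ) + 1) * cp * N ≤ nTop cR := by
    have h1 : cp ≤ 1 / (8 * ((d : ℝ) + 1) * L) := hτ.trans hr5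
    rw [le_div_iff₀ (by positivity)] at h1
    have h2 := mul_le_mul_of_nonneg_right h1 hnt0.le
    have h3 := mul_le_mul_of_nonneg_left hNL (show 0 ≤ 8 * ((d : ℝ) + 1) * cp by positivity)
    linarith
  have hmono : StrictMono (raise A.a h) := by
    refine strictMono_raise A fun f => ?_
    have hb := ((hex 0 le_rfl zero_le_one).2 f).1
    have e0 : ∀ e, (A.up 0).a e = A.a e := fun e => by
      show raise A.a (max 0 0) e = A.a e
      simp [raise]
    simp only [baseT, e0, add_zero] at hb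
    have h4 := (le_div_iff₀ (by positivity)).1 (hh.trans hr4)
    by_contra hcon
    have := mul_le_mul_of_nonneg_left (show A.a (Fin.last d) - A.a f.castSucc ≤ |h| by
      linarith [neg_abs_le h]) hβ.le
    linarith
  intro a F
  obtain ⟨hbase, -, hstep⟩ := hcav k β a hβ.le hmono m m' hm hm' τ
  set crude := (β * (∑ e, |a e|) + 2 * cp) * (1 + (d + 1) * (N / nTop cR))
  have hsa : ∑ e, |a e| ≤ A₁ := sum_abs_raise_le A hh1
  have hsa' : β * (∑ e, |a e|) ≤ β * A₁ := mul_le_mul_of_nonneg_left hsa hβ.le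
  have hcr : crude ≤ Cr := by
    refine mul_le_mul (by linarith) ?_ (by positivity) (by positivity)
    have : (N : ℝ) / nTop cR ≤ L := (div_le_iff₀ hnt0).2 hNL
    have := mul_le_mul_of_nonneg_left this (show 0 ≤ (d : ℝ) + 1 by positivity)
    linarith
  refine ⟨fun e => ?_, fun h0 => ?_⟩
  · rw [← auxE_zero β a (Fin.cons e c) m' τ 0 1]
    have hlo := (hstep e 1 0 le_rfl hk le_rfl zero_le_one (fun _ => F - crude - 0) (integrable_const _)).1
      (ae_of_all _ fun U => Or.inl le_rfl)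
    have hup := (hstep e 1 0 le_rfl hk le_rfl zero_le_one (fun _ => F + β * (∑ e, |a e|) + 1 + 0)
      (integrable_const _)).2 h8 (ae_of_all _ fun U => Or.inl le_rfl)
    simp only [integral_const, probReal_univ, one_smul] at hlo hup
    rw [abs_le]
    constructor <;> linarith
  intro K P err
  have h1 : h ≤ 1 := by linarith [abs_le.1 hh1]
  have hup : (A.up h).a = a := by
    show raise A.a (max h 0) = raise A.a h
    rw [max_eq_left h0]
  have hK : IsKer k K P := isKer_ker β a cR hm hN1 τ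
  have hP : P ≤ L := kerP_le β a cR hm hNL hnt0 τ
  have hKP0 : P ≤ B := hP.trans hBL
  have herr : 0 ≤ topErr m k β a cR (fun _ => 0) τ := (Syn.topErr_mem β cR (fun _ => 0) hm hN1 τ a).1
  have hC₁e := mul_le_mul_of_nonneg_right (le_max_left Ct₁ Ct₀) herr
  have hC₀e := mul_le_mul_of_nonneg_right (le_max_right Ct₁ Ct₀) herr
  have hC0e : 0 ≤ max Ct₁ Ct₀ * topErr m k β a cR (fun _ => 0) τ :=
    mul_nonneg (hCt₁.trans (le_max_left _ _)) herr
  have hL0 : (N : ℝ) ≤ L * nTop cR := hNL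
  have hu : |4 * cp| ≤ t / 2 ∧ |-(2 * cp)| ≤ t / 2 ∧ |(0 : ℝ)| ≤ t / 2 := by
    simp only [abs_neg, abs_mul, abs_two, abs_zero, abs_of_nonneg hcp0,
      abs_of_pos (show (0 : ℝ) < 4 by norm_num)]
    refine ⟨?_, ?_, ?_⟩ <;> linarith
  have hcpκ : cp ≤ κ := hτ.trans hr2
  have hMκ : β * κ + C₁ * (((d : ℝ) + 1) * (10 * κ)) + C₀ * (((d : ℝ) + 1) * (10 * κ)) + 4 * κ = ε / 4 := by
    rw [← hκM]; simp only [M]; ring
  have p1 : 0 ≤ C₁ * (((d : ℝ) + 1) * (10 * κ)) := by positivity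
  have p0 : 0 ≤ C₀ * (((d : ℝ) + 1) * (10 * κ)) := by positivity
  have pβ : 0 ≤ β * κ := by positivity
  refine ⟨?_, fun e j s hj hjk hs hs1 => ?_⟩
  · -- the base
    have hb := (hex h h0 h1).2
    have hadm : ∀ r : Fin d, (t / 2 ≤ baseT β a (-(2 * cp)) r ∧ baseT β a (-(2 * cp)) r ≤ B ∧
        |(0 : ℝ)| ≤ B) ∨ (baseT β a (-(2 * cp)) r = 0 ∧ (0 : ℝ) = 0) := fun r => by
      left
      obtain ⟨x1, x2⟩ := hb r
      have := abs_le.1 hu.2.1
      simp only [baseT, hup, add_zero] at x1 x2 ⊢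
      exact ⟨by linarith, by linarith, by rw [abs_zero]; exact hB0⟩
    have ht := hN₂ N hNb d β a cR m hm hL0 τ (fun f => sp f.castSucc)
      (hspi.comp (Fin.castSucc_injective d)) (fun r => hspl _) _ _ hadm 1 0 le_rfl hk le_rfl zero_le_one
    have hc := hc₀ k K P hK hKP0 (baseT β a (-(2 * cp))) (baseT β a 0) (fun _ => 0) (fun _ => 0)
      (fun r => by
        obtain ⟨x1, x2⟩ := hb r
        rcases hadm r with ⟨y1, y2, y3⟩ | ⟨y1, y2⟩
        · rw [hup] at x1 x2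
          exact ⟨by linarith, y2, by linarith, by linarith, y3, y3⟩
        · rw [hup] at x1 x2
          exact ⟨y1.ge, y1.le.trans hB0, by linarith, by linarith, by simpa using hB0, by simpa using hB0⟩)
      1 0 le_rfl hk le_rfl
    have hsum : ∑ r, (|baseT β a (-(2 * cp)) r - baseT β a 0 r| + |(0 : ℝ) - 0|)
        ≤ ((d : ℝ) + 1) * (10 * κ) := by
      refine (sum_le_card_nsmul univ _ (10 * κ) fun r _ => ?_).trans ?_
      · simp only [baseT, add_zero, add_sub_cancel_left, abs_neg, sub_zero, abs_zero,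
          abs_mul, abs_two, abs_of_nonneg hcp0]
        linarith
      · rw [card_univ, Fintype.card_fin, nsmul_eq_mul]
        exact mul_le_mul_of_nonneg_right (by linarith) (by linarith)
    have hc' := abs_le.1 (hc.trans (mul_le_mul_of_nonneg_left hsum hC₀))
    have ht' := abs_le.1 ht
    simp only [gainBase, hup, err, F, K, P] at hc' ht' ⊢
    linarith
  -- one direction
  have hbadm : MeasurableSet {U : Fin (N + 1) → Fin (N + 1) → ℝ | ∃ f, ρ < |colW (Fin.cons e c) U f - A.w f|} := by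
    simp only [Set.ofPred_exists]
    exact MeasurableSet.iUnion fun f => measurableSet_lt measurable_const
      (((colW_measurable _ f).sub_const _).abs)
  have hmass : m'.real {U | ∃ f, ρ < |colW (Fin.cons e c) U f - A.w f|} * G ≤ ε / 4 :=
    (mul_le_mul_of_nonneg_right (colW_bad_le hm' hρ fun f =>
      cons_dev A (min_le_right _ _) hρN e f (hc f)) hG0).trans hNmass
  have hgG := abs_le.1 (hgain h h0 h1 k K P hK hP e j s hj hjk hs hs1)
  have hgood : ∀ U, U ∉ {U | ∃ f, ρ < |colW (Fin.cons e c) U f - A.w f|} → IsOrth U →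
      ∃ (hp : ∀ f, 0 < colW (Fin.cons e c) U f) (hs' : ∑ f, colW (Fin.cons e c) U f = 1),
      let S : Secular d := ⟨a, colW (Fin.cons e c) U, hmono, hp, hs'⟩
      ∀ u u', |u| ≤ t / 2 → |u'| ≤ t / 2 → |u| + |u'| ≤ 8 * κ →
        |β * S.mean / 2 + tiltE m k β a cR τ sp (S.gainT β u u' e) (S.gainB β) j s
            - (F + gainG A β h k K P e j s)|
          ≤ ε / 4 + Ct₁ * topErr m k β a cR (fun _ => 0) τ + β * κ + C₁ * (((d : ℝ) + 1) * (10 * κ)) := by
    intro U hU hO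
    replace hU : ∀ f, |colW (Fin.cons e c) U f - A.w f| ≤ ρ := fun f => not_lt.1 fun hf => hU ⟨f, hf⟩
    have hp : ∀ f, 0 < colW (Fin.cons e c) U f := fun f =>
      pos_of_close (hwmle f) hwm hρw (hU f)
    refine ⟨hp, sum_colW _ hO, ?_⟩
    intro S u u' hu1 hu2 hu3
    obtain ⟨hT1, hmn, -⟩ := hsecκ h h0 h1 (colW (Fin.cons e c) U) hp (sum_colW _ hO)
      fun f => (hU f).trans (min_le_left _ _)
    have eS : S = ⟨(A.up h).a, colW (Fin.cons e c) U, (A.up h).mono, hp, sum_colW _ hO⟩ := by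
      simp only [S, hup]
    rw [gainG, eS]
    exact gain_close (S := ⟨(A.up h).a, colW (Fin.cons e c) U, (A.up h).mono, hp, sum_colW _ hO⟩)
      (S₀ := secOf A h) (fun T T' b b' hh => hc₁ k K P hK hKP0 T T' b b' hh j s hj hjk hs) hC₁
      hβ.le ht hBt hB0 hκ.le rfl hT1 (hex h h0 h1).1 (hex h h0 h1).2 hmn e
      (fun T b hTb => hN₁ N hNa d β a cR m hm hL0 τ sp hspi hspl T b hTb j s hj hjk hs hs1) hu1 hu2 hu3
  have hE : 0 ≤ Ct₁ * topErr m k β a cR (fun _ => 0) τ := mul_nonneg hCt₁ herr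
  have hmem : ∀ᵐ U ∂m', IsOrth U := hm'.2.1
  have u1 : |4 * cp| + |(0 : ℝ)| ≤ 8 * κ := by
    rw [abs_zero, abs_of_nonneg (by linarith : (0 : ℝ) ≤ 4 * cp)]; linarith
  have u2 : |-(2 * cp)| + |-(2 * cp)| ≤ 8 * κ := by
    rw [abs_neg, abs_of_nonneg (by linarith : (0 : ℝ) ≤ 2 * cp)]; linarith
  have hlower := le_of_two_value (cst := F + gainG A β h k K P e j s - ε / 2 - Ct₁ * topErr m k β a cR (fun _ => 0) τ)
    (low := F - crude - s) hbadm hG0 hmass (by linarith) fun g hi g1 g2 =>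
      (hstep e j s hj hjk hs hs1 g hi).1 (hmem.mono fun U hO => by
        by_cases hU : U ∈ {U | ∃ f, ρ < |colW (Fin.cons e c) U f - A.w f|}
        · exact Or.inl (g1 U hU)
        · obtain ⟨hp, hs', hT2⟩ := hgood U hU hO
          refine Or.inr ⟨hp, hs', ?_⟩
          intro S
          have hT3 := abs_le.1 (hT2 (4 * cp) 0 hu.1 hu.2.2 u1)
          rw [g2 U hU]
          linarith)
  have hupper := two_value_le (cst := F + gainG A β h k K P e j s + ε / 2 + Ct₁ * topErr m k β a cR (fun _ => 0) τ)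
    (high := F + β * (∑ e, |a e|) + 1 + s) hbadm hG0 hmass (by linarith) fun g hi g1 g2 =>
      (hstep e j s hj hjk hs hs1 g hi).2 h8 (hmem.mono fun U hO => by
        by_cases hU : U ∈ {U | ∃ f, ρ < |colW (Fin.cons e c) U f - A.w f|}
        · exact Or.inl (g1 U hU)
        · obtain ⟨hp, hs', hT2⟩ := hgood U hU hO
          refine Or.inr ⟨hp, hs', ?_⟩
          intro S
          have hT3 := abs_le.1 (hT2 (-(2 * cp)) (-(2 * cp)) hu.2.1 hu.2.1 u2)
          rw [g2 U hU]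
          linarith)
  rw [abs_le]
  constructor <;> linarith

end Vale.Agent.P166.Rsb
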