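import Vale.Agent.P166.Rsb.CavPins
import Vale.Agent.P166.Rsb.Energy.GaussKer
import Vale.Agent.P157.Cube2.Product

/-!
# P166: the Gaussian recursion of a tilt in closed form

`gaussStmt`: along the levels the value is a sum of quadratic functions of the fields and the value
of one spin at the field that the couplings induce.
-/

open MeasureTheory ProbabilityTheory Real Finset
open Vale.Agent.P157 (coin)
open Vale.Agent.P157.Rsb (stdG acc acc_put acc_top acc_zero lev lev_pos val val_top val_step levels_down put)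
open Vale.Agent.P157.Cube2 (spinF spinF_top spinF_step spinG bump hT den pot_spinF int_exp_abs spinG_shift)
open Vale.Agent.P166.Rsb.Slot (IsKer kerFld)

namespace Vale.Agent.P166.Rsb.Cav

/-! ### several tilted coordinates -/

/-- Continuous, with at most exponential growth. -/
def Grow (F : ℝ → ℝ) : Prop := Continuous F ∧ ∃ C, 0 ≤ C ∧ ∀ x, |F x| ≤ exp (C * (1 + |x|))

theorem grow_exp_spinF {k i : ℕ} (r : ℕ → ℝ) (hi : i ≤ k) {m : ℝ} (hm : 0 ≤ m) :
    Grow fun x => exp (m * spinF k r i x) := by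
  have hp := pot_spinF (r := r) hi
  refine ⟨(hp.diff.continuous.const_mul m).rexp, m * (|spinF k r i 0| + 1), by positivity, fun x => ?_⟩
  rw [abs_of_pos (exp_pos _), exp_le_exp, mul_assoc]
  refine mul_le_mul_of_nonneg_left ?_ hm
  have h := hp.growth 0 x
  rw [sub_zero] at h
  nlinarith [(abs_le.1 h).2, le_abs_self (spinF k r i 0), abs_nonneg x, abs_nonneg (spinF k r i 0)]

/-- Two Gaussian terms in a function of exponential growth are one. -/
theorem merge_grow {F : ℝ → ℝ} (hF : Grow F) (u a b : ℝ) :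
    ∫ y, ∫ x, F (u + a * y + b * x) ∂gaussianReal 0 1 ∂gaussianReal 0 1
      = ∫ w, F (u + √(a ^ 2 + b ^ 2) * w) ∂gaussianReal 0 1 := by
  obtain ⟨hc, C, hC, hb⟩ := hF
  have h3 : ((gaussianReal 0 1).prod (gaussianReal 0 1)).map (fun w : ℝ × ℝ => a * w.1 + b * w.2)
      = (gaussianReal 0 1).map (√(a ^ 2 + b ^ 2) * ·) := by
    rw [show (fun w : ℝ × ℝ => a * w.1 + b * w.2)
        = (fun w : ℝ × ℝ => w.1 + w.2) ∘ Prod.map (a * ·) (b * ·) from rfl,
      ← Measure.map_map (by fun_prop) (by fun_prop),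
      ← Measure.map_prod_map _ _ (by fun_prop) (by fun_prop)]
    simp only [gaussianReal_map_const_mul, mul_zero, mul_one]
    rw [show ((gaussianReal 0 _).prod (gaussianReal 0 _)).map (fun w : ℝ × ℝ => w.1 + w.2)
      = Measure.conv _ _ from rfl, gaussianReal_conv_gaussianReal]
    congr 1
    · simp
    · ext; simp [sq_sqrt (show 0 ≤ a ^ 2 + b ^ 2 by positivity)]
  have hG : Continuous fun v => F (u + v) := hc.comp (continuous_const.add continuous_id)
  have hi : Integrable (fun p : ℝ × ℝ => F (u + (a * p.1 + b * p.2)))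
      ((gaussianReal 0 1).prod (gaussianReal 0 1)) := by
    refine (((int_exp_abs (C * |a|)).mul_prod (int_exp_abs (C * |b|))).const_mul (exp (C * (1 + |u|)))).mono'
      (Continuous.aestronglyMeasurable (by fun_prop)) (ae_of_all _ fun p => ?_)
    rw [Real.norm_eq_abs, ← exp_add, ← exp_add]
    refine (hb _).trans (exp_le_exp.2 ?_)
    have h1 := abs_add_le u (a * p.1 + b * p.2)
    have h2 := abs_add_le (a * p.1) (b * p.2)
    rw [abs_mul, abs_mul] at h2
    nlinarith
  simp only [add_assoc]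
  rw [integral_integral (f := fun y x => F (u + (a * y + b * x))) hi,
    ← integral_map (μ := gaussianReal 0 1) (φ := (√(a ^ 2 + b ^ 2) * ·)) (f := fun v => F (u + v)) (by fun_prop)
      hG.aestronglyMeasurable, ← h3, integral_map (by fun_prop) hG.aestronglyMeasurable]

/-- Integrability of a tilted product. -/
theorem integrable_multi {ι : Type} [Fintype ι] {F : ℝ → ℝ} (hF : Grow F) (c : ι → ℝ) (hc : ∀ o, 0 ≤ c o)
    (S s α : ι → ℝ) (h : ℝ) :
    Integrable (fun y : ι → ℝ => (∏ o, exp (-(c o * (S o + s o * y o) ^ 2) / 2))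
      * F (h + ∑ o, α o * (S o + s o * y o))) (stdG ι) := by
  obtain ⟨hcont, C, hC, hb⟩ := hF
  have hi : Integrable (fun y : ι → ℝ => exp (C * (1 + |h| + ∑ o, |α o| * |S o|))
      * ∏ o, exp (C * (|α o| * |s o|) * |y o|)) (stdG ι) :=
    (Integrable.fintype_prod fun o => int_exp_abs _).const_mul _
  refine hi.mono' (Continuous.aestronglyMeasurable (by fun_prop)) (ae_of_all _ fun y => ?_)
  rw [Real.norm_eq_abs, abs_mul, abs_of_nonneg (prod_nonneg fun o _ => (exp_pos _).le), ← exp_sum, ← exp_sum,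
    ← exp_add]
  have hle : ∀ o ∈ (univ : Finset ι), -(c o * (S o + s o * y o) ^ 2) / 2 ≤ 0 := fun o _ => by
    linarith [mul_nonneg (hc o) (sq_nonneg (S o + s o * y o))]
  refine (mul_le_of_le_one_left (abs_nonneg _) (exp_le_one_iff.2 (sum_nonpos hle))).trans
    ((hb _).trans (exp_le_exp.2 ?_))
  have h1 := abs_add_le h (∑ o, α o * (S o + s o * y o))
  have h2 : |∑ o, α o * (S o + s o * y o)| ≤ ∑ o, (|α o| * |S o| + |α o| * |s o| * |y o|) := by
    refine (abs_sum_le_sum_abs _ _).trans (sum_le_sum fun o _ => ?_)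
    rw [abs_mul, mul_assoc, ← mul_add, ← abs_mul (s o)]
    exact mul_le_mul_of_nonneg_left (abs_add_le _ _) (abs_nonneg _)
  rw [sum_add_distrib] at h2
  have h3 : ∑ o, C * (|α o| * |s o|) * |y o| = C * ∑ o, |α o| * |s o| * |y o| := by
    rw [mul_sum]; simp only [mul_assoc]
  rw [h3]
  nlinarith [mul_le_mul_of_nonneg_left (h1.trans (add_le_add le_rfl h2)) hC]

theorem multi_fin : ∀ (n : ℕ) {F : ℝ → ℝ}, Grow F → ∀ (c : Fin n → ℝ), (∀ o, 0 ≤ c o) →
    ∀ (S s α : Fin n → ℝ) (h : ℝ),
      ∫ y, (∏ o, exp (-(c o * (S o + s o * y o) ^ 2) / 2)) * F (h + ∑ o, α o * (S o + s o * y o)) ∂stdG (Fin n)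
        = (∏ o, exp (-(c o * S o ^ 2) / (2 * (1 + c o * s o ^ 2))) / √(1 + c o * s o ^ 2))
          * ∫ w, F (h + ∑ o, α o * S o / (1 + c o * s o ^ 2)
              + √(∑ o, α o ^ 2 * s o ^ 2 / (1 + c o * s o ^ 2)) * w) ∂gaussianReal 0 1
  | 0, F, hF, c, hc, S, s, α, h => by simp
  | n + 1, F, hF, c, hc, S, s, α, h => by
    have hmp := (measurePreserving_piFinSuccAbove (fun _ : Fin (n + 1) => gaussianReal 0 1) 0).symm
    unfold stdG
    rw [← hmp.map_eq, integral_map_equiv]
    have hint := (hmp.integrable_comp_emb (MeasurableEquiv.measurableEmbedding _)).2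
      (integrable_multi hF c hc S s α h)
    simp only [Function.comp_def] at hint
    rw [integral_prod _ hint]
    simp only [Fin.prod_univ_succ, Fin.sum_univ_succ]
    set w₀ := fun u : ℝ => exp (-(c 0 * u ^ 2) / 2)
    set h₁ := ∑ o : Fin n, α o.succ * S o.succ / (1 + c o.succ * s o.succ ^ 2) with hh₁
    set V := ∑ o : Fin n, α o.succ ^ 2 * s o.succ ^ 2 / (1 + c o.succ * s o.succ ^ 2) with hV
    set Zr := ∏ o : Fin n, exp (-(c o.succ * S o.succ ^ 2) / (2 * (1 + c o.succ * s o.succ ^ 2)))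
      / √(1 + c o.succ * s o.succ ^ 2)
    set ψ := fun u : ℝ => ∫ w, F (h + α 0 * u + h₁ + √V * w) ∂gaussianReal 0 1 with hψ
    have inner : ∀ y₀ : ℝ, ∫ y : Fin n → ℝ,
        exp (-(c 0 * (S 0 + s 0 * (MeasurableEquiv.piFinSuccAbove (fun _ => ℝ) 0).symm (y₀, y) 0) ^ 2) / 2)
          * (∏ o : Fin n, exp (-(c o.succ * (S o.succ + s o.succ
              * (MeasurableEquiv.piFinSuccAbove (fun _ => ℝ) 0).symm (y₀, y) o.succ) ^ 2) / 2))
          * F (h + (α 0 * (S 0 + s 0 * (MeasurableEquiv.piFinSuccAbove (fun _ => ℝ) 0).symm (y₀, y) 0)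
              + ∑ o : Fin n, α o.succ * (S o.succ + s o.succ
                * (MeasurableEquiv.piFinSuccAbove (fun _ => ℝ) 0).symm (y₀, y) o.succ)))
          ∂Measure.pi (fun _ : Fin n => gaussianReal 0 1)
        = Zr * (ψ (S 0 + s 0 * y₀) * exp (-(c 0 * (S 0 + s 0 * y₀) ^ 2) / 2)) := fun y₀ => by
      have ih := multi_fin n hF (fun o => c o.succ) (fun o => hc _) (fun o => S o.succ) (fun o => s o.succ)
        (fun o => α o.succ) (h + α 0 * (S 0 + s 0 * y₀))
      unfold stdG at ih
      simp only [MeasurableEquiv.piFinSuccAbove_symm_apply, Fin.insertNthEquiv_apply, Fin.insertNth_zero',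
        Fin.cons_zero, Fin.cons_succ, mul_assoc, ← add_assoc, integral_const_mul]
      rw [ih]
      ring
    simp only [inner, integral_const_mul]
    rw [Energy.tilt_step ψ (hc 0)]
    have hr : √(∑ o : Fin (n + 1), α o ^ 2 * s o ^ 2 / (1 + c o * s o ^ 2))
        = √((α 0 * (s 0 / √(1 + c 0 * s 0 ^ 2))) ^ 2 + √V ^ 2) := by
      rw [Fin.sum_univ_succ, mul_pow, div_pow,
        sq_sqrt (show 0 ≤ 1 + c 0 * s 0 ^ 2 by have := hc 0; positivity),
        sq_sqrt (show 0 ≤ V from sum_nonneg fun o _ => by have := hc o.succ; positivity)]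
      rw [hV]
      congr 1
      ring
    simp only [Fin.sum_univ_succ] at hr
    rw [hr]
    have e : ∀ y, ψ (S 0 / (1 + c 0 * s 0 ^ 2) + s 0 / √(1 + c 0 * s 0 ^ 2) * y)
        = ∫ w, F (h + (α 0 * S 0 / (1 + c 0 * s 0 ^ 2) + h₁) + α 0 * (s 0 / √(1 + c 0 * s 0 ^ 2)) * y
            + √V * w) ∂gaussianReal 0 1 := fun y => by
      simp only [hψ]
      refine integral_congr_ae (ae_of_all _ fun w => congrArg F ?_)
      ring
    simp only [e, merge_grow hF]
    ring

/-- Several tilted coordinates, seen through one linear form. -/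
theorem multi {ι : Type} [Fintype ι] {F : ℝ → ℝ} (hF : Grow F) (c : ι → ℝ) (hc : ∀ o, 0 ≤ c o)
    (S s α : ι → ℝ) :
    ∫ y, (∏ o, exp (-(c o * (S o + s o * y o) ^ 2) / 2)) * F (∑ o, α o * (S o + s o * y o)) ∂stdG ι
      = (∏ o, exp (-(c o * S o ^ 2) / (2 * (1 + c o * s o ^ 2))) / √(1 + c o * s o ^ 2))
        * ∫ w, F (∑ o, α o * S o / (1 + c o * s o ^ 2)
            + √(∑ o, α o ^ 2 * s o ^ 2 / (1 + c o * s o ^ 2)) * w) ∂gaussianReal 0 1 := by
  classical
  set e := (Fintype.equivFin ι).symm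
  have hmp := measurePreserving_piCongrLeft (fun _ : ι => gaussianReal 0 1) e
  have h := multi_fin _ hF (fun i => c (e i)) (fun i => hc _) (fun i => S (e i)) (fun i => s (e i))
    (fun i => α (e i)) 0
  simp only [zero_add] at h
  rw [e.sum_comp (fun o => α o * S o / (1 + c o * s o ^ 2)),
    e.sum_comp (fun o => α o ^ 2 * s o ^ 2 / (1 + c o * s o ^ 2)),
    e.prod_comp (fun o => exp (-(c o * S o ^ 2) / (2 * (1 + c o * s o ^ 2))) / √(1 + c o * s o ^ 2))] at h
  rw [← h]
  unfold stdG
  rw [← hmp.map_eq, integral_map_equiv]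
  refine integral_congr_ae (ae_of_all _ fun x => ?_)
  simp only
  rw [← e.prod_comp, ← e.sum_comp]
  simp only [MeasurableEquiv.piCongrLeft_apply_apply]

/-- The exponential moment of a Gaussian. -/
theorem gauss_mgf (t : ℝ) : ∫ x, exp (t * x) ∂gaussianReal 0 1 = exp (t ^ 2 / 2) := by
  simpa [mgf] using congrFun (mgf_id_gaussianReal (μ := 0) (v := 1)) t

/-- One coordinate of the leaf. -/
theorem leaf_one {T : ℝ} (hT : 0 ≤ T) {σ : ℝ} (hσ : σ ^ 2 = 1) (b S w : ℝ) :
    ∫ x, exp (b * σ * (S + w * x) - T / 2 * (S + w * x) ^ 2) ∂gaussianReal 0 1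
      = exp ((b ^ 2 * w ^ 2 - T * S ^ 2) / (2 * (1 + T * w ^ 2)))
          / √(1 + T * w ^ 2) * exp (σ * (b * S / (1 + T * w ^ 2))) := by
  have e : ∀ x, exp (b * σ * (S + w * x) - T / 2 * (S + w * x) ^ 2)
      = exp (b * σ * (S + w * x)) * exp (-(T * (S + w * x) ^ 2) / 2) := fun x => by
    rw [← exp_add]; ring_nf
  simp only [e]
  rw [Energy.tilt_step (fun u => exp (b * σ * u)) hT]
  have e2 : ∀ y, exp (b * σ * (S / (1 + T * w ^ 2) + w / √(1 + T * w ^ 2) * y))
      = exp (σ * (b * S / (1 + T * w ^ 2))) * exp (b * σ * (w / √(1 + T * w ^ 2)) * y) := fun y => by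
    rw [← exp_add]; ring_nf
  simp only [e2, integral_const_mul, gauss_mgf]
  have hp : 0 < 1 + T * w ^ 2 := by positivity
  have e3 : exp (-(T * S ^ 2) / (2 * (1 + T * w ^ 2))) * exp ((b * σ * (w / √(1 + T * w ^ 2))) ^ 2 / 2)
      = exp ((b ^ 2 * w ^ 2 - T * S ^ 2) / (2 * (1 + T * w ^ 2))) := by
    rw [← exp_add, mul_pow, mul_pow, hσ, div_pow, sq_sqrt hp.le]
    congr 1
    field_simp
    ring
  rw [← e3]
  ring

/-! ### the recursion -/

section Rec

variable (k : ℕ) (p : ℕ) (T b : Fin p → ℝ) (K : ℕ → ℝ) (P : ℝ) (j : ℕ) (s : ℝ)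

/-- The field of coordinate `r` up to level `i`. -/
noncomputable def spS (r : Fin p) (i : ℕ) (z : Fin k → Fin p ⊕ Unit → ℝ) : ℝ :=
  acc (Energy.amp K) (fun y : Fin p ⊕ Unit → ℝ => y (.inl r)) i z

/-- The auxiliary field up to level `i`. -/
noncomputable def auxS (i : ℕ) (z : Fin k → Fin p ⊕ Unit → ℝ) : ℝ :=
  acc (fun l => if l = j then (1 : ℝ) else 0) (fun y : Fin p ⊕ Unit → ℝ => y (.inr ())) i z

/-- The field on the new spin up to level `i`. -/
noncomputable def linS (i : ℕ) (z : Fin k → Fin p ⊕ Unit → ℝ) : ℝ :=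
  ∑ r, b r * Energy.coef (T r) k K P i * spS k p K r i z + √s * auxS k p j i z

/-- The part of the value that does not depend on the fields. -/
noncomputable def cstC (i : ℕ) : ℝ :=
  -s / 2 + ∑ r, (b r ^ 2 * dOfK k K P k / (1 + T r * dOfK k K P k)
    - (log (1 + T r * dOfK k K P k)
      + ∑ l ∈ Ico i k, (log (1 + T r * dOfK k K P l) - log (1 + T r * dOfK k K P (l + 1))) / lev k (l + 1))) / 2

/-- The Hamiltonian of the recursion. -/
noncomputable def recH (z : Fin k → Fin p ⊕ Unit → ℝ) (x : (Fin p → ℝ) × Bool) : ℝ :=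
  auxTerm j s (fun l => z l (.inr ())) (spin x.2)
    + ∑ r, (b r * spin x.2 * kerFld k K P (fun l => z l (.inl r)) (x.1 r)
        - T r / 2 * kerFld k K P (fun l => z l (.inl r)) (x.1 r) ^ 2)

variable {k p T b K P j s}

theorem dOfK_eq_kv (i : ℕ) : dOfK k K P i = Energy.kv k K P i := rfl

theorem kerFld_spS (r : Fin p) (z : Fin k → Fin p ⊕ Unit → ℝ) (x : ℝ) :
    kerFld k K P (fun l => z l (.inl r)) x = spS k p K r k z + √(Energy.kv k K P k) * x :=
  Energy.kerFld_part _ _

theorem auxTerm_eq (z : Fin k → Fin p ⊕ Unit → ℝ) (σ : ℝ) :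
    auxTerm j s (fun l => z l (.inr ())) σ = σ * (√s * auxS k p j k z) - s / 2 := by
  have : auxS k p j k z = ∑ l : Fin k, if (l : ℕ) + 1 = j then z l (.inr ()) else 0 := by
    rw [auxS, acc_top]
    exact sum_congr rfl fun l _ => by split_ifs <;> simp
  rw [auxTerm, this]
  ring

theorem integral_coin (f : Bool → ℝ) : ∫ x, f x ∂coin = (f true + f false) / 2 := by
  rw [integral_fintype Integrable.of_finite, Fintype.sum_bool]
  simp [coin, Measure.real]
  ring

theorem top_value (hT : ∀ r, 0 ≤ T r) (hK : IsKer k K P) (R : ℕ → ℝ) (z : Fin k → Fin p ⊕ Unit → ℝ) :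
    val (stdG (Fin p ⊕ Unit)) ((stdG (Fin p)).prod coin) (recH k p T b K P j s) k z
      = cstC k p T b K P s k - ∑ r, T r * Energy.coef (T r) k K P k * spS k p K r k z ^ 2 / 2
        + spinF k R k (linS k p T b K P j s k z) := by
  set v := Energy.kv k K P k with hv
  have hv0 : 0 ≤ v := Energy.kv_nonneg hK k
  set E := fun r => (b r ^ 2 * v - T r * spS k p K r k z ^ 2) / (2 * (1 + T r * v))
  have hpos : ∀ r, 0 < 1 + T r * v := fun r => by have := hT r; positivity
  have inner : ∀ σ : Bool, ∫ x : Fin p → ℝ, exp (recH k p T b K P j s z (x, σ)) ∂stdG (Fin p)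
      = exp (-s / 2) * (∏ r, exp (E r) / √(1 + T r * v)) * exp (spin σ * linS k p T b K P j s k z) := by
    intro σ
    have hσ : spin σ ^ 2 = 1 := by cases σ <;> simp [spin]
    simp only [recH, kerFld_spS, auxTerm_eq, exp_add, exp_sum, integral_const_mul]
    rw [show stdG (Fin p) = Measure.pi fun _ => gaussianReal 0 1 from rfl,
      integral_fintype_prod_eq_prod (𝕜 := ℝ) (f := fun (r : Fin p) (u : ℝ) => exp (b r * spin σ
        * (spS k p K r k z + √v * u) - T r / 2 * (spS k p K r k z + √v * u) ^ 2))]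
    simp only [leaf_one (hT _) hσ, sq_sqrt hv0]
    rw [prod_mul_distrib, ← exp_sum]
    have e : ∑ r, spin σ * (b r * spS k p K r k z / (1 + T r * v))
        = spin σ * linS k p T b K P j s k z - spin σ * (√s * auxS k p j k z) := by
      rw [linS, mul_add, add_sub_cancel_right, mul_sum]
      exact sum_congr rfl fun r _ => by rw [Energy.coef, ← hv]; ring
    rw [e, mul_comm (∏ _, _) (exp _), ← mul_assoc, ← exp_add]
    rw [mul_comm (exp (-s / 2)) (∏ _, _), mul_assoc (∏ _, _), ← exp_add, mul_comm (∏ _, _)]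
    congr 2
    ring
  have hint : ∫ x, exp (recH k p T b K P j s z x) ∂(stdG (Fin p)).prod coin
      = exp (-s / 2) * (∏ r, exp (E r) / √(1 + T r * v)) * cosh (linS k p T b K P j s k z) := by
    have hi : ∀ σ : Bool, Integrable (fun x : Fin p → ℝ => exp (recH k p T b K P j s z (x, σ))) (stdG (Fin p)) :=
      fun σ => Integrable.of_integral_ne_zero (by
        rw [inner σ]
        exact mul_ne_zero (mul_ne_zero (exp_pos _).ne' (prod_pos fun r _ => div_pos (exp_pos _)
          (sqrt_pos.2 (hpos r))).ne') (exp_pos _).ne')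
    rw [integral_prod_symm _ ((integrable_prod_iff' ?_).2 ⟨ae_of_all _ hi, Integrable.of_finite⟩)]
    · simp only [inner, integral_coin, spin, cosh_eq, if_true, Bool.false_eq_true, if_false, one_mul, neg_mul]
      ring
    · refine Measurable.aestronglyMeasurable ?_
      exact measurable_from_prod_countable_left fun σ => Measurable.exp (by
        simp only [recH, auxTerm, kerFld_spS]; fun_prop)
  rw [val_top, hint]
  have hprod : 0 < ∏ r, exp (E r) / √(1 + T r * v) :=
    prod_pos fun r _ => div_pos (exp_pos _) (sqrt_pos.2 (hpos r))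
  rw [log_mul (mul_pos (exp_pos _) hprod).ne' (cosh_pos _).ne', log_mul (exp_pos _).ne' hprod.ne', log_exp,
    log_prod (fun r _ => (div_pos (exp_pos _) (sqrt_pos.2 (hpos r))).ne'), spinF_top]
  simp only [cstC, dOfK_eq_kv, Ico_self, sum_empty, add_zero, ← hv]
  have e : ∀ r, log (exp (E r) / √(1 + T r * v)) = (b r ^ 2 * v / (1 + T r * v) - log (1 + T r * v)) / 2
      - T r * Energy.coef (T r) k K P k * spS k p K r k z ^ 2 / 2 := fun r => by
    rw [log_div (exp_pos _).ne' (sqrt_pos.2 (hpos r)).ne', log_exp, log_sqrt (hpos r).le, Energy.coef, ← hv]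
    simp only [E]
    have := (hpos r).ne'
    field_simp
    ring
  simp only [e, sum_sub_distrib]
  ring

theorem spinR_step (i : ℕ) :
    bump (tiltR k T b (dOfK k K P)) j s (i + 1) - bump (tiltR k T b (dOfK k K P)) j s i
      = ∑ r, b r ^ 2 * (Energy.kq (T r) k K P (i + 1) - Energy.kq (T r) k K P i)
        + if i + 1 = j then s else 0 := by
  have e1 : tiltR k T b (dOfK k K P) (i + 1) - tiltR k T b (dOfK k K P) i
      = ∑ r, b r ^ 2 * (Energy.kq (T r) k K P (i + 1) - Energy.kq (T r) k K P i) := by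
    simp only [tiltR, sum_range_succ, add_sub_cancel_left, Energy.kq_succ, dOfK_eq_kv, tiltF, ← sum_sub_distrib,
      Finset.sum_div]
    refine sum_congr rfl fun r _ => ?_
    simp only [Energy.tiltV]
    ring
  simp only [bump]
  rw [← e1]
  by_cases h1 : i + 1 = j
  · rw [if_pos h1, if_pos h1.ge, if_neg (by omega)]; ring
  · rw [if_neg h1]
    by_cases h2 : j ≤ i
    · rw [if_pos (by omega), if_pos h2]; ring
    · rw [if_neg (by omega), if_neg h2]; ring

theorem rec_value (hT : ∀ r, 0 ≤ T r) (hK : IsKer k K P) (hs : 0 ≤ s) :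
    ∀ i ≤ k, ∀ z : Fin k → Fin p ⊕ Unit → ℝ,
      val (stdG (Fin p ⊕ Unit)) ((stdG (Fin p)).prod coin) (recH k p T b K P j s) i z
        = cstC k p T b K P s i - ∑ r, T r * Energy.coef (T r) k K P i * spS k p K r i z ^ 2 / 2
          + spinF k (bump (tiltR k T b (dOfK k K P)) j s) i (linS k p T b K P j s i z) := by
  set R := bump (tiltR k T b (dOfK k K P)) j s
  refine levels_down (k := k) (P := fun i => ∀ z, _) (top_value hT hK R) fun i hi ih z => ?_
  have hm : 0 < lev k (i + 1) := lev_pos (Nat.le_add_left 1 i)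
  have e := val_step (k := k) (γ := stdG (Fin p ⊕ Unit)) (μ := (stdG (Fin p)).prod coin) (j := i + 1)
    (Nat.le_add_left 1 i) hi z (recH k p T b K P j s)
  rw [Nat.add_sub_cancel] at e
  rw [e]
  set m := lev k (i + 1) with hmdef
  set cc : Fin p ⊕ Unit → ℝ := Sum.elim (fun r => m * T r * Energy.coef (T r) k K P (i + 1)) (fun _ => 0) with hcc
  set SS : Fin p ⊕ Unit → ℝ := Sum.elim (fun r => spS k p K r i z) (fun _ => auxS k p j i z) with hSS
  set ss : Fin p ⊕ Unit → ℝ := Sum.elim (fun _ => Energy.amp K (i + 1)) (fun _ => if i + 1 = j then 1 else 0) with hss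
  set al : Fin p ⊕ Unit → ℝ := Sum.elim (fun r => b r * Energy.coef (T r) k K P (i + 1)) (fun _ => √s) with hal
  have hc : ∀ o, 0 ≤ cc o := by
    rintro (r | u)
    · exact mul_nonneg (mul_nonneg hm.le (hT r)) (Energy.coef_nonneg (hT r) hK _)
    · exact le_rfl
  have hpt : ∀ y, exp (m * val (stdG (Fin p ⊕ Unit)) ((stdG (Fin p)).prod coin) (recH k p T b K P j s) (i + 1)
      (put z i y)) = exp (m * cstC k p T b K P s (i + 1)) * ((∏ o, exp (-(cc o * (SS o + ss o * y o) ^ 2) / 2))
        * exp (m * spinF k R (i + 1) (∑ o, al o * (SS o + ss o * y o)))) := fun y => by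
    rw [ih (put z i y)]
    have h1 : ∀ r, spS k p K r (i + 1) (put z i y) = spS k p K r i z + Energy.amp K (i + 1) * y (.inl r) :=
      fun r => acc_put _ _ z hi y
    have h2 : auxS k p j (i + 1) (put z i y) = auxS k p j i z + (if i + 1 = j then 1 else 0) * y (.inr ()) :=
      acc_put _ _ z hi y
    simp only [linS, h1, h2, Fintype.sum_sum_type, hcc, hSS, hss, hal, Sum.elim_inl,
      Sum.elim_inr, univ_unique, sum_singleton, zero_mul, neg_zero, zero_div, ← exp_sum, ← exp_add]
    congr 1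
    rw [mul_add, mul_sub, mul_sum, sub_eq_add_neg, ← sum_neg_distrib, add_assoc]
    congr 2
    rw [add_zero]
    exact sum_congr rfl fun r _ => by ring
  simp only [hpt, integral_const_mul]
  rw [multi (grow_exp_spinF R hi hm.le) cc hc SS ss al]
  have hh : ∑ o, al o * SS o / (1 + cc o * ss o ^ 2) = linS k p T b K P j s i z := by
    simp only [linS, Fintype.sum_sum_type, hcc, hSS, hss, hal, Sum.elim_inl, Sum.elim_inr, univ_unique,
      sum_singleton, zero_mul, add_zero, div_one]
    congr 1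
    refine sum_congr rfl fun r _ => ?_
    rw [← (Energy.step_ids (hT r) hK hi).2.1]
    ring
  have hvar : ∑ o, al o ^ 2 * ss o ^ 2 / (1 + cc o * ss o ^ 2) = R (i + 1) - R i := by
    rw [spinR_step]
    simp only [Fintype.sum_sum_type, hcc, hss, hal, Sum.elim_inl, Sum.elim_inr, univ_unique, sum_singleton,
      zero_mul, add_zero, div_one, sq_sqrt hs]
    congr 1
    · refine sum_congr rfl fun r _ => ?_
      rw [← (Energy.step_ids (hT r) hK hi).2.2]
      ring
    · split_ifs <;> simp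
  rw [hh, hvar]
  set D := ∫ w, exp (m * spinF k R (i + 1) (linS k p T b K P j s i z + √(R (i + 1) - R i) * w)) ∂gaussianReal 0 1
  have hD : spinF k R i (linS k p T b K P j s i z) = log D / m := by
    have h := spinF_step (k := k) (r := R) (j := i + 1) (Nat.le_add_left 1 i) hi
    rw [Nat.add_sub_cancel] at h
    rw [h]; rfl
  have hD0 : 0 < D := by
    refine integral_exp_pos ?_
    obtain ⟨hcF, C, hC, hb⟩ := grow_exp_spinF R hi hm.le
    refine ((int_exp_abs (C * |√(R (i + 1) - R i)|)).const_mul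
      (exp (C * (1 + |linS k p T b K P j s i z|)))).mono' (Continuous.aestronglyMeasurable (by
        have := (pot_spinF (r := R) hi).diff.continuous; fun_prop)) (ae_of_all _ fun w => ?_)
    rw [Real.norm_eq_abs, ← exp_add]
    refine (hb _).trans (exp_le_exp.2 ?_)
    have h1 := abs_add_le (linS k p T b K P j s i z) (√(R (i + 1) - R i) * w)
    rw [abs_mul] at h1
    nlinarith
  have hpc : ∀ o, 0 < 1 + cc o * ss o ^ 2 := fun o => by have := hc o; positivity
  have hW : ∀ o ∈ (univ : Finset (Fin p ⊕ Unit)),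
      exp (-(cc o * SS o ^ 2) / (2 * (1 + cc o * ss o ^ 2))) / √(1 + cc o * ss o ^ 2) ≠ 0 :=
    fun o _ => (div_pos (exp_pos _) (sqrt_pos.2 (hpc o))).ne'
  rw [log_mul (exp_pos _).ne' (mul_pos (prod_pos fun o _ => div_pos (exp_pos _) (sqrt_pos.2 (hpc o))) hD0).ne',
    log_mul (prod_ne_zero_iff.2 hW) hD0.ne', log_exp, log_prod hW, hD]
  have hstep : ∀ r, log (1 + cc (.inl r) * ss (.inl r) ^ 2)
      = log (1 + T r * dOfK k K P i) - log (1 + T r * dOfK k K P (i + 1)) := fun r => by
    have p1 := Energy.den_pos (hT r) hK i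
    have p2 := Energy.den_pos (hT r) hK (i + 1)
    simp only [dOfK_eq_kv]
    rw [← log_div p1.ne' p2.ne']
    congr 1
    simp only [hcc, hss, Sum.elim_inl, Energy.coef, Energy.amp, Nat.add_sub_cancel,
      sq_sqrt (sub_nonneg.2 (hK.2.1 i hi))]
    rw [eq_div_iff p2.ne', Energy.kv_step (Q := P) (q := K) hi]
    field_simp
    ring
  simp only [Fintype.sum_sum_type, univ_unique, sum_singleton, log_div (exp_pos _).ne'
    (sqrt_pos.2 (hpc _)).ne', log_exp, log_sqrt (hpc _).le, hstep]
  simp only [hcc, hSS, hss, Sum.elim_inr, Sum.elim_inl, zero_mul, neg_zero, zero_div, add_zero, log_one, sub_zero]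
  have hq : ∀ r, -(m * T r * Energy.coef (T r) k K P (i + 1) * spS k p K r i z ^ 2)
        / (2 * (1 + m * T r * Energy.coef (T r) k K P (i + 1) * Energy.amp K (i + 1) ^ 2))
      = -(m * (T r * Energy.coef (T r) k K P i * spS k p K r i z ^ 2 / 2)) := fun r => by
    rw [show -(m * T r * Energy.coef (T r) k K P (i + 1) * spS k p K r i z ^ 2)
        / (2 * (1 + m * T r * Energy.coef (T r) k K P (i + 1) * Energy.amp K (i + 1) ^ 2))
      = -(m * T r * Energy.coef (T r) k K P (i + 1)
          / (1 + m * T r * Energy.coef (T r) k K P (i + 1) * Energy.amp K (i + 1) ^ 2)) * spS k p K r i z ^ 2 / 2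
      from by rw [mul_comm 2, ← div_div]; ring, hmdef, (Energy.step_ids (hT r) hK hi).1]
    ring
  simp only [hq, sum_sub_distrib, sum_neg_distrib, ← mul_sum]
  simp only [cstC, sum_eq_sum_Ico_succ_bot hi, ← hmdef, sub_div, add_div, sum_sub_distrib, sum_add_distrib,
    ← Finset.sum_div]
  field_simp
  ring_nf
  simp only [mul_comm, mul_left_comm]
  ring

end Rec

theorem gaussStmt : GaussStmt := by
  intro p k T b K P j s hT hK hj hjk hs
  have h := rec_value (b := b) (j := j) (s := s) hT hK hs 0 (Nat.zero_le k) fun _ _ => 0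
  simp only [linS, spS, auxS, acc_zero, mul_zero, sum_const_zero, sq, zero_div, add_zero, sub_zero] at h
  refine h.trans ?_
  rw [spinG_shift, tiltV, cstC, tiltF]
  have hb : bump (tiltR k T b (dOfK k K P)) j s k = tiltR k T b (dOfK k K P) k + s := by simp [bump, hjk]
  rw [hb]
  simp only [combV, ← range_eq_Ico, sub_div, add_div, sum_sub_distrib, sum_add_distrib, ← Finset.sum_div]
  ring

end Vale.Agent.P166.Rsb.Cav
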