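import Vale.Agent.P166.Rsb.Cav.HaarSym

/-!
# P166: one more direction as a tilt of the reference system

The added direction and one special coordinate in every block are mixed by an orthogonal matrix;
the other coordinates are untouched.  Masks move the compensated fields between the two systems.
-/

open MeasureTheory ProbabilityTheory Real Finset Matrix
open Vale.Agent.P157 (cubeLaw coin)
open Vale.Agent.P157.Rsb (stdG val cnd LinB Tame gaussSize)

namespace Vale.Agent.P166.Rsb.CavH

variable {d N k : ℕ}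

section Fin

variable {ι X : Type} [Fintype ι] [Fintype X] [MeasurableSpace X] [MeasurableSingletonClass X]

/-- Data on finitely many leaves. -/
noncomputable def mkF (v : X → ι → ℝ) (det : X → ℝ) : FData ι X where
  v := v
  det := det
  v_meas _ := measurable_of_countable _
  det_meas := measurable_of_countable _
  bdd := by
    refine ⟨∑ x, ((∑ i, |v x i|) + |det x|), fun x => ?_⟩
    have h := single_le_sum (f := fun x => (∑ i, |v x i|) + |det x|) (fun _ _ => by positivity) (mem_univ x)
    exact ⟨fun i => le_trans (le_add_of_le_of_nonneg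
      (single_le_sum (f := fun i => |v x i|) (fun _ _ => abs_nonneg _) (mem_univ i)) (abs_nonneg _)) h,
      le_trans (le_add_of_nonneg_left (sum_nonneg fun i _ => abs_nonneg _)) h⟩

variable {μ : Measure X} [IsFiniteMeasure μ] [NeZero μ]

omit [Fintype ι] [Fintype X] [MeasurableSingletonClass X] [IsFiniteMeasure μ] [NeZero μ] in
/-- Boundedness on rotations and measurability. -/
def Reg (f : (Fin N → Fin N → ℝ) → ℝ) : Prop :=
  Measurable f ∧ ∃ C, ∀ U, IsOrth U → |f U| ≤ C

theorem Reg.integrable {f : (Fin N → Fin N → ℝ) → ℝ} (hf : Reg f) {m : Measure (Fin N → Fin N → ℝ)}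
    (hm : IsHaarOrth m) : Integrable f m := by
  obtain ⟨hf, C, hC⟩ := hf
  have := hm.1
  exact Integrable.of_bound hf.aestronglyMeasurable C (hm.2.1.mono fun U hU => hC U hU)

/-- A value depending continuously on a rotation is measurable and bounded on rotations. -/
theorem reg_gval (D : (Fin N → Fin N → ℝ) → FData ι X) (S : ℕ → ι → ℝ)
    (hv : ∀ x i, Continuous fun U => (D U).v x i) (hd : ∀ x, Continuous fun U => (D U).det x) :
    Reg fun U => val (k := k) (stdG ι) μ (gham (D U) S) 0 (fun _ _ => 0) := by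
  refine ⟨?_, ?_⟩
  · have hH : Measurable fun p : ((Fin N → Fin N → ℝ) × (Fin k → ι → ℝ)) × X =>
        gham (k := k) (D p.1.1) S p.1.2 p.2 := by
      refine measurable_from_prod_countable_left fun x => ?_
      have h1 : ∀ i, Measurable fun q : (Fin N → Fin N → ℝ) × (Fin k → ι → ℝ) => (D q.1).v x i :=
        fun i => ((hv x i).measurable).comp measurable_fst
      have h2 : Measurable fun q : (Fin N → Fin N → ℝ) × (Fin k → ι → ℝ) => (D q.1).det x :=
        ((hd x).measurable).comp measurable_fst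
      simp only [gham]
      exact (Finset.measurable_sum _ fun l _ => Finset.measurable_sum _ fun i _ =>
        (((measurable_const.mul ((measurable_pi_apply i).comp ((measurable_pi_apply l).comp measurable_snd))).mul
          (h1 i)).sub (measurable_const.mul ((h1 i).pow_const 2)))).add h2
    have h0 := P157.Rsb.val_measurable_param (γ := stdG ι) (μ := μ)
      (H := fun U => gham (k := k) (D U) S) hH 0
    exact Measurable.comp (g := fun p : (Fin N → Fin N → ℝ) × (Fin k → ι → ℝ) =>
      val (k := k) (stdG ι) μ (gham (D p.1) S) 0 p.2) (f := fun U => (U, fun _ _ => 0)) h0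
      (measurable_id.prodMk measurable_const)
  · set G := fun U : Fin N → Fin N → ℝ => ∑ x, ((∑ i, |(D U).v x i|) + |(D U).det x|)
    have hG : Continuous G :=
      continuous_finsetSum _ fun x _ =>
        (continuous_finsetSum _ fun i _ => (hv x i).abs).add (hd x).abs
    obtain ⟨B, hB⟩ := ((isCompact_univ_pi fun (_ : Fin N) => isCompact_univ_pi fun (_ : Fin N) =>
      isCompact_Icc (a := (-1 : ℝ)) (b := 1)).image hG).bddAbove
    obtain ⟨A', hA', h⟩ := P157.Rsb.val_bound_unif (k := k) (μ := μ) (gaussSize ι)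
      (A := |(∑ l : Fin k, ∑ i, |S ((l : ℕ) + 1) i|)| * max B 0 + k * Fintype.card ι
        * ((∑ l : Fin k, ∑ i, |S ((l : ℕ) + 1) i|) ^ 2 / 2 * max B 0 ^ 2) + max B 0) (by positivity)
    refine ⟨A' * (1 + (gaussSize ι).tot fun (_ : Fin k) (_ : ι) => (0 : ℝ)), fun U hU => ?_⟩
    have hle : G U ≤ max B 0 :=
      (hB ⟨U, fun i _ j _ => abs_le.1 (IsOrth.abs_le hU i j), rfl⟩).trans (le_max_left _ _)
    refine h _ (gham_meas _ _) (abs_gham_le (D U) (le_max_right _ _) (fun x => ?_) (le_sum_amp S)) 0 _
    have h1 := (single_le_sum (f := fun x => (∑ i, |(D U).v x i|) + |(D U).det x|)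
      (fun _ _ => by positivity) (mem_univ x)).trans hle
    exact ⟨fun i => le_trans (le_add_of_le_of_nonneg
      (single_le_sum (f := fun i => |(D U).v x i|) (fun _ _ => abs_nonneg _) (mem_univ i)) (abs_nonneg _)) h1,
      le_trans (le_add_of_nonneg_left (sum_nonneg fun i _ => abs_nonneg _)) h1⟩

end Fin

theorem spin_mul_self' (b : Bool) : spin b ^ 2 = 1 := by
  cases b <;> simp [spin]

section Gen

variable (β : ℝ) (a : Fin (d + 1) → ℝ) (cR : Fin N → Fin (d + 1)) (τ : ℕ → ℝ)

/-- The reference system with a potential of its coordinates. -/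
noncomputable def baseData (Φ : (Fin N → ℝ) → ℝ) (U : Fin N → Fin N → ℝ) : FData (Fld N) (Fin N → Bool) :=
  mkF (fldV cR U) fun s => β / 2 * enV a cR U s + Φ (rotate U s)

/-- Its value. -/
noncomputable def baseVal (k : ℕ) (Φ : (Fin N → ℝ) → ℝ) (U : Fin N → Fin N → ℝ) : ℝ :=
  val (k := k) (stdG (Fld N)) (cubeLaw N) (gham (baseData β a cR Φ U) (ampV (fun _ => 0) τ)) 0 fun _ _ => 0

/-- The reference system and one spin, coupled by a potential. -/
noncomputable def genData (Φ : (Fin N → ℝ) → ℝ → ℝ) (U : Fin N → Fin N → ℝ) :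
    FData (Fld N ⊕ Unit) ((Fin N → Bool) × Bool) :=
  mkF (fun x => Sum.elim (fldV cR U x.1) fun _ => spin x.2)
    fun x => β / 2 * enV a cR U x.1 + Φ (rotate U x.1) (spin x.2)

/-- Its amplitudes: an additional field of variance `s` at level `j` on the spin. -/
noncomputable def genAmp (j : ℕ) (s : ℝ) (l : ℕ) : Fld N ⊕ Unit → ℝ :=
  Sum.elim (ampV (fun _ => 0) τ l) fun _ => if l = j then √s else 0

/-- Its value. -/
noncomputable def genVal (k j : ℕ) (s : ℝ) (Φ : (Fin N → ℝ) → ℝ → ℝ) (U : Fin N → Fin N → ℝ) : ℝ :=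
  val (k := k) (stdG (Fld N ⊕ Unit)) ((cubeLaw N).prod coin) (gham (genData β a cR Φ U) (genAmp τ j s)) 0
    fun _ _ => 0

/-- The potential of a tilt. -/
noncomputable def tiltP {p : ℕ} (sp : Fin p → Fin N) (T b : Fin p → ℝ) (w : Fin N → ℝ) (s0 : ℝ) : ℝ :=
  ∑ r, (b r * s0 * w (sp r) - T r / 2 * w (sp r) ^ 2)

theorem reg_genVal {j : ℕ} {s : ℝ} {Φ : (Fin N → ℝ) → ℝ → ℝ} (hΦ : ∀ s0, Continuous fun w => Φ w s0) :
    Reg (genVal β a cR τ k j s Φ) := by
  refine reg_gval (μ := (cubeLaw N).prod coin) (fun U => genData β a cR Φ U) _ (fun x i => ?_) fun x => ?_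
  · rcases i with (i | i) | i <;> simp only [genData, mkF, fldV, Sum.elim_inl, Sum.elim_inr, rotate] <;>
      fun_prop
  · have h : Continuous fun U : Fin N → Fin N → ℝ => Φ (rotate U x.1) (spin x.2) :=
      (hΦ _).comp (continuous_pi fun i => P166.continuous_rotate x.1 i)
    exact (by unfold enV rotate; fun_prop : Continuous fun U => β / 2 * enV a cR U x.1).add h

theorem reg_baseVal {Φ : (Fin N → ℝ) → ℝ} (hΦ : Continuous Φ) : Reg (baseVal β a cR τ k Φ) := by
  refine reg_gval (μ := cubeLaw N) (fun U => baseData β a cR Φ U) _ (fun x i => ?_) fun x => ?_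
  · rcases i with i | i <;> simp only [baseData, mkF, fldV, Sum.elim_inl, Sum.elim_inr, rotate] <;>
      fun_prop
  · exact (by unfold enV rotate; fun_prop : Continuous fun U => β / 2 * enV a cR U x).add
      (hΦ.comp (continuous_pi fun i => P166.continuous_rotate x i))

theorem tiltE_eq {p : ℕ} (m : Measure (Fin N → Fin N → ℝ)) (sp : Fin p → Fin N) (T b : Fin p → ℝ) (j : ℕ)
    {s : ℝ} (hs : 0 ≤ s) (hj : 1 ≤ j ∧ j ≤ k ∨ s = 0) :
    tiltE m k β a cR τ sp T b j s = ∫ U, genVal β a cR τ k j s (tiltP sp T b) U ∂m := by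
  unfold tiltE genVal
  refine integral_congr_ae (ae_of_all _ fun U => congrArg
    (fun H => val (k := k) (stdG (Fld N ⊕ Unit)) ((cubeLaw N).prod coin) H 0 fun _ _ => 0) ?_)
  funext z x
  have h1 : (∑ l : Fin k, if (l : ℕ) + 1 = j then s / 2 else 0) = s / 2 := by
    rcases hj with ⟨h1, h2⟩ | h0
    · rw [sum_eq_single_of_mem (⟨j - 1, by omega⟩ : Fin k) (mem_univ _)]
      · rw [if_pos (by simp; omega)]
      · exact fun b _ hb => if_neg fun h => hb (Fin.ext (by simp; omega))
    · simp [h0]
  simp only [tiltHam, hamU_eq, gham, genData, mkF, fdata, genAmp, tiltP, Fintype.sum_sum_type (α₁ := Fld N),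
    Sum.elim_inl, Sum.elim_inr, auxTerm, univ_unique, sum_singleton, sum_add_distrib, sum_sub_distrib,
    spin_mul_self', mul_one, mul_sum, sum_mul]
  have h2 : ∀ l : Fin k, (if (l : ℕ) + 1 = j then √s else 0) ^ 2 / 2
      = if (l : ℕ) + 1 = j then s / 2 else 0 := fun l => by split_ifs <;> simp [sq_sqrt hs]
  simp only [h2, h1]
  have h3 : ∀ l : Fin k, √s * (if (l : ℕ) + 1 = j then z l (.inr ()) else 0) * spin x.2
      = (if (l : ℕ) + 1 = j then √s else 0) * z l (.inr ()) * spin x.2 := fun l => by
    split_ifs <;> ring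
  simp only [h3, PUnit.default_eq_unit]
  ring

/-- Without the field a potential of the coordinates leaves the spin alone. -/
theorem genVal_zero (j : ℕ) (Φ : (Fin N → ℝ) → ℝ) (U : Fin N → Fin N → ℝ) :
    genVal β a cR τ k j 0 (fun w _ => Φ w) U = baseVal β a cR τ k Φ U := by
  have hF : MeasurePreserving (fun (w : Fld N ⊕ Unit → ℝ) i => w (.inl i)) (stdG (Fld N ⊕ Unit))
      (stdG (Fld N)) := mp_inj Sum.inl_injective
  have hG : MeasurePreserving Prod.fst ((cubeLaw N).prod coin) (cubeLaw N) := measurePreserving_fst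
  refine Eq.trans ?_ (P157.Rsb.val_map hF hG (gham_linB (k := k) (baseData β a cR Φ U)
    (ampV (fun _ => 0) τ)) 0 fun _ _ => 0).1
  refine congrArg (fun H => val (k := k) (stdG (Fld N ⊕ Unit)) ((cubeLaw N).prod coin) H 0 fun _ _ => 0) ?_
  funext z x
  simp only [gham, genData, baseData, mkF, genAmp, Fintype.sum_sum_type (α₁ := Fld N), Sum.elim_inl,
    Sum.elim_inr, univ_unique, sum_singleton, Real.sqrt_zero, ite_self]
  simp

theorem genVal_le_zero (j : ℕ) (s : ℝ) (Φ : (Fin N → ℝ) → ℝ → ℝ) (U : Fin N → Fin N → ℝ) :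
    genVal β a cR τ k j s Φ U ≤ genVal β a cR τ k j 0 Φ U := by
  refine (gval_mask_le (genData β a cR Φ U) (genAmp τ j s) (m := Sum.elim (fun _ => (1 : ℝ)) fun _ => 0)
    (by rintro (i | i) <;> simp)).trans (le_of_eq ?_)
  refine congrArg (fun S => val (k := k) (stdG (Fld N ⊕ Unit)) ((cubeLaw N).prod coin)
    (gham (genData β a cR Φ U) S) 0 fun _ _ => 0) ?_
  funext l i
  rcases i with i | i <;> simp [maskAmp, genAmp]

theorem zero_le_genVal {j : ℕ} {s : ℝ} (hs : 0 ≤ s) (Φ : (Fin N → ℝ) → ℝ → ℝ) (U : Fin N → Fin N → ℝ) :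
    genVal β a cR τ k j 0 Φ U - s / 2 ≤ genVal β a cR τ k j s Φ U := by
  have h := gval_mask_add_le (k := k) (μ := (cubeLaw N).prod coin) (genData β a cR Φ U) (genData β a cR Φ U) rfl
    (genAmp τ j s) (m := Sum.elim (fun _ => (1 : ℝ)) fun _ => 0) (by rintro (i | i) <;> simp)
    (K := -(s / 2)) fun x => ?_
  · refine le_of_eq_of_le ?_ h
    rw [← sub_eq_add_neg]
    congr 1
    refine congrArg (fun S => val (k := k) (stdG (Fld N ⊕ Unit)) ((cubeLaw N).prod coin)
      (gham (genData β a cR Φ U) S) 0 fun _ _ => 0) ?_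
    funext l i
    rcases i with i | i <;> simp [maskAmp, genAmp]
  · simp only [genData, mkF, genAmp, Fintype.sum_sum_type (α₁ := Fld N), Sum.elim_inl, Sum.elim_inr, sub_self,
      sub_zero, zero_mul, sum_const_zero, zero_add, univ_unique, sum_singleton, spin_mul_self', mul_one,
      one_mul]
    have h1 : (∑ l : Fin k, (if (l : ℕ) + 1 = j then √s else 0) ^ 2 / 2) ≤ s / 2 := by
      rcases em (∃ l : Fin k, (l : ℕ) + 1 = j) with ⟨l, hl⟩ | he
      · rw [sum_eq_single_of_mem l (mem_univ _) fun b _ hb => by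
          rw [if_neg fun h => hb (Fin.ext (by omega))]; simp]
        simp [hl, sq_sqrt hs]
      · rw [sum_eq_zero fun b _ => by rw [if_neg fun h => he ⟨b, h⟩]; simp]
        linarith
    linarith

theorem baseVal_ge (Φ : (Fin N → ℝ) → ℝ) (U : Fin N → Fin N → ℝ) :
    rootU k β a cR (fun _ => 0) τ U + gibR β a cR U k (fun _ => 0) τ (fun s => Φ (rotate U s))
      ≤ baseVal β a cR τ k Φ U := by
  have h := gval_support (μ := cubeLaw N) (k := k) (fdata β a cR U) (baseData β a cR Φ U) rfl
    (ampV (fun _ => 0) τ) (ampV (fun _ => 0) τ)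
  simp only [sub_self, zero_mul, ne_eq, OfNat.ofNat_ne_zero, not_false_eq_true, zero_pow, zero_div,
    sum_const_zero, add_zero] at h
  refine le_of_eq_of_le ?_ h
  rw [rootU_eq, gibR, hamU_eq, groot]
  simp [fdata, baseData, mkF]

theorem baseVal_le (Φ : (Fin N → ℝ) → ℝ) (U : Fin N → Fin N → ℝ) :
    baseVal β a cR τ k Φ U ≤ rootU k β a cR (fun _ => 0) τ U
      + log (gibR β a cR U k (fun _ => 0) τ fun s => exp (Φ (rotate U s))) := by
  have h := val_le_log_cnd (k := k) (γ := stdG (Fld N)) (μ := cubeLaw N)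
    (hamU_linB (k := k) β a cR U (fun _ => 0) τ) (D := fun s => Φ (rotate U s)) (measurable_of_countable _)
    (B := ∑ s, |Φ (rotate U s)|)
    (fun s => single_le_sum (f := fun s => |Φ (rotate U s)|) (fun _ _ => abs_nonneg _) (mem_univ s)) 0
    fun _ _ => 0
  refine le_of_eq_of_le ?_ h
  refine congrArg (fun H => val (k := k) (stdG (Fld N)) (cubeLaw N) H 0 fun _ _ => 0) ?_
  funext z s
  simp [hamU_eq, gham, baseData, fdata, mkF, add_assoc]

end Gen

section Star

variable {sp : Fin (d + 1) → Fin N} {c cR : Fin N → Fin (d + 1)}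

theorem sp_inj (hsp : ∀ f, c (sp f) = f) : Function.Injective sp := fun x y h => by
  have := congrArg c h
  rwa [hsp, hsp] at this

/-- A sum over the coordinates that differs from another at the special ones only. -/
theorem sum_sp (hsp : ∀ f, c (sp f) = f) (G H : Fin N → ℝ) :
    ∑ i, (if i = sp (c i) then G i else H i) = ∑ i, H i + ∑ f, (G (sp f) - H (sp f)) := by
  have e : ∀ i, (if i = sp (c i) then G i else H i) = H i + if i = sp (c i) then G i - H i else 0 :=
    fun i => by split_ifs <;> ring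
  simp only [e, sum_add_distrib]
  congr 1
  rw [← sum_filter]
  exact sum_nbij' c sp (fun i _ => mem_univ _) (fun f _ => by simp [hsp])
    (fun i hi => (mem_filter.1 hi).2.symm) (fun f _ => hsp f) fun i hi => by rw [← (mem_filter.1 hi).2]

variable (sp c)

/-- The relabelling: special coordinates belong to the last block. -/
def cRef (i : Fin N) : Fin (d + 1) := if i = sp (c i) then Fin.last d else c i

variable (B : Fin (d + 1) → Fin (d + 1) → ℝ)

/-- The coordinates of the mixed block. -/
noncomputable def yB (w : Fin N → ℝ) (s0 : ℝ) (f : Fin (d + 1)) : ℝ :=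
  app B (Fin.cons s0 fun r : Fin d => w (sp r.castSucc)) f

/-- The coordinates after mixing: the added one first. -/
noncomputable def starY (w : Fin N → ℝ) (s0 : ℝ) : Fin (N + 1) → ℝ :=
  Fin.cons (w (sp (Fin.last d))) fun i => if i = sp (c i) then yB sp B w s0 (c i) else w i

/-- The mixing as an array. -/
noncomputable def starM (p q : Fin (N + 1)) : ℝ :=
  starY sp c B (fun i => bas q i.succ) (bas q 0) p

theorem app_starM (x : Fin (N + 1) → ℝ) (p : Fin (N + 1)) :
    app (starM sp c B) x p = starY sp c B (fun i => x i.succ) (x 0) p := by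
  have hq : ∀ p', ∑ q : Fin (N + 1), bas q p' * x q = x p' := fun p' => by simp [bas, Pi.single_apply]
  simp only [app, mulVec, dotProduct, Matrix.of_apply, starM]
  cases p using Fin.cases with
  | zero => simp only [starY, Fin.cons_zero, hq]
  | succ i =>
    simp only [starY, Fin.cons_succ]
    split_ifs with h
    · simp only [yB, app, mulVec, dotProduct, Matrix.of_apply, sum_mul]
      rw [sum_comm]
      refine sum_congr rfl fun r _ => ?_
      cases r using Fin.cases <;> simp only [Fin.cons_zero, Fin.cons_succ, mul_assoc, ← mul_sum, hq]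
    · exact hq _

variable {sp c B} (hsp : ∀ f, c (sp f) = f) (hB : IsOrth B)

include hB in
theorem sum_yB_sq (w : Fin N → ℝ) (s0 : ℝ) :
    ∑ f, yB sp B w s0 f ^ 2 = s0 ^ 2 + ∑ r : Fin d, w (sp r.castSucc) ^ 2 := by
  have h := app_dot hB (Fin.cons s0 fun r : Fin d => w (sp r.castSucc))
    (Fin.cons s0 fun r : Fin d => w (sp r.castSucc))
  simpa [dotProduct, yB, Fin.sum_univ_succ, sq] using h

include hsp hB in
theorem starY_iso (w : Fin N → ℝ) (s0 : ℝ) :
    ∑ p, starY sp c B w s0 p ^ 2 = s0 ^ 2 + ∑ i, w i ^ 2 := by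
  simp only [starY, Fin.sum_univ_succ (n := N), Fin.cons_zero, Fin.cons_succ, ite_pow]
  rw [sum_sp hsp]
  simp only [hsp, sum_sub_distrib, sum_yB_sq hB]
  rw [Fin.sum_univ_castSucc (f := fun f => w (sp f) ^ 2)]
  ring

include hsp hB in
theorem isOrth_starM : IsOrth (starM sp c B) := by
  have hq : ∀ x, app (starM sp c B) x ⬝ᵥ app (starM sp c B) x = x ⬝ᵥ x := fun x => by
    have h := starY_iso hsp hB (fun i => x i.succ) (x 0)
    simp only [dotProduct, app_starM, ← sq, Fin.sum_univ_succ (f := fun i => x i ^ 2)]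
    exact h
  rw [isOrth_iff]
  refine mul_eq_one_comm.1 ?_
  ext a b
  have h := hq (bas a + bas b)
  have ha := hq (bas a)
  have hb := hq (bas b)
  simp only [app, mulVec_add, add_dotProduct, dotProduct_add] at h ha hb
  have e : (Matrix.of (starM sp c B) *ᵥ bas a) ⬝ᵥ (Matrix.of (starM sp c B) *ᵥ bas b) = bas a ⬝ᵥ bas b := by
    linarith [dotProduct_comm (bas a) (bas b),
      dotProduct_comm (Matrix.of (starM sp c B) *ᵥ bas a) (Matrix.of (starM sp c B) *ᵥ bas b)]
  rw [dot_bas] at e
  simpa [Matrix.mul_apply, Matrix.one_apply, dotProduct, mulVec, bas, Pi.single_apply, eq_comm] using e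

/-- A rotation fixing the added coordinate. -/
noncomputable def ext (V : Fin N → Fin N → ℝ) : Fin (N + 1) → Fin (N + 1) → ℝ :=
  Fin.cons (bas 0) fun i => Fin.cons 0 (V i)

theorem rotate_ext (V : Fin N → Fin N → ℝ) (s : Fin (N + 1) → Bool) :
    rotate (ext V) s = Fin.cons (spin (s 0)) (rotate V fun i => s i.succ) := by
  funext p
  cases p using Fin.cases <;> simp [rotate, ext, Fin.sum_univ_succ, bas, Fin.succ_ne_zero]

theorem mul_ext (A V : Fin N → Fin N → ℝ) : mul (ext A) (ext V) = ext (mul A V) := by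
  funext p q
  cases p using Fin.cases <;> cases q using Fin.cases <;>
    simp [mul, ext, Fin.sum_univ_succ, bas, Fin.succ_ne_zero]

theorem isOrth_ext {V : Fin N → Fin N → ℝ} (hV : IsOrth V) : IsOrth (ext V) := by
  refine ⟨fun a b => ?_, fun a b => ?_⟩ <;> cases a using Fin.cases <;> cases b using Fin.cases <;>
    simp [ext, Fin.sum_univ_succ, bas, Fin.succ_ne_zero, fun i : Fin N => (Fin.succ_ne_zero i).symm, hV.1, hV.2]

theorem continuous_ext : Continuous (ext : (Fin N → Fin N → ℝ) → _) := by
  refine continuous_pi fun p => continuous_pi fun q => ?_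
  cases p using Fin.cases <;> cases q using Fin.cases <;> simp [ext] <;> fun_prop

variable (sp c) in
theorem rotate_star (B : Fin (d + 1) → Fin (d + 1) → ℝ) (V : Fin N → Fin N → ℝ) (s : Fin (N + 1) → Bool) :
    rotate (mul (starM sp c B) (ext V)) s
      = starY sp c B (rotate V fun i => s i.succ) (spin (s 0)) := by
  rw [Energy.rotate_mul_app]
  funext p
  simp only [app_starM, rotate_ext, Fin.cons_zero, Fin.cons_succ]

variable (sp c) (β : ℝ) (a : Fin (d + 1) → ℝ) (τ : ℕ → ℝ) (e : Fin (d + 1))

/-- The energy of the mixed block against the reference. -/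
noncomputable def delta (B : Fin (d + 1) → Fin (d + 1) → ℝ) (w : Fin N → ℝ) (s0 : ℝ) : ℝ :=
  a e * w (sp (Fin.last d)) ^ 2 + ∑ f, a f * yB sp B w s0 f ^ 2
    - a (Fin.last d) * ∑ f, w (sp f) ^ 2

/-- The numbers seen by the fields of both systems. -/
noncomputable def unionV (B : Fin (d + 1) → Fin (d + 1) → ℝ) (V : Fin N → Fin N → ℝ)
    (s : Fin (N + 1) → Bool) : Fld (N + 1) → ℝ :=
  Sum.elim (fun p => spin (s p)) (Fin.cons (rotate V (fun i => s i.succ) (sp (Fin.last d))) fun i =>
    if i = sp (Fin.last d) then yB sp B (rotate V fun i => s i.succ) (spin (s 0)) (Fin.last d)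
    else topMask (cRef sp c) i * rotate V (fun i => s i.succ) i)

/-- Both systems as one, with a potential. -/
noncomputable def unionData (B : Fin (d + 1) → Fin (d + 1) → ℝ) (Φ : (Fin N → ℝ) → ℝ → ℝ)
    (V : Fin N → Fin N → ℝ) : FData (Fld (N + 1)) (Fin (N + 1) → Bool) :=
  mkF (unionV sp c B V) fun s => β / 2 * enV a (cRef sp c) V (fun i => s i.succ)
    + Φ (rotate V fun i => s i.succ) (spin (s 0))

/-- The coordinates of the reference system. -/
noncomputable def maskR : Fld (N + 1) → ℝ :=
  Sum.elim (fun _ => 1) (Fin.cons 1 fun i => if i = sp (Fin.last d) then 0 else 1)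

/-- The coordinates of the last block after mixing. -/
noncomputable def maskE : Fld (N + 1) → ℝ :=
  Sum.elim (fun _ => 1) (Fin.cons (if e = Fin.last d then 1 else 0) fun i =>
    if i = sp (c i) ∧ c i ≠ Fin.last d then 0 else 1)

/-- The value of the mixed system. -/
noncomputable def starVal (B : Fin (d + 1) → Fin (d + 1) → ℝ) (k j : ℕ) (s : ℝ)
    (V : Fin N → Fin N → ℝ) : ℝ :=
  val (k := k) (stdG (Fld (N + 1))) (cubeLaw (N + 1))
    (gham (fdata β a (Fin.cons e c) (mul (starM sp c B) (ext V))) (auxAmp τ 0 j s)) 0 fun _ _ => 0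

variable {sp c}

include hsp in
theorem cRef_sp (f : Fin (d + 1)) : cRef sp c (sp f) = Fin.last d := by simp [cRef, hsp]

include hsp in
theorem enV_star (V : Fin N → Fin N → ℝ) (s : Fin (N + 1) → Bool) :
    enV a (Fin.cons e c) (mul (starM sp c B) (ext V)) s
      = enV a (cRef sp c) V (fun i => s i.succ)
        + delta sp a e B (rotate V fun i => s i.succ) (spin (s 0)) := by
  simp only [enV, rotate_star, delta, Fin.sum_univ_succ (n := N), Fin.cons_zero, Fin.cons_succ, starY]
  generalize rotate V (fun i => s i.succ) = w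
  generalize spin (s 0) = s0
  have h1 : ∀ i, a (c i) * (if i = sp (c i) then yB sp B w s0 (c i) else w i) ^ 2
      = if i = sp (c i) then a (c i) * yB sp B w s0 (c i) ^ 2 else a (c i) * w i ^ 2 := fun i => by
    split_ifs <;> rfl
  have h2 : ∀ i, a (cRef sp c i) * w i ^ 2
      = if i = sp (c i) then a (Fin.last d) * w i ^ 2 else a (c i) * w i ^ 2 := fun i => by
    unfold cRef; split_ifs <;> rfl
  simp only [h1, h2, sum_sp hsp, hsp, sum_sub_distrib, mul_sum]
  ring

include hsp in
theorem starVal_eq (k j : ℕ) (s : ℝ) (V : Fin N → Fin N → ℝ) :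
    starVal sp c β a τ e B k j s V = val (k := k) (stdG (Fld (N + 1))) (cubeLaw (N + 1))
      (gham (unionData sp c β a B (fun w s0 => β / 2 * delta sp a e B w s0) V)
        (maskAmp (auxAmp τ 0 j s) (maskE sp c e))) 0 fun _ _ => 0 := by
  refine congrArg (fun H => val (k := k) (stdG (Fld (N + 1))) (cubeLaw (N + 1)) H 0 fun _ _ => 0)
    (gham_congr (fun x => ?_) fun l p x => ?_)
  · simp only [fdata, unionData, mkF, enV_star hsp]
    ring
  · simp only [fdata, unionData, mkF, maskAmp, mul_assoc]
    congr 1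
    rcases p with p | p
    · simp [fldV, maskE, unionV]
    · simp only [fldV, maskE, unionV, Sum.elim_inr, rotate_star]
      cases p using Fin.cases with
      | zero => simp [topMask, starY]
      | succ i =>
        simp only [topMask, starY, Fin.cons_succ, cRef]
        by_cases hL : i = sp (Fin.last d)
        · subst hL; simp [hsp]
        · by_cases hf : i = sp (c i)
          · have hc : c i ≠ Fin.last d := fun h => hL (h ▸ hf)
            simp [hL, ← hf, hc]
          · simp [hL, hf]

/-- The coordinates of the reference system inside the larger one. -/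
noncomputable def emb (sp : Fin (d + 1) → Fin N) : Fld N ⊕ Unit → Fld (N + 1) :=
  Sum.elim (Sum.elim (fun i => .inl i.succ)
    fun i => .inr (if i = sp (Fin.last d) then 0 else i.succ)) fun _ => .inl 0

theorem emb_inj : Function.Injective (emb sp : Fld N ⊕ Unit → Fld (N + 1)) := by
  rintro ((x | x) | x) ((y | y) | y) h <;> simp only [emb, Sum.elim_inl, Sum.elim_inr] at h <;>
    first
      | rfl
      | (split_ifs at h <;> simp_all [Fin.succ_ne_zero, eq_comm])
      | simp_all [Fin.succ_ne_zero, eq_comm]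

include hsp in
theorem genVal_union (k j : ℕ) (s : ℝ) (Φ : (Fin N → ℝ) → ℝ → ℝ) (V : Fin N → Fin N → ℝ) :
    genVal β a (cRef sp c) τ k j s Φ V = val (k := k) (stdG (Fld (N + 1))) (cubeLaw (N + 1))
      (gham (unionData sp c β a B Φ V) (maskAmp (auxAmp τ 0 j s) (maskR sp))) 0 fun _ _ => 0 := by
  have h := (P157.Rsb.val_map (mp_inj (emb_inj (sp := sp))) (mp_split N)
    (gham_linB (k := k) (genData β a (cRef sp c) Φ V) (genAmp τ j s)) 0 fun _ _ => 0).1
  refine Eq.trans h.symm (congrArg (fun H => val (k := k) (stdG (Fld (N + 1))) (cubeLaw (N + 1)) H 0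
    fun _ _ => 0) ?_)
  funext z x
  simp only [gham, genData, unionData, mkF]
  congr 1
  refine sum_congr rfl fun l _ => ?_
  simp only [Fintype.sum_sum_type, univ_unique, sum_singleton, emb, unionV, maskR, maskAmp, auxAmp, genAmp,
    ampV, fldV, Sum.elim_inl, Sum.elim_inr, Fin.sum_univ_succ (n := N), Fin.cons_zero, Fin.cons_succ]
  have hL : topMask (cRef sp c) (sp (Fin.last d)) = 1 := by simp [topMask, cRef_sp hsp]
  have e1 : ∀ i, (τ ((l : ℕ) + 1) * z l (.inr (if i = sp (Fin.last d) then 0 else i.succ))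
        * (topMask (cRef sp c) i * rotate V (fun i => x i.succ) i)
      - τ ((l : ℕ) + 1) ^ 2 / 2 * (topMask (cRef sp c) i * rotate V (fun i => x i.succ) i) ^ 2)
      = (if i = sp (Fin.last d) then τ ((l : ℕ) + 1) * z l (.inr 0) * rotate V (fun i => x i.succ) i
          - τ ((l : ℕ) + 1) ^ 2 / 2 * rotate V (fun i => x i.succ) i ^ 2 else 0)
        + if i = sp (Fin.last d) then 0 else τ ((l : ℕ) + 1) * z l (.inr i.succ)
            * (topMask (cRef sp c) i * rotate V (fun i => x i.succ) i)
          - τ ((l : ℕ) + 1) ^ 2 / 2 * (topMask (cRef sp c) i * rotate V (fun i => x i.succ) i) ^ 2 := fun i => by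
    split_ifs with hi
    · subst hi; rw [hL]; ring
    · ring
  simp only [e1, sum_add_distrib, sum_ite_eq', mem_univ, if_true]
  simp only [Sum.inl.injEq, Fin.succ_ne_zero, reduceCtorEq, and_false, and_true, if_false, add_zero, zero_add,
    zero_mul, zero_pow two_ne_zero, zero_div, sub_zero, sum_const_zero, mul_one]
  rw [add_comm]
  refine congrArg (fun u => _ + (_ + u)) (sum_congr rfl fun i _ => ?_)
  split_ifs <;> ring

include hsp in
/-- A smaller potential gives a smaller value. -/
theorem genVal_le_star (k j : ℕ) (s : ℝ) (V : Fin N → Fin N → ℝ) {Φ : (Fin N → ℝ) → ℝ → ℝ} {K : ℝ}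
    (hle : ∀ w s0, s0 ^ 2 = 1 →
      Φ w s0 + fldC k τ * yB sp B w s0 (Fin.last d) ^ 2 + K ≤ β / 2 * delta sp a e B w s0) :
    genVal β a (cRef sp c) τ k j s Φ V + K ≤ starVal sp c β a τ e B k j s V := by
  have : NeZero (cubeLaw (N + 1)) := ⟨IsProbabilityMeasure.ne_zero _⟩
  rw [genVal_union hsp (B := B) β a τ, starVal_eq hsp]
  refine le_trans ?_ (gval_mask_le (ι := Fld (N + 1)) (μ := cubeLaw (N + 1))
    (unionData sp c β a B (fun w s0 => β / 2 * delta sp a e B w s0) V) (auxAmp τ 0 j s) (m := maskE sp c e) ?_)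
  · refine gval_mask_add_le (ι := Fld (N + 1)) (μ := cubeLaw (N + 1)) (unionData sp c β a B Φ V)
      (unionData sp c β a B (fun w s0 => β / 2 * delta sp a e B w s0) V) rfl (auxAmp τ 0 j s)
      (m := maskR sp) ?_ fun x => ?_
    · rintro (p | p)
      · simp [maskR]
      · cases p using Fin.cases <;> simp [maskR]
        tauto
    · have h := hle (rotate V fun i => x i.succ) (spin (x 0)) (spin_mul_self' _)
      have e3 : ∑ l : Fin k, ∑ p, (1 - maskR sp p) * (auxAmp τ 0 j s ((l : ℕ) + 1) p ^ 2 / 2)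
          * (unionData sp c β a B Φ V).v x p ^ 2
          = fldC k τ * yB sp B (rotate V fun i => x i.succ) (spin (x 0)) (Fin.last d) ^ 2 := by
        rw [fldC, sum_div, sum_mul]
        refine sum_congr rfl fun l _ => ?_
        simp [unionData, mkF, unionV, maskR, auxAmp, ampV, Fintype.sum_sum_type, Fin.sum_univ_succ, ite_mul,
          sub_mul, ite_pow]
        rw [← sum_sub_distrib, sum_eq_single_of_mem (sp (Fin.last d)) (mem_univ _) fun i _ hi => by simp [hi]]
        simp
      rw [e3]
      simp only [unionData, mkF]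
      linarith
  · rintro (p | p)
    · simp [maskE]
    · cases p using Fin.cases <;> simp [maskE] <;> tauto

include hsp in
/-- A larger potential gives a larger value. -/
theorem star_le_genVal (k j : ℕ) (s : ℝ) (V : Fin N → Fin N → ℝ) {Φ : (Fin N → ℝ) → ℝ → ℝ} {K : ℝ}
    (hle : ∀ w s0, s0 ^ 2 = 1 → β / 2 * delta sp a e B w s0 + fldC k τ * (∑ r : Fin d, w (sp r.castSucc) ^ 2
      + if e = Fin.last d then 0 else w (sp (Fin.last d)) ^ 2) ≤ Φ w s0 + K) :
    starVal sp c β a τ e B k j s V ≤ genVal β a (cRef sp c) τ k j s Φ V + K := by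
  have : NeZero (cubeLaw (N + 1)) := ⟨IsProbabilityMeasure.ne_zero _⟩
  rw [genVal_union hsp (B := B) β a τ, starVal_eq hsp]
  refine le_of_add_le_add_right (a := -K) (le_trans (gval_mask_add_le (μ := cubeLaw (N + 1))
    (unionData sp c β a B (fun w s0 => β / 2 * delta sp a e B w s0) V) (unionData sp c β a B Φ V) rfl
    (auxAmp τ 0 j s) (m := maskE sp c e) ?_ (K := -K) fun x => ?_)
    ((gval_mask_le (μ := cubeLaw (N + 1)) _ (auxAmp τ 0 j s) (m := maskR sp) ?_).trans (le_of_eq (by ring))))
  · rintro (p | p)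
    · simp [maskE]
    · cases p using Fin.cases <;> simp [maskE] <;> tauto
  · have h := hle (rotate V fun i => x i.succ) (spin (x 0)) (spin_mul_self' _)
    set w := rotate V fun i => x i.succ with hw
    have e3 : ∑ l : Fin k, ∑ p, (1 - maskE sp c e p) * (auxAmp τ 0 j s ((l : ℕ) + 1) p ^ 2 / 2)
        * (unionData sp c β a B (fun w s0 => β / 2 * delta sp a e B w s0) V).v x p ^ 2
        = fldC k τ * (∑ r : Fin d, w (sp r.castSucc) ^ 2
          + if e = Fin.last d then 0 else w (sp (Fin.last d)) ^ 2) := by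
      have hi : ∀ i, (1 - if i = sp (c i) ∧ c i ≠ Fin.last d then (0 : ℝ) else 1)
          * (if i = sp (Fin.last d) then yB sp B w (spin (x 0)) (Fin.last d)
              else topMask (cRef sp c) i * w i) ^ 2
          = if i = sp (c i) then (if c i = Fin.last d then 0 else w i ^ 2) else 0 := fun i => by
        by_cases hf : i = sp (c i)
        · by_cases hc : c i = Fin.last d
          · simp [hc]
          · have hL : i ≠ sp (Fin.last d) := fun h => hc (by rw [h, hsp])
            simp [← hf, hc, hL, topMask, cRef]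
        · simp [hf]
      have hs : ∑ i, (if i = sp (c i) then (if c i = Fin.last d then 0 else w i ^ 2) else 0)
          = ∑ r : Fin d, w (sp r.castSucc) ^ 2 := by
        rw [sum_sp hsp, sum_const_zero, zero_add, Fin.sum_univ_castSucc]
        simp [hsp, (Fin.castSucc_lt_last _).ne]
      rw [fldC, sum_div, sum_mul]
      refine sum_congr rfl fun l _ => ?_
      simp only [unionData, mkF, unionV, maskE, auxAmp, ampV, Fintype.sum_sum_type, Fin.sum_univ_succ (n := N),
        Sum.elim_inl, Sum.elim_inr, Fin.cons_zero, Fin.cons_succ, sub_self, zero_mul, sum_const_zero,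
        reduceCtorEq, and_false, if_false, add_zero, zero_add, ← hw]
      rw [mul_add, ← hs, mul_sum, add_comm]
      congr 1
      · exact sum_congr rfl fun i _ => by rw [← hi i]; ring
      · split_ifs <;> ring
    rw [e3]
    simp only [unionData, mkF]
    linarith
  · rintro (p | p)
    · simp [maskR]
    · cases p using Fin.cases <;> simp [maskR]
      tauto

end Star

end Vale.Agent.P166.Rsb.CavH
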