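import Vale.Agent.P166.Rsb.CavPins
import Vale.Agent.P166.Rsb.Cav.HaarStar

/-!
# P166: one more direction and the base system

A rotation that keeps the blocks brings the first column to the special coordinates; what is left is
a rotation of one dimension less and the mixing of the star.
-/

open MeasureTheory ProbabilityTheory Real Finset Matrix
open Vale.Agent.P157 (cubeLaw coin)
open Vale.Agent.P157.Rsb (stdG val cnd)

namespace Vale.Agent.P166.Rsb.CavH

variable {d N k : ℕ} {c cR : Fin N → Fin (d + 1)} {sp : Fin (d + 1) → Fin N}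
  {m : Measure (Fin N → Fin N → ℝ)} {m' : Measure (Fin (N + 1) → Fin (N + 1) → ℝ)}

theorem exists_sp (c : Fin N → Fin (d + 1)) (hb : ∀ e, 2 ≤ blockCard c e) :
    ∃ sp : Fin (d + 1) → Fin N, ∀ f, c (sp f) = f := by
  have h : ∀ e, ∃ i, c i = e := fun e => by
    obtain ⟨i, hi⟩ := card_pos.1 (lt_of_lt_of_le two_pos (hb e))
    exact ⟨i, (mem_filter.1 hi).2⟩
  choose sp h using h
  exact ⟨sp, h⟩

theorem blockCard_cRef (hsp : ∀ f, c (sp f) = f) :
    blockCard (cRef sp c) (Fin.last d) = blockCard c (Fin.last d) + d ∧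
      ∀ e, e ≠ Fin.last d → blockCard (cRef sp c) e + 1 = blockCard c e := by
  classical
  have h1 : ∀ e, e ≠ Fin.last d → blockCard (cRef sp c) e + 1 = blockCard c e := fun e he => by
    have e1 : (univ.filter fun i => cRef sp c i = e) = (univ.filter fun i => c i = e).erase (sp e) := by
      ext i
      simp only [mem_filter, mem_univ, true_and, mem_erase]
      unfold cRef
      constructor
      · intro h
        split_ifs at h with hi
        · exact absurd h.symm he
        · exact ⟨fun hi' => hi (by rw [h]; exact hi'), h⟩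
      · rintro ⟨hi, hc⟩
        rw [if_neg (by rw [hc]; exact hi), hc]
    unfold blockCard
    rw [e1]
    exact card_erase_add_one (by simp [hsp])
  refine ⟨?_, h1⟩
  have t : ∀ f : Fin N → Fin (d + 1), blockCard f (Fin.last d) + ∑ r : Fin d, blockCard f r.castSucc = N :=
    fun f => by
      have := card_eq_sum_card_fiberwise (f := f) (s := univ) (t := univ) fun i _ => mem_univ (f i)
      rw [Fin.sum_univ_castSucc, card_univ, Fintype.card_fin] at this
      rw [add_comm]
      exact this.symm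
  have h2 : ∑ r : Fin d, blockCard c r.castSucc = ∑ r : Fin d, blockCard (cRef sp c) r.castSucc + d := by
    simp only [← h1 _ (Fin.castSucc_lt_last _).ne, sum_add_distrib, sum_const, card_univ, Fintype.card_fin,
      smul_eq_mul, mul_one]
  have := t c
  have := t (cRef sp c)
  omega

section Root

variable (β : ℝ) (a : Fin (d + 1) → ℝ) (τ : ℕ → ℝ)

theorem tame_fin (φ : (Fin N → Bool) → ℝ) :
    P157.Rsb.Tame (P157.Rsb.gaussSize (Fld N)) fun (_ : Fin k → Fld N → ℝ) s => φ s :=
  Energy.tame_leaf φ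

theorem gibR_mono (U : Fin N → Fin N → ℝ) {φ ψ : (Fin N → Bool) → ℝ} (h : ∀ s, φ s ≤ ψ s) :
    gibR β a cR U k (fun _ => 0) τ φ ≤ gibR β a cR U k (fun _ => 0) τ ψ :=
  P157.Rsb.cnd_mono (hamU_linB β a cR U _ τ) (tame_fin φ) (tame_fin ψ) (fun _ s => h s) 0 _

theorem gibR_sum {ι : Type} [Fintype ι] (C : ℝ) (U : Fin N → Fin N → ℝ) (φ : ι → (Fin N → Bool) → ℝ) :
    gibR β a cR U k (fun _ => 0) τ (fun s => C * ∑ i, φ i s)
      = C * ∑ i, gibR β a cR U k (fun _ => 0) τ (φ i) := by
  unfold gibR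
  rw [P157.Rsb.cnd_const_mul, P157.Rsb.cnd_finsum (hamU_linB β a cR U _ τ) univ fun i _ => tame_fin (φ i)]

theorem reg_rootU : Reg fun U => rootU k β a c (fun _ => 0) τ U := by
  simp only [rootU_eq]
  refine reg_gval (μ := cubeLaw N) (fun U => fdata β a c U) _ (fun x i => ?_) fun x => ?_
  · rcases i with i | i <;> simp only [fdata, fldV, Sum.elim_inl, Sum.elim_inr, rotate] <;> fun_prop
  · simp only [fdata, enV, rotate]; fun_prop

theorem mul_freeU (hN : 0 < N) :
    (N : ℝ) * freeU m k β a c (fun _ => 0) τ = ∫ U, rootU k β a c (fun _ => 0) τ U ∂m := by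
  rw [freeU, mul_div_cancel₀]
  exact_mod_cast hN.ne'

/-- The mean of the squared special coordinates in the reference system. -/
theorem int_sq_sp (hm : IsHaarOrth m) (hR : ∀ r, cR (sp r) = Fin.last d) :
    Integrable (fun U => ∑ f, gibR β a cR U k (fun _ => 0) τ fun s => rotate U s (sp f) ^ 2) m ∧
      ∫ U, (∑ f, gibR β a cR U k (fun _ => 0) τ fun s => rotate U s (sp f) ^ 2) ∂m
        ≤ ((d : ℝ) + 1) * (N / nTop cR) := by
  have hi := fun f => (int_gibR_sq_le (k := k) β a (fun _ => 0) τ hm (hR f)).1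
  refine ⟨integrable_finsetSum _ fun f _ => hi f, ?_⟩
  rw [integral_finsetSum _ fun f _ => hi f]
  refine (sum_le_sum fun f _ => (int_gibR_sq_le (k := k) β a (fun _ => 0) τ hm (hR f)).2).trans_eq ?_
  simp

/-- The mean exponential of the squared special coordinates. -/
theorem int_exp_sp (hm : IsHaarOrth m) (hR : ∀ r, cR (sp r) = Fin.last d) {t : ℝ} (ht : 0 ≤ t)
    (hN : 8 * (d + 1) * t * N ≤ nTop cR) :
    Integrable (fun U => gibR β a cR U k (fun _ => 0) τ fun s => exp (t * ∑ f, rotate U s (sp f) ^ 2)) m ∧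
      ∫ U, gibR β a cR U k (fun _ => 0) τ (fun s => exp (t * ∑ f, rotate U s (sp f) ^ 2)) ∂m ≤ 2 := by
  have := hm.1
  have hb : ∀ U, IsOrth U → ∀ s i, rotate U s i ^ 2 ≤ (N : ℝ) := fun U hU s i => by
    rw [← sum_sq_rotate hU s]
    exact single_le_sum (f := fun i => rotate U s i ^ 2) (fun i _ => sq_nonneg _) (mem_univ i)
  have hi : ∀ (u : ℝ), 0 ≤ u → ∀ f, Integrable (fun U => gibR β a cR U k (fun _ => 0) τ
      fun s => exp (u * rotate U s (sp f) ^ 2)) m := fun u hu f =>
    Integrable.of_bound (gibR_meas β a cR _ τ (fun s => by unfold rotate; fun_prop)).aestronglyMeasurable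
      (exp (u * N)) (hm.2.1.mono fun U hU => by
        rw [norm_eq_abs]
        refine abs_gibR_le β a cR U _ τ fun s => ?_
        rw [abs_of_pos (exp_pos _)]
        exact exp_le_exp.2 (mul_le_mul_of_nonneg_left (hb U hU s _) hu))
  have hI : Integrable (fun U => gibR β a cR U k (fun _ => 0) τ
      fun s => exp (t * ∑ f, rotate U s (sp f) ^ 2)) m :=
    Integrable.of_bound (gibR_meas β a cR _ τ (fun s => by unfold rotate; fun_prop)).aestronglyMeasurable
      (exp (t * ((d + 1) * N))) (hm.2.1.mono fun U hU => by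
        rw [norm_eq_abs]
        refine abs_gibR_le β a cR U _ τ fun s => ?_
        rw [abs_of_pos (exp_pos _)]
        refine exp_le_exp.2 (mul_le_mul_of_nonneg_left ((sum_le_sum fun f _ => hb U hU s _).trans_eq ?_) ht)
        simp)
  refine ⟨hI, ?_⟩
  set n : ℝ := (d : ℝ) + 1
  have hn : 0 < n := by positivity
  have hpt : ∀ U, gibR β a cR U k (fun _ => 0) τ (fun s => exp (t * ∑ f, rotate U s (sp f) ^ 2))
      ≤ n⁻¹ * ∑ f, gibR β a cR U k (fun _ => 0) τ fun s => exp (n * t * rotate U s (sp f) ^ 2) := fun U => by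
    refine le_of_le_of_eq ?_ (gibR_sum β a τ n⁻¹ U fun f s => exp (n * t * rotate U s (sp f) ^ 2))
    refine gibR_mono β a τ U fun s => ?_
    have h := convexOn_exp.map_sum_le (t := univ) (w := fun _ : Fin (d + 1) => n⁻¹)
      (p := fun f => n * t * rotate U s (sp f) ^ 2) (fun _ _ => inv_nonneg.2 hn.le)
      (by simp [n]; field_simp) (fun _ _ => Set.mem_univ _)
    simp only [smul_eq_mul] at h
    rw [← mul_sum, ← mul_sum, ← mul_sum] at h
    refine le_of_eq_of_le ?_ h
    congr 1
    field_simp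
  refine (integral_mono hI ((integrable_finsetSum _ fun f _ => hi (n * t) (by positivity) f).const_mul _)
    hpt).trans ?_
  rw [integral_const_mul, integral_finsetSum _ fun f _ => hi (n * t) (by positivity) f]
  refine (mul_le_mul_of_nonneg_left (sum_le_sum fun f _ =>
    int_gibR_exp_le (k := k) β a (fun _ => 0) τ hm (hR f) (by positivity) (by linarith [hN]))
    (inv_nonneg.2 hn.le)).trans_eq ?_
  simp only [sum_const, card_univ, Fintype.card_fin, nsmul_eq_mul, Nat.cast_add, Nat.cast_one, n]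
  field_simp

end Root

section Outer

theorem Reg.comp_left {f : (Fin N → Fin N → ℝ) → ℝ} (hf : Reg f) {Q : Fin N → Fin N → ℝ} (hQ : IsOrth Q) :
    Reg fun V => f (mul Q V) := by
  obtain ⟨h, C, hC⟩ := hf
  exact ⟨h.comp (P166.continuous_mul Q).measurable, C, fun V hV => hC _ (hQ.mul hV)⟩

theorem Reg.comp_star {f : (Fin (N + 1) → Fin (N + 1) → ℝ) → ℝ} (hf : Reg f)
    {M : Fin (N + 1) → Fin (N + 1) → ℝ} (hM : IsOrth M) : Reg fun V => f (mul M (ext V)) := by
  obtain ⟨h, C, hC⟩ := hf
  exact ⟨h.comp ((P166.continuous_mul M).comp continuous_ext).measurable, C,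
    fun V hV => hC _ (hM.mul (isOrth_ext hV))⟩

/-- A mean over rotations is a mean over a rotation and one of one dimension less. -/
theorem split_ext (hm : IsHaarOrth m) (hm' : IsHaarOrth m') {f : (Fin (N + 1) → Fin (N + 1) → ℝ) → ℝ}
    (hf : Reg f) : Integrable (fun U => ∫ V, f (mul U (ext V)) ∂m) m' ∧
      ∫ U, f U ∂m' = ∫ U, ∫ V, f (mul U (ext V)) ∂m ∂m' := by
  have := hm.1
  have := hm'.1
  obtain ⟨hfm, C, hC⟩ := hf
  set g := fun U => max (-|C|) (min |C| (f U))
  have hg : Measurable g := measurable_const.max (measurable_const.min hfm)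
  have hgC : ∀ U, |g U| ≤ |C| := fun U =>
    abs_le.2 ⟨le_max_left _ _, max_le (by linarith [abs_nonneg C]) (min_le_left _ _)⟩
  have hgf : ∀ U, IsOrth U → g U = f U := fun U hU => by
    have h := abs_le.1 ((hC U hU).trans (le_abs_self C))
    simp only [g, min_eq_right h.2, max_eq_right h.1]
  have hI : Integrable (Function.uncurry fun U V => g (mul U (ext V))) (m'.prod m) :=
    integrable_of_abs_le (hg.comp (measurable_mul₂.comp
      (measurable_fst.prodMk (continuous_ext.measurable.comp measurable_snd)))) fun p => hgC _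
  have e : ∀ᵐ U ∂m', ∫ V, g (mul U (ext V)) ∂m = ∫ V, f (mul U (ext V)) ∂m :=
    hm'.2.1.mono fun U hU => integral_congr_ae (hm.2.1.mono fun V hV => hgf _ (hU.mul (isOrth_ext hV)))
  refine ⟨hI.integral_prod_left.congr e, ?_⟩
  rw [← integral_congr_ae e, integral_integral_swap hI, ← integral_congr_ae (hm'.2.1.mono hgf)]
  rw [integral_congr_ae (hm.2.1.mono fun V hV => (isInv_zero hm').integral_right
    (inK_zero.2 (isOrth_ext hV)) hg hgC)]
  simp

variable (β : ℝ) (a : Fin (d + 1) → ℝ) (τ : ℕ → ℝ) (e : Fin (d + 1)) (j : ℕ) (s : ℝ)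

/-- The value of the larger system at a fixed rotation. -/
noncomputable def auxV (k : ℕ) (c : Fin N → Fin (d + 1)) (U : Fin (N + 1) → Fin (N + 1) → ℝ) : ℝ :=
  val (k := k) (stdG (Fld (N + 1))) (cubeLaw (N + 1))
    (gham (fdata β a (Fin.cons e c) U) (auxAmp τ 0 j s)) 0 fun _ _ => 0

theorem reg_auxV : Reg (auxV β a τ e j s k c) := by
  refine reg_gval (μ := cubeLaw (N + 1)) (fun U => fdata β a (Fin.cons e c) U) _ (fun x i => ?_) fun x => ?_
  · rcases i with i | i <;> simp only [fdata, fldV, Sum.elim_inl, Sum.elim_inr, rotate] <;> fun_prop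
  · simp only [fdata, enV, rotate]; fun_prop

theorem colW_nonneg (c : Fin (N + 1) → Fin (d + 1)) (U : Fin (N + 1) → Fin (N + 1) → ℝ) (f : Fin (d + 1)) :
    0 ≤ colW c U f := sum_nonneg fun _ _ => sq_nonneg _

theorem sum_colW (c : Fin (N + 1) → Fin (d + 1)) {U : Fin (N + 1) → Fin (N + 1) → ℝ} (hU : IsOrth U) :
    ∑ f, colW c U f = 1 := by
  simp only [colW]
  rw [sum_fiberwise]
  simpa [sq] using hU.2 0 0

/-- After the column is moved, the mean over the smaller rotation is that of the star. -/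
theorem inner_eq (hsp : ∀ f, c (sp f) = f) (hm : IsHaarOrth m) {B : Fin (d + 1) → Fin (d + 1) → ℝ}
    (hB : IsOrth B) {U : Fin (N + 1) → Fin (N + 1) → ℝ} (hU : IsOrth U)
    (hB0 : ∀ f, B f 0 = √(colW (Fin.cons e c) U f)) :
    ∫ V, auxV β a τ e j s k c (mul U (ext V)) ∂m
      = ∫ V, starVal sp c β a τ e B k j s V ∂m := by
  classical
  set c' : Fin (N + 1) → Fin (d + 1) := Fin.cons e c
  set ω := colW c' U
  set rep : Fin (d + 1) → Fin (N + 1) := fun f => (sp f).succ
  have hrep : ∀ f, c' (rep f) = f := fun f => by simp [c', rep, hsp]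
  set ξ : Fin (d + 1) → Fin (N + 1) → ℝ := fun f p =>
    if ω f = 0 then bas (rep f) p else if c' p = f then U p 0 / √(ω f) else 0
  have hsupp : ∀ f p, c' p ≠ f → ξ f p = 0 := fun f p hp => by
    have : p ≠ rep f := fun h => hp (h ▸ hrep f)
    simp [ξ, hp, bas, this]
  have hu0 : ∀ p, ω (c' p) = 0 → U p 0 = 0 := fun p hp => by
    simpa using (sum_eq_zero_iff_of_nonneg fun i _ => sq_nonneg (U i 0)).1 hp p
      (mem_filter.2 ⟨mem_univ _, rfl⟩)
  have hξ : ∀ f, ξ f ⬝ᵥ ξ f = 1 := fun f => by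
    by_cases h : ω f = 0
    · simp [ξ, h, dotProduct, bas, Pi.single_apply]
    · simp only [ξ, if_neg h, dotProduct, ite_mul, zero_mul, mul_ite, mul_zero]
      rw [← sum_filter]
      rw [sum_congr rfl (fun p hp => show _ = U p 0 ^ 2 / ω f by
        rw [if_pos (mem_filter.1 hp).2, div_mul_div_comm, mul_self_sqrt (colW_nonneg c' U f), sq]), ← sum_div]
      exact div_self h
  have hdv : ∀ f p, c' p ≠ f → dv (rep f) (ξ f) p = 0 := fun f p hp => by
    have : p ≠ rep f := fun h => hp (h ▸ hrep f)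
    simp [dv, hsupp f p hp, bas, this]
  set P : Fin (N + 1) → Fin (N + 1) → ℝ := fun p q => hh (rep (c' p)) (ξ (c' p)) p q
  have hP0 : ∀ p q, c' p ≠ c' q → P p q = 0 := fun p q h => by
    have h' : p ≠ q := fun h'' => h (by rw [h''])
    simp [P, hh, h', hdv _ q (Ne.symm h)]
  have hP : BlockOrth c' P := by
    refine ⟨?_, hP0⟩
    rw [isOrth_iff]
    ext p p'
    simp only [Matrix.mul_apply, Matrix.transpose_apply, Matrix.of_apply, Matrix.one_apply]
    by_cases h : c' p = c' p'
    · simp only [P, ← h]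
      exact (isOrth_hh (hξ (c' p))).1 p p'
    · rw [if_neg (fun h' => h (by rw [h']))]
      refine sum_eq_zero fun q _ => ?_
      by_cases hq : c' p = c' q
      · rw [hP0 p' q (fun h' => h (hq.trans h'.symm)), mul_zero]
      · rw [hP0 p q hq, zero_mul]
  have hPu : ∀ p, app P (app U (bas 0)) p = √(ω (c' p)) * bas (rep (c' p)) p := fun p => by
    rw [← app_hh_self (j := rep (c' p)) (hξ (c' p))]
    simp only [app, mulVec, dotProduct, Matrix.of_apply]
    rw [mul_sum]
    refine sum_congr rfl fun q _ => ?_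
    have hu : (∑ x, U q x * bas 0 x) = U q 0 := by simp [bas, Pi.single_apply]
    rw [hu]
    by_cases hq : c' p = c' q
    · simp only [P, ξ, hq]
      by_cases h : ω (c' q) = 0
      · simp [h, hu0 q h]
      · simp only [if_neg h, if_true]
        have : √(ω (c' q)) ≠ 0 := (sqrt_pos.2 ((colW_nonneg c' U _).lt_of_ne' h)).ne'
        field_simp
    · rw [show P p q = 0 from hP0 p q hq]
      rw [hsupp _ q (Ne.symm hq)]
      ring
  have hPU : app (mul P U) (bas 0) = app (starM sp c B) (bas 0) := by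
    funext p
    rw [app_mul, hPu, app_starM]
    cases p using Fin.cases with
    | zero => simp [starY, bas, rep, Fin.succ_ne_zero, fun i : Fin N => (Fin.succ_ne_zero i).symm, c']
    | succ i =>
      simp only [starY, Fin.cons_succ, c', rep]
      by_cases hi : i = sp (c i)
      · rw [if_pos hi, ← hi]
        simp [yB, app, mulVec, dotProduct, Fin.sum_univ_succ, bas, Fin.succ_ne_zero, hB0]
      · simp [hi, bas, Fin.succ_ne_zero]
  have hM := isOrth_starM hsp hB
  set W := mul (tr (starM sp c B)) (mul P U) with hW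
  have hWo : IsOrth W := (isOrth_tr hM).mul (hP.1.mul hU)
  have hW0 : app W (bas 0) = bas 0 := by rw [hW, app_mul, hPU, app_tr_app hM]
  have hW1 : app (tr W) (bas 0) = bas 0 := by
    conv_lhs => rw [← hW0]
    exact app_tr_app hWo _
  set Q : Fin N → Fin N → ℝ := fun i l => W i.succ l.succ
  have hWQ : W = ext Q := by
    funext p q
    cases q using Fin.cases with
    | zero =>
      rw [← app_bas W 0 p, hW0]
      cases p using Fin.cases <;> simp [ext, bas, Fin.succ_ne_zero]
    | succ l =>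
      cases p using Fin.cases with
      | zero =>
        rw [show W 0 l.succ = tr W l.succ 0 from rfl, ← app_bas (tr W) 0 l.succ, hW1]
        simp [ext]
      | succ i => simp [ext, Q]
  have hQ : IsOrth Q := by
    rw [hWQ] at hWo
    exact ⟨fun i l => by simpa [ext, Fin.sum_univ_succ] using hWo.1 i.succ l.succ,
      fun i l => by simpa [ext, Fin.sum_univ_succ, bas, Fin.succ_ne_zero] using hWo.2 i.succ l.succ⟩
  have hfac : mul P U = mul (starM sp c B) (ext Q) := by rw [← hWQ, hW, mul_tr_self hM]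
  have e1 : ∀ V, auxV β a τ e j s k c (mul U (ext V)) = starVal sp c β a τ e B k j s (mul Q V) := fun V => by
    refine (gval_rot hP β a _ _ (t := τ) fun l i => ?_).symm.trans ?_
    · simp [auxAmp, ampV]
    · rw [starVal, ← mul_ext, ← mul_assoc_arr, ← mul_assoc_arr, hfac]
  simp only [e1]
  exact (isInv_zero hm).integral_left (inK_zero.2 hQ) ((reg_auxV β a τ e j s).comp_star hM).1

end Outer

section Bounds

variable (β : ℝ) (a : Fin (d + 1) → ℝ) (τ : ℕ → ℝ)

theorem le_sum_abs (f : Fin (d + 1)) : |a f| ≤ ∑ e, |a e| :=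
  single_le_sum (fun e _ => abs_nonneg (a e)) (mem_univ f)

theorem fldC_nonneg (k : ℕ) : 0 ≤ fldC k τ := by unfold fldC; positivity

/-- Both inequalities of the crude estimate of the star. -/
theorem inner_crude (hsp : ∀ f, c (sp f) = f) (hm : IsHaarOrth m) (hβ : 0 ≤ β) (hmono : StrictMono a)
    (e : Fin (d + 1)) (j : ℕ) {s : ℝ} (hs : 0 ≤ s) {U : Fin (N + 1) → Fin (N + 1) → ℝ} (hU : IsOrth U) :
    (∫ V, rootU k β a (cRef sp c) (fun _ => 0) τ V ∂m)
        - (β * (∑ f, |a f|) + 2 * fldC k τ) * (1 + (d + 1) * (N / nTop (cRef sp c))) - s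
      ≤ ∫ V, auxV β a τ e j s k c (mul U (ext V)) ∂m ∧
    (8 * (d + 1) * fldC k τ * N ≤ nTop (cRef sp c) → ∫ V, auxV β a τ e j s k c (mul U (ext V)) ∂m
      ≤ (∫ V, rootU k β a (cRef sp c) (fun _ => 0) τ V ∂m) + β * (∑ f, |a f|) + 1 + s) := by
  have := hm.1
  set A := ∑ f, |a f|
  have hA : 0 ≤ A := sum_nonneg fun _ _ => abs_nonneg _
  set cp := fldC k τ
  have hcp : 0 ≤ cp := fldC_nonneg τ k
  set u : Fin (d + 1) → ℝ := fun f => √(colW (Fin.cons e c) U f)
  have hu : u ⬝ᵥ u = 1 := by
    simp only [u, dotProduct, mul_self_sqrt (colW_nonneg _ U _)]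
    exact sum_colW _ hU
  have hB : IsOrth (hh 0 u) := isOrth_hh hu
  have hB0 : ∀ f, hh 0 u f 0 = √(colW (Fin.cons e c) U f) := fun f => by
    rw [← app_bas (hh 0 u) 0 f, app_hh_bas hu]
  rw [inner_eq (sp := sp) β a τ e j s hsp hm hB hU hB0]
  have hR := cRef_sp (sp := sp) hsp
  have hreg : Integrable (starVal sp c β a τ e (hh 0 u) k j s) m :=
    ((reg_auxV β a τ e j s).comp_star (isOrth_starM hsp hB)).integrable hm
  have hroot := (reg_rootU (k := k) (c := cRef sp c) β a τ).integrable hm
  set S := fun w : Fin N → ℝ => ∑ f, w (sp f) ^ 2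
  have hS : ∀ w, S w = ∑ r : Fin d, w (sp r.castSucc) ^ 2 + w (sp (Fin.last d)) ^ 2 := fun w =>
    Fin.sum_univ_castSucc _
  constructor
  · obtain ⟨hi, hle⟩ := int_sq_sp (k := k) β a τ hm hR
    have hp : ∀ V, rootU k β a (cRef sp c) (fun _ => 0) τ V + -(β * A + cp) * (∑ f,
        gibR β a (cRef sp c) V k (fun _ => 0) τ fun x => rotate V x (sp f) ^ 2)
          + (-(β * A / 2) - cp - s / 2) ≤ starVal sp c β a τ e (hh 0 u) k j s V := fun V => by
      refine le_trans ?_ (genVal_le_star hsp β a τ e k j s V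
        (Φ := fun w _ => -(β * A + cp) * S w) (K := -(β * A / 2) - cp) fun w s0 h0 => ?_)
      · have h1 := baseVal_ge (k := k) β a (cRef sp c) τ (fun w => -(β * A + cp) * S w) V
        have h2 := zero_le_genVal (k := k) β a (cRef sp c) τ (j := j) hs (fun w _ => -(β * A + cp) * S w) V
        rw [genVal_zero (k := k) β a (cRef sp c) τ j (fun w => -(β * A + cp) * S w) V] at h2
        rw [← gibR_sum β a τ (-(β * A + cp)) V fun f x => rotate V x (sp f) ^ 2]
        linarith
      · have hy := sum_yB_sq (sp := sp) hB w s0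
        simp only [h0] at hy
        simp only [delta]
        generalize yB sp (hh 0 u) w s0 = y at hy ⊢
        have hy1 : y (Fin.last d) ^ 2 ≤ ∑ f, y f ^ 2 :=
          single_le_sum (f := fun f => y f ^ 2) (fun f _ => sq_nonneg _) (mem_univ _)
        have hy2 : -A * ∑ f, y f ^ 2 ≤ ∑ f, a f * y f ^ 2 := by
          rw [mul_sum]
          exact sum_le_sum fun f _ => mul_le_mul_of_nonneg_right
            ((neg_le_neg (le_sum_abs a f)).trans (neg_abs_le _)) (sq_nonneg _)
        have hη : -A * w (sp (Fin.last d)) ^ 2 ≤ a e * w (sp (Fin.last d)) ^ 2 :=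
          mul_le_mul_of_nonneg_right ((neg_le_neg (le_sum_abs a e)).trans (neg_abs_le _)) (sq_nonneg _)
        have hL : a (Fin.last d) * S w ≤ A * S w :=
          mul_le_mul_of_nonneg_right ((le_abs_self _).trans (le_sum_abs a _))
            (sum_nonneg fun _ _ => sq_nonneg _)
        have h' := hS w
        change -(β * A + cp) * S w + cp * y (Fin.last d) ^ 2 + (-(β * A / 2) - cp) ≤ β / 2 * (_ - _ * S w)
        rw [hy] at hy1 hy2
        rw [h'] at hL ⊢
        nlinarith [mul_le_mul_of_nonneg_left hy1 hcp, mul_le_mul_of_nonneg_left hy2 hβ,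
          mul_le_mul_of_nonneg_left hη hβ, mul_le_mul_of_nonneg_left hL hβ,
          mul_nonneg hcp (sq_nonneg (w (sp (Fin.last d))))]
    refine le_trans ?_ (integral_mono ((hroot.fun_add (hi.const_mul _)).fun_add (integrable_const _)) hreg hp)
    rw [integral_add (hroot.fun_add (hi.const_mul _)) (integrable_const _),
      integral_add hroot (hi.const_mul _), integral_const_mul, integral_const, probReal_univ, one_smul]
    have hn := nTop_pos (hR 0)
    have hr : 0 ≤ ((d : ℝ) + 1) * (N / nTop (cRef sp c)) := by positivity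
    nlinarith [mul_le_mul_of_nonneg_left hle (by positivity : 0 ≤ β * A + cp), mul_nonneg hcp hr,
      mul_nonneg hβ hA]
  · intro hN
    obtain ⟨hi, hle⟩ := int_exp_sp (k := k) β a τ hm hR hcp hN
    have hp : ∀ V, starVal sp c β a τ e (hh 0 u) k j s V ≤ rootU k β a (cRef sp c) (fun _ => 0) τ V
        + gibR β a (cRef sp c) V k (fun _ => 0) τ (fun x => exp (cp * ∑ f, rotate V x (sp f) ^ 2))
          + (β * A / 2 - 1) := fun V => by
      refine (star_le_genVal hsp β a τ e k j s V (Φ := fun w _ => cp * S w) (K := β * A / 2)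
        fun w s0 h0 => ?_).trans ((add_le_add ?_ le_rfl : _ ≤ rootU k β a (cRef sp c) (fun _ => 0) τ V
          + (gibR β a (cRef sp c) V k (fun _ => 0) τ (fun x => exp (cp * ∑ f, rotate V x (sp f) ^ 2)) - 1)
          + β * A / 2).trans (le_of_eq (by ring)))
      · have hy := sum_yB_sq (sp := sp) hB w s0
        simp only [h0] at hy
        simp only [delta]
        generalize yB sp (hh 0 u) w s0 = y at hy ⊢
        have hy2 : ∑ f, a f * y f ^ 2 ≤ a (Fin.last d) * ∑ f, y f ^ 2 := by
          rw [mul_sum]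
          exact sum_le_sum fun f _ =>
            mul_le_mul_of_nonneg_right (hmono.monotone (Fin.le_last f)) (sq_nonneg _)
        have h' := hS w
        have he : a e * w (sp (Fin.last d)) ^ 2 ≤ a (Fin.last d) * w (sp (Fin.last d)) ^ 2 :=
          mul_le_mul_of_nonneg_right (hmono.monotone (Fin.le_last e)) (sq_nonneg _)
        have hL : a (Fin.last d) ≤ A := (le_abs_self _).trans (le_sum_abs a _)
        change β / 2 * (_ - _ * S w) + cp * _ ≤ cp * S w + β * A / 2
        rw [hy] at hy2
        rw [h']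
        split_ifs <;> nlinarith [mul_le_mul_of_nonneg_left hy2 hβ, mul_le_mul_of_nonneg_left he hβ,
          mul_le_mul_of_nonneg_left hL hβ, mul_nonneg hcp (sq_nonneg (w (sp (Fin.last d))))]
      · refine ((genVal_le_zero (k := k) β a (cRef sp c) τ j s (fun w _ => cp * S w) V).trans_eq
          (genVal_zero (k := k) β a (cRef sp c) τ j (fun w => cp * S w) V)).trans
          ((baseVal_le (k := k) β a (cRef sp c) τ (fun w => cp * S w) V).trans ?_)
        refine add_le_add le_rfl (log_le_sub_one_of_pos (lt_of_lt_of_le one_pos ?_))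
        refine le_of_eq_of_le (P157.Rsb.cnd_const (μ := cubeLaw N)
          (hamU_linB β a (cRef sp c) V (fun _ => 0) τ (k := k)) 1 0 fun _ _ => 0).symm
          (gibR_mono β a τ V fun x => one_le_exp (mul_nonneg hcp (sum_nonneg fun _ _ => sq_nonneg _)))
    refine (integral_mono hreg ((hroot.fun_add hi).fun_add (integrable_const _)) hp).trans ?_
    rw [integral_add (hroot.fun_add hi) (integrable_const _), integral_add hroot hi,
      integral_const, probReal_univ, one_smul]
    nlinarith [mul_nonneg hβ hA]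

variable (S : Secular d) (e : Fin (d + 1))

/-- The basis as an array. -/
noncomputable def basisA : Fin (d + 1) → Fin (d + 1) → ℝ := fun f q => S.basis f q

theorem isOrth_basis : IsOrth (basisA S) :=
  (isOrth_iff _).2 (mul_eq_one_comm.1 S.basis_orth)

theorem tilt_shift (u u' : ℝ) (w : Fin N → ℝ) (s0 : ℝ) :
    tiltP sp (S.gainT β u u' e) (S.gainB β) w s0 = tiltP sp (S.gainT β 0 0 e) (S.gainB β) w s0
      - (u / 2 * ∑ r : Fin d, w (sp r.castSucc) ^ 2
        + u' / 2 * if e = Fin.last d then 0 else w (sp (Fin.last d)) ^ 2) := by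
  simp only [tiltP, Secular.gainT, Secular.gainB, Fin.sum_univ_castSucc (n := d), Fin.snoc_castSucc,
    Fin.snoc_last]
  have e1 : ∑ r : Fin d, (S.tB β r * s0 * w (sp r.castSucc) - (S.tT β r + u) / 2 * w (sp r.castSucc) ^ 2)
      = ∑ r : Fin d, (S.tB β r * s0 * w (sp r.castSucc) - (S.tT β r + 0) / 2 * w (sp r.castSucc) ^ 2)
        - u / 2 * ∑ r : Fin d, w (sp r.castSucc) ^ 2 := by
    rw [mul_sum, ← sum_sub_distrib]
    exact sum_congr rfl fun r _ => by ring
  rw [e1]
  split_ifs <;> ring

theorem delta_secular (w : Fin N → ℝ) {s0 : ℝ} (h0 : s0 ^ 2 = 1) :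
    β / 2 * delta sp S.a e (basisA S) w s0
      = β * S.mean / 2 + tiltP sp (S.gainT β 0 0 e) (S.gainB β) w s0 := by
  have hy : ∀ f, yB sp (basisA S) w s0 f
      = s0 * √(S.ω f) + ∑ r, S.vec r f * w (sp r.castSucc) := fun f => by
    simp [yB, app, mulVec, dotProduct, Fin.sum_univ_succ, basisA, Secular.basis, mul_comm]
  simp only [delta, hy, S.quad, h0, tiltP, Secular.gainT, Secular.gainB, Secular.tT, Secular.tB,
    Fin.sum_univ_castSucc (n := d), Fin.snoc_castSucc, Fin.snoc_last, sum_sub_distrib, add_zero]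
  have e1 : ∑ r : Fin d, β * S.cpl r * s0 * w (sp r.castSucc)
      = β * s0 * ∑ r, S.cpl r * w (sp r.castSucc) := by
    rw [mul_sum]; exact sum_congr rfl fun r _ => by ring
  have e2 : ∑ r : Fin d, β * (S.a (Fin.last d) - S.ν r) / 2 * w (sp r.castSucc) ^ 2
      = β / 2 * (S.a (Fin.last d) * ∑ r : Fin d, w (sp r.castSucc) ^ 2
          - ∑ r : Fin d, S.ν r * w (sp r.castSucc) ^ 2) := by
    rw [mul_sum, ← sum_sub_distrib, mul_sum]; exact sum_congr rfl fun r _ => by ring
  rw [e1, e2]
  split_ifs with he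
  · rw [he]; ring
  · ring

/-- Both inequalities at positive weights. -/
theorem inner_secular (hsp : ∀ f, c (sp f) = f) (hm : IsHaarOrth m) {j : ℕ} (hj : 1 ≤ j ∧ j ≤ k) {s : ℝ}
    (hs : 0 ≤ s) {U : Fin (N + 1) → Fin (N + 1) → ℝ} (hU : IsOrth U)
    (hω : ∀ f, S.ω f = colW (Fin.cons e c) U f) :
    β * S.mean / 2 - 2 * fldC k τ
        + tiltE m k β S.a (cRef sp c) τ sp (S.gainT β (4 * fldC k τ) 0 e) (S.gainB β) j s
      ≤ ∫ V, auxV β S.a τ e j s k c (mul U (ext V)) ∂m ∧
    ∫ V, auxV β S.a τ e j s k c (mul U (ext V)) ∂m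
      ≤ β * S.mean / 2
        + tiltE m k β S.a (cRef sp c) τ sp (S.gainT β (-(2 * fldC k τ)) (-(2 * fldC k τ)) e) (S.gainB β) j s := by
  have := hm.1
  set cp := fldC k τ
  have hcp : 0 ≤ cp := fldC_nonneg τ k
  have hB := isOrth_basis S
  have hB0 : ∀ f, basisA S f 0 = √(colW (Fin.cons e c) U f) := fun f => by
    simp [basisA, Secular.basis, hω]
  rw [inner_eq (sp := sp) β S.a τ e j s hsp hm hB hU hB0]
  have hreg : Integrable (starVal sp c β S.a τ e (basisA S) k j s) m :=
    ((reg_auxV β S.a τ e j s).comp_star (isOrth_starM hsp hB)).integrable hm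
  have hgen : ∀ T b, Integrable (genVal β S.a (cRef sp c) τ k j s (tiltP sp T b)) m := fun T b =>
    (reg_genVal β S.a (cRef sp c) τ fun s0 => by unfold tiltP; fun_prop).integrable hm
  rw [tiltE_eq β S.a (cRef sp c) τ m sp _ _ j hs (.inl hj), tiltE_eq β S.a (cRef sp c) τ m sp _ _ j hs (.inl hj)]
  constructor
  · refine le_trans (le_of_eq ?_) (integral_mono ((hgen (S.gainT β (4 * cp) 0 e) (S.gainB β)).fun_add
      (integrable_const (β * S.mean / 2 - 2 * cp))) hreg fun V => ?_)
    · rw [integral_add (hgen _ _) (integrable_const _), integral_const, probReal_univ, one_smul, add_comm]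
    refine genVal_le_star hsp β S.a τ e k j s V fun w s0 h0 => ?_
    rw [delta_secular β S e w h0, tilt_shift β S e (4 * cp)]
    have hy := sum_yB_sq (sp := sp) hB w s0
    have hy1 : yB sp (basisA S) w s0 (Fin.last d) ^ 2
        ≤ ∑ f, yB sp (basisA S) w s0 f ^ 2 :=
      single_le_sum (f := fun f => yB sp (basisA S) w s0 f ^ 2) (fun f _ => sq_nonneg _)
        (mem_univ _)
    rw [hy, h0] at hy1
    nlinarith [mul_le_mul_of_nonneg_left hy1 hcp,
      mul_nonneg hcp (sum_nonneg fun (r : Fin d) (_ : r ∈ univ) => sq_nonneg (w (sp r.castSucc)))]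
  · refine le_trans (integral_mono hreg ((hgen (S.gainT β (-(2 * cp)) (-(2 * cp)) e) (S.gainB β)).fun_add
      (integrable_const (β * S.mean / 2))) fun V => ?_) (le_of_eq ?_)
    rotate_left
    · rw [integral_add (hgen _ _) (integrable_const _), integral_const, probReal_univ, one_smul, add_comm]
    refine star_le_genVal hsp β S.a τ e k j s V fun w s0 h0 => ?_
    rw [delta_secular β S e w h0, tilt_shift β S e (-(2 * cp))]
    linarith

/-- The system itself against the reference. -/
theorem base_bounds (hsp : ∀ f, c (sp f) = f) (hm : IsHaarOrth m) (hβ : 0 ≤ β) :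
    ∫ U, rootU k β a c (fun _ => 0) τ U ∂m ≤ tiltE m k β a (cRef sp c) τ (fun f : Fin d => sp f.castSucc)
        (baseT β a (-(2 * fldC k τ))) (fun _ => 0) 1 0 ∧
      (∫ U, rootU k β a (cRef sp c) (fun _ => 0) τ U ∂m)
          - (β * (∑ f, |a f|) + 2 * fldC k τ) * (1 + (d + 1) * (N / nTop (cRef sp c)))
        ≤ ∫ U, rootU k β a c (fun _ => 0) τ U ∂m := by
  have := hm.1
  have hne : NeZero (cubeLaw N) := ⟨IsProbabilityMeasure.ne_zero _⟩
  set cp := fldC k τ
  have hcp : 0 ≤ cp := fldC_nonneg τ k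
  set A := ∑ f, |a f|
  have hA : 0 ≤ A := sum_nonneg fun _ _ => abs_nonneg _
  set Φ := fun w : Fin N → ℝ => β / 2 * ∑ f, (a f - a (Fin.last d)) * w (sp f) ^ 2
  set M : Fld N → ℝ := Sum.elim (fun _ => 1) fun i => if i = sp (c i) ∧ c i ≠ Fin.last d then 0 else 1
  have hM : ∀ i, M i = 0 ∨ M i = 1 := by
    rintro (i | i)
    · simp [M]
    · simp [M]; tauto
  have hU : ∀ U, rootU k β a c (fun _ => 0) τ U = val (k := k) (stdG (Fld N)) (cubeLaw N)
      (gham (baseData β a (cRef sp c) Φ U) (maskAmp (ampV (fun _ => 0) τ) M)) 0 fun _ _ => 0 := fun U => by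
    rw [rootU_eq]
    refine congrArg (fun H => val (k := k) (stdG (Fld N)) (cubeLaw N) H 0 fun _ _ => 0)
      (gham_congr (fun x => ?_) fun l i x => ?_)
    · have h1 : ∀ i, a (c i) * rotate U x i ^ 2
          = (if i = sp (c i) then a (c i) * rotate U x i ^ 2 else a (c i) * rotate U x i ^ 2) := fun i => by simp
      have h2 : ∀ i, a (cRef sp c i) * rotate U x i ^ 2
          = (if i = sp (c i) then a (Fin.last d) * rotate U x i ^ 2 else a (c i) * rotate U x i ^ 2) := fun i => by
        unfold cRef; split_ifs <;> rfl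
      simp only [fdata, baseData, mkF, enV, h2, sum_sp hsp, hsp, Φ, sub_mul, sum_sub_distrib]
      ring
    · simp only [fdata, baseData, mkF, maskAmp, mul_assoc, M]
      congr 1
      rcases i with i | i
      · simp [fldV]
      · simp only [fldV, Sum.elim_inr, topMask, cRef]
        by_cases hf : i = sp (c i)
        · by_cases hc : c i = Fin.last d <;> simp [← hf, hc]
        · simp [hf]
  have hcr : Integrable (fun U => rootU k β a c (fun _ => 0) τ U) m := (reg_rootU β a τ).integrable hm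
  constructor
  · rw [tiltE_eq β a (cRef sp c) τ m _ _ _ 1 le_rfl (.inr rfl)]
    set T := fun w : Fin N → ℝ => tiltP (fun f : Fin d => sp f.castSucc) (baseT β a (-(2 * cp))) (fun _ => 0) w 1
    have hT : tiltP (fun f : Fin d => sp f.castSucc) (baseT β a (-(2 * cp))) (fun _ => 0)
        = fun w _ => T w := by funext w s0; simp [T, tiltP]
    simp only [hT, genVal_zero (k := k) β a (cRef sp c) τ 1 T]
    refine integral_mono hcr ((reg_baseVal β a (cRef sp c) τ (by unfold T tiltP; fun_prop)).integrable hm)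
      fun U => ?_
    rw [hU]
    refine le_of_eq_of_le (add_zero _).symm (gval_mask_add_le (ι := Fld N) (μ := cubeLaw N)
      (baseData β a (cRef sp c) Φ U) (baseData β a (cRef sp c) T U) rfl (ampV (fun _ => 0) τ)
      hM (K := 0) fun x => ?_)
    have e3 : ∑ l : Fin k, ∑ i, (1 - M i) * (ampV (fun _ => 0) τ ((l : ℕ) + 1) i ^ 2 / 2)
        * (baseData β a (cRef sp c) Φ U).v x i ^ 2 = cp * ∑ r : Fin d, rotate U x (sp r.castSucc) ^ 2 := by
      have hi : ∀ i, (1 - if i = sp (c i) ∧ c i ≠ Fin.last d then (0 : ℝ) else 1)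
          * (topMask (cRef sp c) i * rotate U x i) ^ 2
          = if i = sp (c i) then (if c i = Fin.last d then 0 else rotate U x i ^ 2) else 0 := fun i => by
        by_cases hf : i = sp (c i)
        · by_cases hc : c i = Fin.last d <;> simp [← hf, hc, topMask, cRef]
        · simp [hf]
      have hs : ∑ i, (if i = sp (c i) then (if c i = Fin.last d then 0 else rotate U x i ^ 2) else 0)
          = ∑ r : Fin d, rotate U x (sp r.castSucc) ^ 2 := by
        rw [sum_sp hsp, sum_const_zero, zero_add, Fin.sum_univ_castSucc]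
        simp [hsp, (Fin.castSucc_lt_last _).ne]
      rw [show cp = ∑ l : Fin k, τ ((l : ℕ) + 1) ^ 2 / 2 by simp [cp, fldC, sum_div], sum_mul]
      refine sum_congr rfl fun l _ => ?_
      rw [← hs, mul_sum, Fintype.sum_sum_type]
      simp only [baseData, mkF, fldV, M, ampV, Sum.elim_inl, Sum.elim_inr, sub_self, zero_mul, sum_const_zero,
        zero_add]
      exact sum_congr rfl fun i _ => by rw [← hi i]; ring
    rw [e3]
    simp only [baseData, mkF, Φ, T, tiltP, baseT, Fin.sum_univ_castSucc (n := d), sub_self, zero_mul, add_zero,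
      mul_sum, zero_sub]
    rw [add_assoc, ← sum_add_distrib]
    exact add_le_add le_rfl (le_of_eq (sum_congr rfl fun r _ => by ring))
  · obtain ⟨hi, hle⟩ := int_sq_sp (k := k) β a τ hm (cRef_sp (sp := sp) hsp)
    have hroot := (reg_rootU (k := k) (c := cRef sp c) β a τ).integrable hm
    have hp : ∀ U, rootU k β a (cRef sp c) (fun _ => 0) τ U + -(β * A) * (∑ f,
        gibR β a (cRef sp c) U k (fun _ => 0) τ fun x => rotate U x (sp f) ^ 2)
          ≤ rootU k β a c (fun _ => 0) τ U := fun U => by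
      rw [hU, ← gibR_sum β a τ (-(β * A)) U fun f x => rotate U x (sp f) ^ 2]
      refine le_trans (le_trans (add_le_add le_rfl ?_) (baseVal_ge β a (cRef sp c) τ Φ U))
        (gval_mask_le (ι := Fld N) (μ := cubeLaw N) (baseData β a (cRef sp c) Φ U) (ampV (fun _ => 0) τ) hM)
      refine gibR_mono β a τ U fun x => ?_
      simp only [Φ, mul_sum]
      refine sum_le_sum fun f _ => ?_
      have h := abs_le.1 ((abs_sub (a f) (a (Fin.last d))).trans
        (add_le_add (le_sum_abs a f) (le_sum_abs a (Fin.last d))))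
      nlinarith [mul_le_mul_of_nonneg_left h.1 (mul_nonneg hβ (sq_nonneg (rotate U x (sp f))))]
    refine le_trans ?_ (integral_mono (hroot.fun_add (hi.const_mul _)) hcr hp)
    rw [integral_add hroot (hi.const_mul _), integral_const_mul]
    have hn := nTop_pos (cRef_sp (sp := sp) hsp 0)
    have hr : 0 ≤ ((d : ℝ) + 1) * (N / nTop (cRef sp c)) := by positivity
    nlinarith [mul_le_mul_of_nonneg_left hle (by positivity : 0 ≤ β * A), mul_nonneg hcp hr,
      mul_nonneg hβ hA]

end Bounds

/-- Module H, one more direction. -/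
theorem cavHaarStmt : CavHaarStmt := by
  intro d N c hb
  obtain ⟨sp, hsp⟩ := exists_sp c hb
  refine ⟨cRef sp c, sp, sp_inj hsp, cRef_sp hsp, (blockCard_cRef hsp).1, (blockCard_cRef hsp).2, ?_⟩
  intro k β a hβ hmono m m' hm hm' τ
  have hN : 0 < N := (sp 0).pos
  simp only [mul_freeU (m := m) β a τ hN]
  obtain ⟨h1, h2⟩ := base_bounds (k := k) β a τ hsp hm hβ
  refine ⟨h1, h2, fun e j s hj hjk hs _ g hg => ?_⟩
  have hsplit := split_ext hm hm' (reg_auxV (k := k) (c := c) β a τ e j s)
  have haux : auxE m' k β a (Fin.cons e c) τ 0 j s = ∫ U, ∫ V, auxV β a τ e j s k c (mul U (ext V)) ∂m ∂m' :=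
    hsplit.2
  rw [haux]
  refine ⟨fun hle => integral_mono_ae hg hsplit.1 ?_, fun hcp hle => integral_mono_ae hsplit.1 hg ?_⟩
  · filter_upwards [hle, hm'.2.1] with U h hU
    rcases h with h | ⟨hp, hsum, h⟩
    · exact h.trans (inner_crude β a τ hsp hm hβ hmono e j hs hU).1
    · exact h.trans (inner_secular β τ (⟨a, colW (Fin.cons e c) U, hmono, hp, hsum⟩ : Secular d) e hsp hm
        ⟨hj, hjk⟩ hs hU fun f => rfl).1
  · filter_upwards [hle, hm'.2.1] with U h hU
    rcases h with h | ⟨hp, hsum, h⟩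
    · exact ((inner_crude β a τ hsp hm hβ hmono e j hs hU).2 hcp).trans h
    · exact (inner_secular β τ (⟨a, colW (Fin.cons e c) U, hmono, hp, hsum⟩ : Secular d) e hsp hm
        ⟨hj, hjk⟩ hs hU fun f => rfl).2.trans h

end Vale.Agent.P166.Rsb.CavH
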