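import Vale.Agent.P166.Rsb.CavPins
import Vale.Agent.P166.Rsb.Energy.Main

/-!
# P166: the spin path as the image of the kernel of the last block

`img_of_point : PointStmt → SyncStmt → ImgStmt`.  At vanishing spin amplitudes the tilted kernels of
module F are the image of the kernel of the last block.
-/

open MeasureTheory ProbabilityTheory Real Finset
open Vale.Agent.P157.Rsb (lev lift IsPath)
open Vale.Agent.P166.Rsb.Energy (kv kq kQ movedErr topK topP PointStmt tilt)

namespace Vale.Agent.P166.Rsb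

variable {d N k : ℕ} {A : Atoms d} {m : Measure (Fin N → Fin N → ℝ)} {β : ℝ}
  {c : Fin N → Fin (d + 1)}

/-- The functionals of the image in terms of the tilted kernels. -/
theorem img_eq (w t : Fin (d + 1) → ℝ) (k : ℕ) (q : ℕ → ℝ) (Q : ℝ) :
    (combV k (fun j => ∑ e, w e * Energy.tiltV (t e) (kv k q Q j)) (fun v => v)
      = ∑ e, w e * kQ (t e) k q Q) ∧
    ∀ l, imgQ k (fun j => ∑ e, w e * Energy.tiltV (t e) (kv k q Q j)) l
      = ∑ e, w e * kq (t e) k q Q l := by
  have h : ∀ l, imgQ k (fun j => ∑ e, w e * Energy.tiltV (t e) (kv k q Q j)) l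
      = ∑ e, w e * kq (t e) k q Q l := fun l => by
    simp only [imgQ, kq, ← sum_sub_distrib, sum_div, mul_sum]
    rw [sum_comm]
    exact sum_congr rfl fun e _ => sum_congr rfl fun i _ => by ring
  refine ⟨?_, h⟩
  have h' := h k
  simp only [imgQ] at h'
  simp only [combV, h']
  rw [← sum_add_distrib]
  exact sum_congr rfl fun e _ => by rw [kQ]; ring

theorem up_a_of_nonneg (A : Atoms d) {h : ℝ} (hh : 0 ≤ h) : (A.up h).a = raise A.a h := by
  simp [Atoms.up, max_eq_left hh]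

/-- The error of the image at a perturbation. -/
noncomputable def imgDev (A : Atoms d) (m : Measure (Fin N → Fin N → ℝ)) (k : ℕ) (β : ℝ)
    (c : Fin N → Fin (d + 1)) (τ : ℕ → ℝ) (h : ℝ) : ℝ :=
  let V := imgV (A.up h) β k (kerK m k β (raise A.a h) c τ) (kerP m k β (raise A.a h) c τ)
  |combV k V (fun v => v) - 1| + P157.Rsb.mass k * ∑ l ∈ Icc 1 k,
    |qSpin m k β (raise A.a h) c (fun _ => 0) τ l - imgQ k V l|

theorem imgDev_meas (hm : IsHaarOrth m) (A : Atoms d) :
    Measurable fun p : (Fin k → ℝ) × ℝ => imgDev A m k β c (lift p.1) p.2 := by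
  have hK : ∀ l, Measurable fun p : (Fin k → ℝ) × ℝ =>
      kerK m k β (raise A.a p.2) c (lift p.1) l := fun l => by
    unfold kerK
    exact ((Syn.qTop_meas β A.a c (fun _ => 0) hm l).mul_const _).div_const _
  have hP : Measurable fun p : (Fin k → ℝ) × ℝ => kerP m k β (raise A.a p.2) c (lift p.1) := by
    unfold kerP
    exact ((Syn.pTop_meas β A.a c (fun _ => 0) hm).mul_const _).div_const _
  have hD : ∀ j, Measurable fun p : (Fin k → ℝ) × ℝ =>
      dOfK k (kerK m k β (raise A.a p.2) c (lift p.1)) (kerP m k β (raise A.a p.2) c (lift p.1)) j :=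
    fun j => by
    unfold dOfK
    exact (hP.sub (hK k)).add (Finset.measurable_sum _ fun i _ =>
      ((hK (i + 1)).sub (hK i)).const_mul _)
  have ha : ∀ e, Measurable fun p : (Fin k → ℝ) × ℝ => (A.up p.2).a e := fun e => by
    simp only [Atoms.up, raise]
    split_ifs
    · exact (measurable_snd.max measurable_const).const_add _
    · exact measurable_const
  have hV : ∀ j, Measurable fun p : (Fin k → ℝ) × ℝ =>
      imgV (A.up p.2) β k (kerK m k β (raise A.a p.2) c (lift p.1))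
        (kerP m k β (raise A.a p.2) c (lift p.1)) j := fun j => by
    simp only [imgV, Atoms.swapV, Atoms.swapK, Atoms.top]
    exact Finset.measurable_sum _ fun e _ => ((hD j).div
      (((((ha (Fin.last d)).sub (ha e)).const_mul β).mul (hD j)).const_add 1)).const_mul _
  unfold imgDev combV imgQ
  refine ((Measurable.add ?_ ?_).sub_const 1).abs.add ((Finset.measurable_sum _ fun l _ => ?_).const_mul _)
  · exact hV k
  · exact Finset.measurable_sum _ fun i _ => ((hV i).sub (hV (i + 1))).div_const _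
  · exact ((Syn.qSpin_meas β A.a c (fun _ => 0) hm l).sub
      (Finset.measurable_sum _ fun i _ => ((hV i).sub (hV (i + 1))).div_const _)).abs

/-- At small nonnegative shifts the error of the image is twice the error of the tilted kernels. -/
theorem imgDev_le (A : Atoms d) {h err : ℝ} (hh : 0 ≤ h) {τ : ℕ → ℝ}
    (h1 : |1 - ∑ e, A.w e * kQ (tilt β (raise A.a h) e) k
      (topK m k β (raise A.a h) c (fun _ => 0) τ) (topP m k β (raise A.a h) c (fun _ => 0) τ)| ≤ err)
    (h2 : P157.Rsb.mass k * ∑ j ∈ Icc 1 k, |qSpin m k β (raise A.a h) c (fun _ => 0) τ j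
        - ∑ e, A.w e * kq (tilt β (raise A.a h) e) k
          (topK m k β (raise A.a h) c (fun _ => 0) τ) (topP m k β (raise A.a h) c (fun _ => 0) τ) j|
      ≤ err) :
    0 ≤ imgDev A m k β c τ h ∧ imgDev A m k β c τ h ≤ 2 * err := by
  have hV : imgV (A.up h) β k (kerK m k β (raise A.a h) c τ) (kerP m k β (raise A.a h) c τ)
      = fun j => ∑ e, A.w e * Energy.tiltV (tilt β (A.up h).a e)
          (kv k (topK m k β (raise A.a h) c (fun _ => 0) τ)
            (topP m k β (raise A.a h) c (fun _ => 0) τ) j) := rfl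
  rw [up_a_of_nonneg A hh] at hV
  obtain ⟨e1, e2⟩ := img_eq A.w (tilt β (raise A.a h)) k
    (topK m k β (raise A.a h) c (fun _ => 0) τ) (topP m k β (raise A.a h) c (fun _ => 0) τ)
  simp only [imgDev, hV, e1, e2]
  refine ⟨add_nonneg (abs_nonneg _)
    (mul_nonneg P157.Rsb.mass_pos.le (sum_nonneg fun _ _ => abs_nonneg _)), ?_⟩
  rw [abs_sub_comm]
  linarith

/-- A nonnegative quantity below an affine function of a bounded one, on average. -/
theorem pertAvg_le_affine {η δ δ' C D M E : ℝ} (hδ : 0 < δ) (hδ' : 0 < δ') (hD : 0 ≤ D)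
    {Ψ Φ : (ℕ → ℝ) → ℝ → ℝ} (hΨ : Measurable fun p : (Fin k → ℝ) × ℝ => Ψ (lift p.1) p.2)
    (hΦ : Syn.PertInt k η δ δ' Φ) (hM : ∀ τ h, Φ τ h ≤ M) (hE : pertAvg k η δ δ' Φ ≤ E)
    (hbox : ∀ (y : Fin k → ℝ) (h : ℝ), 0 ≤ h → h ≤ δ' → (∀ l, η ≤ y l ∧ y l ≤ η + δ) →
      0 ≤ Ψ (lift y) h ∧ Ψ (lift y) h ≤ C + D * Φ (lift y) h) :
    pertAvg k η δ δ' Ψ ≤ C + D * E := by
  have hm : Measurable fun p : ℝ × (Fin k → ℝ) => Ψ (lift p.2) p.1 :=
    hΨ.comp (measurable_snd.prodMk measurable_fst)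
  have hint : Syn.PertInt k η δ δ' Ψ := Syn.PertInt.of_bdd (C := C + D * M) hδ hδ' hm
    fun y h hh0 hhδ hy => by
      obtain ⟨g1, g2⟩ := hbox y h hh0 hhδ hy
      rw [abs_of_nonneg g1]
      exact g2.trans (add_le_add le_rfl (mul_le_mul_of_nonneg_left (hM _ _) hD))
  refine (Syn.pertAvg_mono hδ hδ' hint ((Syn.PertInt.const hδ hδ' C).add (hΦ.const_mul D))
    fun y s hs0 hsδ hy => (hbox y s hs0 hsδ hy).2).trans ?_
  rw [Syn.pertAvg_add hδ hδ' (.const hδ hδ' _) (hΦ.const_mul _), Syn.pertAvg_const hδ hδ',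
    Syn.pertAvg_const_mul hδ hδ' hΦ]
  exact add_le_add le_rfl (mul_le_mul_of_nonneg_left hE hD)

/-- The image error on average, at fixed data. -/
theorem pertAvg_imgDev_le (hm : IsHaarOrth m) (hN : 1 ≤ N) {η δ δ' C D E : ℝ} (hδ : 0 < δ)
    (hδ' : 0 < δ') (hD : 0 ≤ D)
    (hE : pertAvg k η δ δ' (fun τ h => movedErr m k β (raise A.a h) c (fun _ => 0) τ) ≤ E)
    (hbox : ∀ (y : Fin k → ℝ) (h : ℝ), 0 ≤ h → h ≤ δ' → (∀ l, η ≤ y l ∧ y l ≤ η + δ) →
      0 ≤ imgDev A m k β c (lift y) h ∧ imgDev A m k β c (lift y) h ≤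
        C + D * movedErr m k β (raise A.a h) c (fun _ => 0) (lift y)) :
    pertAvg k η δ δ' (fun τ h => imgDev A m k β c τ h) ≤ C + D * E := by
  refine pertAvg_le_affine (M := 4) hδ hδ' hD (Φ := fun τ h => movedErr m k β (raise A.a h) c (fun _ => 0) τ)
    ?_ ?_ ?_ hE hbox
  · exact imgDev_meas hm A
  · exact Energy.movedErr_pertInt hm hN A.a hδ hδ'
  · exact fun τ h => (Energy.movedErr_mem hm hN _ _).2

/-- Module F gives the image statement of module H. -/
theorem img_of_point (hP : PointStmt) (hS : SyncStmt) : ImgStmt := by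
  obtain ⟨C', hC', hsync⟩ := hS
  intro d A β ε hβ hε
  obtain ⟨Cp, hCp, hpoint⟩ := hP d A β β (ε / 8) hβ (by positivity)
  set κ := ε / (8 * (Cp + 1)) with hκ
  have hκ0 : 0 < κ := by positivity
  obtain ⟨K, hK⟩ := exists_nat_gt ((C' / κ) ^ 2)
  refine ⟨max K 1, fun k hk => ?_⟩
  obtain ⟨ρp, hρp, hρp1, θp, hθp, Np, hpt⟩ := hpoint k ((le_max_right _ _).trans hk)
  have hsk : C' / √((k : ℝ) + 1) ≤ κ := by
    have hKk : (K : ℝ) ≤ k := Nat.cast_le.2 ((le_max_left _ _).trans hk)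
    have h1 : C' / κ ≤ √((k : ℝ) + 1) := Real.le_sqrt_of_sq_le (by linarith)
    rw [div_le_iff₀ hκ0] at h1
    rw [div_le_iff₀ (Real.sqrt_pos.2 (by positivity))]
    linarith
  refine ⟨ρp / 2, by positivity, fun η δ δ' hη hδ hδ' hηρ hδρ hδ'ρ => ?_⟩
  obtain ⟨θs, hθs, Ns, hsy⟩ := hsync d A k η δ δ' β β κ hη hδ hδ' hβ hκ0
  obtain ⟨N₁, hN₁⟩ := exists_nat_gt (2 / θs)
  refine ⟨min θp (θs / 2), by positivity, max (max Np Ns) (max N₁ 1), fun N hN c hF m hm => ?_⟩
  simp only [max_le_iff] at hN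
  have hN1 : 1 ≤ N := hN.2.2
  have hNR : (0 : ℝ) < N := Nat.cast_pos.2 hN1
  have hFp : Fits A c θp := fun e =>
    (hF e).trans (mul_le_mul_of_nonneg_right (min_le_left _ _) hNR.le)
  have hFs : ∀ i, Fits A (Energy.moved c i) θs := fun i => by
    refine Energy.fits_moved hF ?_ i
    have h1 : (2 : ℝ) / θs ≤ N := hN₁.le.trans (Nat.cast_le.2 hN.2.1)
    rw [div_le_iff₀ hθs] at h1
    linarith [mul_le_mul_of_nonneg_right (min_le_right θp (θs / 2)) hNR.le]
  have havg := Energy.pertAvg_movedErr (k := k) (η := η) (β := β) (σ := fun _ => 0) (c := c) hm hN1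
    A.a hδ hδ' (E := 2 * κ) (by positivity) fun i _ =>
      (hsy N hN.1.2 (Energy.moved c i) (hFs i) m hm β le_rfl le_rfl (fun _ => 0)
        fun _ => by simp [hβ.le]).trans (by linarith)
  have hbox : ∀ (y : Fin k → ℝ) (h : ℝ), 0 ≤ h → h ≤ δ' → (∀ l, η ≤ y l ∧ y l ≤ η + δ) →
      0 ≤ imgDev A m k β c (lift y) h ∧ imgDev A m k β c (lift y) h ≤
        ε / 4 + 2 * Cp * movedErr m k β (raise A.a h) c (fun _ => 0) (lift y) := by
    intro y h hh0 hhδ hy
    have hτ : ∀ l, |lift y l| ≤ ρp := fun l => by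
      unfold P157.Rsb.lift
      split_ifs with hl
      · exact abs_le.2 ⟨by linarith [(hy ⟨l - 1, by omega⟩).1],
          by linarith [(hy ⟨l - 1, by omega⟩).2]⟩
      · simp [hρp.le]
    obtain ⟨-, h1, h2, -⟩ := hpt N hN.1.1 c hFp m hm β le_rfl le_rfl h hh0 (by linarith)
      (fun _ => 0) (lift y) hτ
    obtain ⟨g1, g2⟩ := imgDev_le A hh0 h1 h2
    exact ⟨g1, g2.trans_eq (by ring)⟩
  show pertAvg k η δ δ' (fun τ h => imgDev A m k β c τ h) ≤ ε
  refine (pertAvg_imgDev_le hm hN1 hδ hδ' (by positivity) havg hbox).trans ?_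
  have h4 : (Cp + 1) * κ = ε / 8 := by rw [hκ]; field_simp
  linarith

end Vale.Agent.P166.Rsb
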