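import Vale.Agent.P166.Rsb.CavPins
import Vale.Agent.P166.Rsb.Sync.Export

/-!
# P166: systems with values at bounded distance have close overlaps inside the last block

`shiftStmt : ShiftStmt`.  Two functions that are convex on an interval and close to each other have
slopes that are close on average.
-/

open MeasureTheory ProbabilityTheory Real Finset
open Vale.Agent.P157.Rsb (lift lift_update tail boxP boxP_facts IsPath path_mem)
open Vale.Agent.P157.Rsb.Lf (boxP_slice_le tail_step)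
open Vale.Agent.P166.Rsb.Syn

namespace Vale.Agent.P166.Rsb.Cav

/-- Two convex functions at distance `G` have slopes close on average. -/
theorem slopes_close {f g f' g' : ℝ → ℝ} {lo hi R G w : ℝ} (hlh : lo ≤ hi) (hw : 0 < w) (hR : 0 ≤ R)
    (hf : ∀ s ∈ Set.Icc lo hi, ∀ t ∈ Set.Icc lo hi, f s + (t - s) * f' s ≤ f t)
    (hg : ∀ s ∈ Set.Icc lo hi, ∀ t ∈ Set.Icc lo hi, g s + (t - s) * g' s ≤ g t)
    (hfR : ∀ s ∈ Set.Icc lo hi, |f' s| ≤ R) (hgR : ∀ s ∈ Set.Icc lo hi, |g' s| ≤ R)
    (hG : ∀ s ∈ Set.Icc lo hi, |f s - g s| ≤ G) :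
    ∫ s in Set.Icc lo hi, |f' s - g' s| ≤ (hi - lo) * (w + 3 * G / w) + 16 * R * w := by
  set m : Measure Bool := P157.coin
  have hm : IsProbabilityMeasure m := by infer_instance
  have hint : ∀ F : Bool → ℝ, ∫ b, F b ∂m = (F false + F true) / 2 := fun F => by
    simp [m, P157.coin, integral_smul_measure]; ring
  have hI : ∀ F : Bool → ℝ, Integrable F m := fun F => Integrable.of_finite
  set P : ℝ → Bool → ℝ := fun s b => if b then f' s else g' s
  have hmain := slice_dev (m := m) (lo := lo) (hi := hi) (h := w) (θ := w) (R := R) (E := G / 2)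
    (S := 0) (V := fun s b => if b then f s else g s) (P := P) (W := fun _ _ => 0)
    (F := fun s b => |P s b - ∫ b, P s b ∂m|) hlh hw hw hR (fun s _ => hI _) (fun s _ => hI _)
    (fun s _ => hI _)
    (fun s hs t ht => ae_of_all _ fun b => by
      cases b
      · exact hg s hs t ht
      · exact hf s hs t ht)
    (fun s hs => ae_of_all _ fun b => by
      cases b
      · exact hgR s hs
      · exact hfR s hs)
    (fun s hs => by
      rw [hint, hint]
      simp only [Bool.false_eq_true, if_false, if_true]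
      rw [show g s - (g s + f s) / 2 = -((f s - g s) / 2) by ring,
        show f s - (g s + f s) / 2 = (f s - g s) / 2 by ring, abs_neg, abs_div, abs_two]
      linarith [hG s hs])
    (fun s b => abs_nonneg _)
    (fun s _ => ae_of_all _ fun b => by
      rw [zero_div, add_zero]
      linarith)
    (by simp only [integral_zero]; exact integrableOn_zero)
    (by simp)
  have e : ∀ s, ∫ b, |P s b - ∫ b, P s b ∂m| ∂m = |f' s - g' s| / 2 := fun s => by
    rw [hint, hint]
    simp only [P, Bool.false_eq_true, if_false, if_true]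
    rw [show g' s - (g' s + f' s) / 2 = -((f' s - g' s) / 2) by ring,
      show f' s - (g' s + f' s) / 2 = (f' s - g' s) / 2 by ring, abs_neg, abs_div, abs_two]
    ring
  simp only [e, integral_div] at hmain
  have e1 : (hi - lo) * (w + 3 * G / w) = 2 * ((hi - lo) * (w / 2 + 3 * (G / 2) / w)) := by ring
  rw [e1]
  simp only [zero_div, add_zero] at hmain
  linarith

variable {d N k : ℕ} (m : Measure (Fin N → Fin N → ℝ)) (β : ℝ) (a : Fin (d + 1) → ℝ)
  (c : Fin N → Fin (d + 1))

/-- The weighted tail of the overlaps inside the last block from level `i + 1`. -/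
noncomputable def tailTop (i : Fin k) (τ : ℕ → ℝ) (h : ℝ) : ℝ :=
  tail k (qTop m k β (raise a h) c (fun _ => 0) τ) ((i : ℕ) + 1)

variable {m}

theorem tailTop_mem (hm : IsHaarOrth m) (hN : 1 ≤ N) (i : Fin k) (τ : ℕ → ℝ) (h : ℝ) :
    0 ≤ tailTop m β a c i τ h ∧ tailTop m β a c i τ h ≤ 1 := by
  have hp := isPath_qTop (k := k) β (raise a h) c hm hN (fun _ => 0) τ
  refine ⟨mul_nonneg P157.Rsb.mass_pos.le (sum_nonneg fun l hl =>
    (path_mem hp (mem_Icc.1 hl).2).1), ?_⟩
  refine (mul_le_mul_of_nonneg_left (sum_le_card_nsmul _ _ (1 : ℝ) fun l hl =>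
    (path_mem hp (mem_Icc.1 hl).2).2) P157.Rsb.mass_pos.le).trans ?_
  rw [nsmul_eq_mul, mul_one, Nat.card_Icc, P157.Rsb.mass, one_div_mul_eq_div,
    div_le_one (by positivity)]
  exact_mod_cast Nat.sub_le _ _

/-- The value along one amplitude, with its slope. -/
theorem amp_line (hm : IsHaarOrth m) (hN : 1 ≤ N) (h : ℝ) (τ : ℕ → ℝ) (i : Fin k) (s t : ℝ) :
    (N * freeU m k β (raise a h) c (fun _ => 0) (Function.update τ ((i : ℕ) + 1) s) + s ^ 2 / 2 * N)
        + (t - s) * (s * (N * (1 - tailTop m β a c i (Function.update τ ((i : ℕ) + 1) s) h)))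
      ≤ N * freeU m k β (raise a h) c (fun _ => 0) (Function.update τ ((i : ℕ) + 1) t)
        + t ^ 2 / 2 * N := by
  have := hm.1
  set α := raise a h
  set τs := Function.update τ ((i : ℕ) + 1) s
  have hN0 : (N : ℝ) ≠ 0 := by exact_mod_cast (show N ≠ 0 by omega)
  have hS : ∫ U, ampSlope β α c U (fun _ => 0) τ i s ∂m
      = s * (N * (1 - tailTop m β a c i τs h)) := by
    have e : ∀ U, ampSlope β α c U (fun _ => 0) τ i s
        = s * N - s * topTailR β α c U k (fun _ => 0) τs ((i : ℕ) + 1) := fun U => by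
      rw [Syn.ampSlope_eq]; ring
    have hint : Integrable (fun U => topTailR β α c U k (fun _ => 0) τs ((i : ℕ) + 1)) m :=
      integrable_of_ae hm ((Finset.measurable_sum _ fun l _ =>
        pairR_meas β α c (fun _ => 0) τs l fun x y => by unfold rotate; fun_prop).const_mul _)
        (C := N) fun U hU => abs_le.2
          ⟨by linarith [topTailR_nonneg β α c U (k := k) (fun _ => 0) τs ((i : ℕ) + 1),
              show (0 : ℝ) ≤ N from Nat.cast_nonneg N],
            topTailR_le β α c U (fun _ => 0) τs hU _⟩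
    simp only [e]
    rw [integral_sub (integrable_const _) (hint.const_mul s), integral_const, probReal_univ, one_smul,
      integral_const_mul, qTop_tail β α c hm (fun _ => 0) τs (by omega), tailTop]
    ring
  have hr := fun t => rootU_integrable (k := k) β α c hm (fun _ => 0)
    (Function.update τ ((i : ℕ) + 1) t)
  have hSi : Integrable (fun U => ampSlope β α c U (fun _ => 0) τ i s) m := by
    refine integrable_of_ae hm ?_ (C := |s| * N) fun U hU => abs_ampSlope_le β α c U _ τ i s hU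
    simp only [Syn.ampSlope_eq]
    exact ((((Finset.measurable_sum _ fun l _ =>
      pairR_meas β α c (fun _ => 0) τs l fun x y => by unfold rotate; fun_prop).const_mul _).const_sub
        _).const_mul s)
  have hint := integral_mono_ae (((hr s).add (integrable_const (s ^ 2 / 2 * N))).add
    (hSi.const_mul (t - s))) ((hr t).add (integrable_const (t ^ 2 / 2 * N)))
    (hm.2.1.mono fun U hU => ampVal_tangent β α c U (fun _ => 0) τ i t hU s)
  rw [integral_add' ((hr s).add (integrable_const _)) (hSi.const_mul _),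
    integral_add' (hr s) (integrable_const _), integral_add' (hr t) (integrable_const _),
    integral_const, integral_const, probReal_univ, one_smul, one_smul, integral_const_mul, hS] at hint
  simp only [freeU, mul_div_cancel₀ _ hN0]
  exact hint

/-- The value along the shift, with its slope. -/
theorem shift_line (hm : IsHaarOrth m) (hN : 1 ≤ N) (τ : ℕ → ℝ) (s t : ℝ) :
    N * freeU m k β (raise a s) c (fun _ => 0) τ
        + (t - s) * (β / 2 * (N * pTop m k β (raise a s) c (fun _ => 0) τ))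
      ≤ N * freeU m k β (raise a t) c (fun _ => 0) τ := by
  have := hm.1
  have hN0 : (N : ℝ) ≠ 0 := by exact_mod_cast (show N ≠ 0 by omega)
  have hS : ∫ U, shiftSlope k β a c U (fun _ => 0) τ s ∂m
      = β / 2 * (N * pTop m k β (raise a s) c (fun _ => 0) τ) := by
    rw [pTop, gibU_eq, ← integral_const_mul, ← integral_const_mul]
    refine integral_congr_ae (ae_of_all _ fun U => ?_)
    simp only [shiftSlope, ← gibR_mul, mul_div_cancel₀ _ hN0]
  have hr := fun s => rootU_integrable (k := k) β (raise a s) c hm (fun _ => 0) τ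
  have hSi : Integrable (fun U => shiftSlope k β a c U (fun _ => 0) τ s) m :=
    integrable_of_ae hm (gibR_meas β (raise a s) c (fun _ => 0) τ
      fun x => ((continuous_topSq c x).measurable.const_mul _))
      fun U hU => abs_shiftSlope_le β a c U _ τ hU s
  have hint := integral_mono_ae ((hr s).add (hSi.const_mul (t - s))) (hr t)
    (hm.2.1.mono fun U hU => shift_tangent β a c U (fun _ => 0) τ hU s t)
  rw [integral_add' (hr s) (hSi.const_mul _), integral_const_mul, hS] at hint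
  simp only [freeU, mul_div_cancel₀ _ hN0]
  exact hint

variable {N' : ℕ} {m' : Measure (Fin N' → Fin N' → ℝ)} (c' : Fin N' → Fin (d + 1))

/-- One tail, averaged over its amplitude. -/
theorem amp_close (hm : IsHaarOrth m) (hm' : IsHaarOrth m') (hN : 1 ≤ N) (hN' : 1 ≤ N')
    (hd : |(N : ℝ) - N'| ≤ 1) {η δ G w : ℝ} (hη : 0 < η) (hδ : 0 < δ) (hw : 0 < w) (h : ℝ)
    (τ : ℕ → ℝ) (i : Fin k)
    (hG : ∀ s ∈ Set.Icc η (η + δ),
      |N * freeU m k β (raise a h) c (fun _ => 0) (Function.update τ ((i : ℕ) + 1) s)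
        - N' * freeU m' k β (raise a h) c' (fun _ => 0) (Function.update τ ((i : ℕ) + 1) s)| ≤ G)
    (hi : IntegrableOn (fun s => |tailTop m β a c i (Function.update τ ((i : ℕ) + 1) s) h
      - tailTop m' β a c' i (Function.update τ ((i : ℕ) + 1) s) h|) (Set.Icc η (η + δ))) :
    N * ∫ s in Set.Icc η (η + δ), |tailTop m β a c i (Function.update τ ((i : ℕ) + 1) s) h
        - tailTop m' β a c' i (Function.update τ ((i : ℕ) + 1) s) h|
      ≤ (δ * (w + 3 * (G + (η + δ) ^ 2) / w) + 16 * ((η + δ) * (N + 1)) * w) / η + δ := by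
  set T := fun s => tailTop m β a c i (Function.update τ ((i : ℕ) + 1) s) h
  set T' := fun s => tailTop m' β a c' i (Function.update τ ((i : ℕ) + 1) s) h
  have hT : ∀ s, 0 ≤ T s ∧ T s ≤ 1 := fun s => tailTop_mem β a c hm hN i _ h
  have hT' : ∀ s, 0 ≤ T' s ∧ T' s ≤ 1 := fun s => tailTop_mem β a c' hm' hN' i _ h
  have hd' := abs_le.1 hd
  have hR : 0 ≤ (η + δ) * ((N : ℝ) + 1) := by positivity
  have hmain := slopes_close (f := fun s =>
      N * freeU m k β (raise a h) c (fun _ => 0) (Function.update τ ((i : ℕ) + 1) s) + s ^ 2 / 2 * N)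
    (g := fun s => N' * freeU m' k β (raise a h) c' (fun _ => 0) (Function.update τ ((i : ℕ) + 1) s)
      + s ^ 2 / 2 * N')
    (f' := fun s => s * (N * (1 - T s))) (g' := fun s => s * (N' * (1 - T' s)))
    (show η ≤ η + δ by linarith) hw hR
    (fun s _ t _ => amp_line β a c hm hN h τ i s t) (fun s _ t _ => amp_line β a c' hm' hN' h τ i s t)
    (fun s hs => by
      rw [abs_mul, abs_mul, Nat.abs_cast]
      refine mul_le_mul (abs_le.2 ⟨by linarith [hs.1], hs.2⟩) ?_ (by positivity) (by linarith)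
      exact (mul_le_of_le_one_right (Nat.cast_nonneg N)
        (abs_le.2 ⟨by linarith [(hT s).2], by linarith [(hT s).1]⟩)).trans (by linarith))
    (fun s hs => by
      rw [abs_mul, abs_mul, Nat.abs_cast]
      refine mul_le_mul (abs_le.2 ⟨by linarith [hs.1], hs.2⟩) ?_ (by positivity) (by linarith)
      exact (mul_le_of_le_one_right (Nat.cast_nonneg N')
        (abs_le.2 ⟨by linarith [(hT' s).2], by linarith [(hT' s).1]⟩)).trans (by linarith))
    (G := G + (η + δ) ^ 2) (fun s hs => by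
      have h1 := abs_le.1 (hG s hs)
      have h2 : |s ^ 2 / 2 * ((N : ℝ) - N')| ≤ (η + δ) ^ 2 := by
        rw [abs_mul, abs_of_nonneg (by positivity : (0 : ℝ) ≤ s ^ 2 / 2)]
        have : s ^ 2 ≤ (η + δ) ^ 2 := pow_le_pow_left₀ (by linarith [hs.1]) hs.2 2
        exact (mul_le_of_le_one_right (by positivity) hd).trans (by linarith [sq_nonneg (η + δ)])
      rw [abs_le] at h2 ⊢
      constructor <;> linarith)
  have hpt : ∀ s ∈ Set.Icc η (η + δ),
      η * (N * |T s - T' s|) ≤ |s * (N * (1 - T s)) - s * (N' * (1 - T' s))| + η := fun s hs => by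
    have e : |s * (N * (1 - T s)) - s * (N' * (1 - T' s))|
        = s * |((N : ℝ) - N') * (1 - T' s) - N * (T s - T' s)| := by
      rw [show s * ((N : ℝ) * (1 - T s)) - s * (N' * (1 - T' s))
        = s * (((N : ℝ) - N') * (1 - T' s) - N * (T s - T' s)) by ring, abs_mul,
        abs_of_nonneg (show 0 ≤ s by linarith [hs.1])]
    have h1 : N * |T s - T' s| ≤ |((N : ℝ) - N') * (1 - T' s) - N * (T s - T' s)| + 1 := by
      have h2 := abs_sub_abs_le_abs_sub ((N : ℝ) * (T s - T' s)) (((N : ℝ) - N') * (1 - T' s))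
      rw [abs_mul, Nat.abs_cast] at h2
      rw [abs_sub_comm ((N : ℝ) * (T s - T' s)), abs_mul ((N : ℝ) - N')] at h2
      have h3 : |(N : ℝ) - N'| * |1 - T' s| ≤ 1 :=
        mul_le_one₀ hd (abs_nonneg _) (abs_le.2 ⟨by linarith [(hT' s).2], by linarith [(hT' s).1]⟩)
      linarith
    rw [e]
    refine (mul_le_mul_of_nonneg_left h1 hη.le).trans ?_
    rw [mul_add, mul_one]
    exact add_le_add (mul_le_mul_of_nonneg_right hs.1 (abs_nonneg _)) le_rfl
  have hJ : IsFiniteMeasure (volume.restrict (Set.Icc η (η + δ))) :=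
    isFiniteMeasure_restrict.2 measure_Icc_lt_top.ne
  have hdi : IntegrableOn (fun s => |s * (N * (1 - T s)) - s * (N' * (1 - T' s))|)
      (Set.Icc η (η + δ)) := by
    refine Integrable.of_bound ?_ (2 * ((η + δ) * (N + 1))) ?_
    · have hmon : ∀ (F F' : ℝ → ℝ), (∀ x ∈ Set.Icc η (η + δ), ∀ y ∈ Set.Icc η (η + δ),
          F x + (y - x) * F' x ≤ F y) → MonotoneOn F' (Set.Icc η (η + δ)) := fun F F' hF x hx y hy hxy => by
        rcases eq_or_lt_of_le hxy with rfl | hlt
        · exact le_rfl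
        · exact le_of_mul_le_mul_left (show (y - x) * F' x ≤ (y - x) * F' y by
            linarith [hF x hx y hy, hF y hy x hx]) (by linarith)
      have m1 := hmon _ _ fun x _ y _ => amp_line β a c hm hN h τ i x y
      have m2 := hmon _ _ fun x _ y _ => amp_line β a c' hm' hN' h τ i x y
      exact continuous_abs.comp_aestronglyMeasurable
        ((m1.integrableOn_isCompact isCompact_Icc (μ := volume)).1.sub
          (m2.integrableOn_isCompact isCompact_Icc (μ := volume)).1)
    · filter_upwards [ae_restrict_mem measurableSet_Icc] with s hs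
      rw [Real.norm_eq_abs, abs_abs]
      refine (abs_sub _ _).trans ?_
      rw [abs_mul, abs_mul s, abs_mul, abs_mul, Nat.abs_cast, Nat.abs_cast, two_mul]
      have hs' : |s| ≤ η + δ := abs_le.2 ⟨by linarith [hs.1], hs.2⟩
      refine add_le_add (mul_le_mul hs' ?_ (by positivity) (by linarith))
        (mul_le_mul hs' ?_ (by positivity) (by linarith))
      · exact (mul_le_of_le_one_right (Nat.cast_nonneg N)
          (abs_le.2 ⟨by linarith [(hT s).2], by linarith [(hT s).1]⟩)).trans (by linarith)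
      · exact (mul_le_of_le_one_right (Nat.cast_nonneg N')
          (abs_le.2 ⟨by linarith [(hT' s).2], by linarith [(hT' s).1]⟩)).trans (by linarith)
  have hint := setIntegral_mono_on ((hi.const_mul (N : ℝ)).const_mul η) (hdi.add (integrable_const η))
    measurableSet_Icc hpt
  rw [integral_const_mul, integral_const_mul, integral_add' hdi (integrable_const η), setIntegral_const,
    Real.volume_real_Icc_of_le (by linarith), smul_eq_mul, add_sub_cancel_left] at hint
  simp only [add_sub_cancel_left] at hmain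
  refine le_of_mul_le_mul_left ?_ hη
  refine hint.trans ((add_le_add hmain le_rfl).trans (le_of_eq ?_))
  field_simp

/-- The mass, averaged over the shift. -/
theorem shift_close (hm : IsHaarOrth m) (hm' : IsHaarOrth m') (hN : 1 ≤ N) (hN' : 1 ≤ N')
    (hd : |(N : ℝ) - N'| ≤ 1) (hβ : 0 < β) {δ' G w : ℝ} (hδ' : 0 < δ') (hw : 0 < w) (τ : ℕ → ℝ)
    (hG : ∀ s ∈ Set.Icc 0 δ', |N * freeU m k β (raise a s) c (fun _ => 0) τ
        - N' * freeU m' k β (raise a s) c' (fun _ => 0) τ| ≤ G)
    (hi : IntegrableOn (fun s => |pTop m k β (raise a s) c (fun _ => 0) τ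
      - pTop m' k β (raise a s) c' (fun _ => 0) τ|) (Set.Icc 0 δ')) :
    N * ∫ s in Set.Icc 0 δ', |pTop m k β (raise a s) c (fun _ => 0) τ
        - pTop m' k β (raise a s) c' (fun _ => 0) τ|
      ≤ 2 / β * (δ' * (w + 3 * G / w) + 16 * (β / 2 * (N + 1)) * w) + δ' := by
  set p := fun s => pTop m k β (raise a s) c (fun _ => 0) τ
  set p' := fun s => pTop m' k β (raise a s) c' (fun _ => 0) τ
  have hp : ∀ s, 0 ≤ p s ∧ p s ≤ 1 := fun s => pTop_mem β c (fun _ => 0) hm τ _
  have hp' : ∀ s, 0 ≤ p' s ∧ p' s ≤ 1 := fun s => pTop_mem β c' (fun _ => 0) hm' τ _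
  have hd' := abs_le.1 hd
  have hmain := slopes_close (f := fun s => N * freeU m k β (raise a s) c (fun _ => 0) τ)
    (g := fun s => N' * freeU m' k β (raise a s) c' (fun _ => 0) τ)
    (f' := fun s => β / 2 * (N * p s)) (g' := fun s => β / 2 * (N' * p' s))
    hδ'.le hw (R := β / 2 * (N + 1)) (by positivity)
    (fun s _ t _ => shift_line β a c hm hN τ s t) (fun s _ t _ => shift_line β a c' hm' hN' τ s t)
    (fun s _ => by
      rw [abs_mul, abs_of_pos (by positivity : 0 < β / 2),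
        abs_of_nonneg (mul_nonneg (Nat.cast_nonneg N) (hp s).1)]
      refine mul_le_mul_of_nonneg_left ?_ (by positivity)
      exact (mul_le_of_le_one_right (Nat.cast_nonneg N) (hp s).2).trans (by linarith))
    (fun s _ => by
      rw [abs_mul, abs_of_pos (by positivity : 0 < β / 2),
        abs_of_nonneg (mul_nonneg (Nat.cast_nonneg N') (hp' s).1)]
      refine mul_le_mul_of_nonneg_left ?_ (by positivity)
      exact (mul_le_of_le_one_right (Nat.cast_nonneg N') (hp' s).2).trans (by linarith))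
    hG
  have hpt : ∀ s ∈ Set.Icc (0 : ℝ) δ',
      β / 2 * (N * |p s - p' s|) ≤ |β / 2 * (N * p s) - β / 2 * (N' * p' s)| + β / 2 := fun s _ => by
    rw [← mul_sub, abs_mul (β / 2), abs_of_pos (by positivity : 0 < β / 2)]
    rw [← mul_one (β / 2), mul_assoc, mul_assoc, ← mul_add, one_mul, one_mul]
    refine mul_le_mul_of_nonneg_left ?_ (by positivity)
    have h2 := abs_sub_abs_le_abs_sub ((N : ℝ) * (p s - p' s)) (((N' : ℝ) - N) * p' s)
    rw [abs_mul, Nat.abs_cast, abs_mul ((N' : ℝ) - N)] at h2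
    have h3 : |(N' : ℝ) - N| * |p' s| ≤ 1 := by
      rw [abs_sub_comm]
      exact mul_le_one₀ hd (abs_nonneg _) (abs_le.2 ⟨by linarith [(hp' s).1], (hp' s).2⟩)
    rw [show (N : ℝ) * p s - N' * p' s = N * (p s - p' s) - ((N' : ℝ) - N) * p' s by ring]
    linarith
  have hdi : IntegrableOn (fun s => |β / 2 * (N * p s) - β / 2 * (N' * p' s)|) (Set.Icc 0 δ') := by
    have hmon : ∀ (F F' : ℝ → ℝ), (∀ x y, F x + (y - x) * F' x ≤ F y) → Monotone F' :=
      fun F F' hF x y hxy => by
        rcases eq_or_lt_of_le hxy with rfl | hlt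
        · exact le_rfl
        · exact le_of_mul_le_mul_left (show (y - x) * F' x ≤ (y - x) * F' y by
            linarith [hF x y, hF y x]) (by linarith)
    exact (((hmon _ _ fun x y => shift_line β a c hm hN τ x y).monotoneOn _).integrableOn_isCompact
      isCompact_Icc).sub (((hmon _ _ fun x y => shift_line β a c' hm' hN' τ x y).monotoneOn
        _).integrableOn_isCompact isCompact_Icc) |>.abs
  have hJ : IsFiniteMeasure (volume.restrict (Set.Icc (0 : ℝ) δ')) :=
    isFiniteMeasure_restrict.2 measure_Icc_lt_top.ne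
  have hint := setIntegral_mono_on ((hi.const_mul (N : ℝ)).const_mul (β / 2))
    (hdi.add (integrable_const (β / 2))) measurableSet_Icc hpt
  rw [integral_const_mul, integral_const_mul, integral_add' hdi (integrable_const _), setIntegral_const,
    Real.volume_real_Icc_of_le hδ'.le, smul_eq_mul, sub_zero] at hint
  rw [sub_zero] at hmain
  refine le_of_mul_le_mul_left ?_ (by positivity : 0 < β / 2)
  refine hint.trans ((add_le_add hmain le_rfl).trans (le_of_eq ?_))
  field_simp

end Vale.Agent.P166.Rsb.Cav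

namespace Vale.Agent.P166.Rsb

open Cav

/-- A bound on the averages along one amplitude bounds the average over perturbations. -/
theorem Cav.avg_amp_le {k : ℕ} {η δ δ' C A : ℝ} (hδ : 0 < δ) (hδ' : 0 < δ') (i : Fin k)
    {Ψ : (ℕ → ℝ) → ℝ → ℝ} (hm : Measurable fun q : (Fin k → ℝ) × ℝ => Ψ (lift q.1) q.2)
    (hA : ∀ (y : Fin k → ℝ) (h : ℝ), |Ψ (lift y) h| ≤ A)
    (hC : ∀ h : ℝ, 0 ≤ h → h ≤ δ' → ∀ y : Fin k → ℝ, (∀ l, η ≤ y l ∧ y l ≤ η + δ) →
      ∫ s in Set.Icc η (η + δ), Ψ (lift (Function.update y i s)) h ≤ δ * C) :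
    pertAvg k η δ δ' Ψ ≤ C := by
  obtain ⟨hP, hbox⟩ := boxP_facts (fun _ : Fin k => η) hδ
  rw [pertAvg, average_eq', Measure.restrict_apply_univ]
  simp only [P157.Rsb.boxAvg_eq]
  have hv0 : volume (Set.Icc (0 : ℝ) δ') ≠ 0 := by simp [Real.volume_Icc, hδ']
  have hp1 : IsProbabilityMeasure
      ((volume (Set.Icc (0 : ℝ) δ'))⁻¹ • volume.restrict (Set.Icc (0 : ℝ) δ')) := ⟨by
    rw [Measure.smul_apply, Measure.restrict_apply_univ, smul_eq_mul,
      ENNReal.inv_mul_cancel hv0 measure_Icc_lt_top.ne]⟩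
  have hq : Measurable fun p : ℝ × (Fin k → ℝ) => Ψ (lift p.2) p.1 :=
    hm.comp (measurable_snd.prodMk measurable_fst)
  have hi : Integrable (fun h => ∫ y, Ψ (lift y) h ∂boxP (fun _ : Fin k => η) δ)
      ((volume (Set.Icc (0 : ℝ) δ'))⁻¹ • volume.restrict (Set.Icc (0 : ℝ) δ')) :=
    (Integrable.of_bound hq.aestronglyMeasurable A (ae_of_all
      (((volume (Set.Icc (0 : ℝ) δ'))⁻¹ • volume.restrict (Set.Icc (0 : ℝ) δ')).prod
        (boxP (fun _ : Fin k => η) δ)) fun p =>
        (Real.norm_eq_abs _).trans_le (hA p.2 p.1))).integral_prod_left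
  refine (integral_mono_ae hi (integrable_const C) ?_).trans_eq
    (by rw [integral_const, probReal_univ, one_smul])
  filter_upwards [Measure.ae_smul_measure (ae_restrict_mem measurableSet_Icc) _] with h hh
  exact boxP_slice_le hδ i (hm.comp (measurable_id.prodMk measurable_const)) (fun y _ => hA y h)
    fun y hy => hC h hh.1 hh.2 y fun l => hy l trivial

/-- A bound on the averages along the shift bounds the average over perturbations. -/
theorem Cav.avg_shift_le {k : ℕ} {η δ δ' C : ℝ} (hδ : 0 < δ) (hδ' : 0 < δ')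
    {Ψ : (ℕ → ℝ) → ℝ → ℝ} (hΨ : PertInt k η δ δ' Ψ)
    (hC : ∀ y : Fin k → ℝ, (∀ l, η ≤ y l ∧ y l ≤ η + δ) →
      ∫ s in Set.Icc 0 δ', Ψ (lift y) s ≤ δ' * C) :
    pertAvg k η δ δ' Ψ ≤ C := by
  obtain ⟨hP, hbox⟩ := boxP_facts (fun _ : Fin k => η) hδ
  rw [pertAvg_eq hδ hδ' hΨ, pertLaw]
  have hi := hΨ
  unfold PertInt pertLaw at hi
  have hv0 : volume (Set.Icc (0 : ℝ) δ') ≠ 0 := by simp [Real.volume_Icc, hδ']
  have hp1 : IsProbabilityMeasure
      ((volume (Set.Icc (0 : ℝ) δ'))⁻¹ • volume.restrict (Set.Icc (0 : ℝ) δ')) := ⟨by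
    rw [Measure.smul_apply, Measure.restrict_apply_univ, smul_eq_mul,
      ENNReal.inv_mul_cancel hv0 measure_Icc_lt_top.ne]⟩
  rw [integral_prod_symm _ hi]
  refine (integral_mono_ae hi.integral_prod_right (integrable_const C) ?_).trans_eq
    (by rw [integral_const, probReal_univ, one_smul])
  filter_upwards [hbox] with y hy
  rw [integral_smul_measure, ENNReal.toReal_inv, ← measureReal_def,
    Real.volume_real_Icc_of_le hδ'.le, sub_zero, smul_eq_mul, inv_mul_le_iff₀ hδ']
  exact hC y fun l => hy l trivial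

variable {d N N' k : ℕ} {β : ℝ} {a : Fin (d + 1) → ℝ} {c : Fin N → Fin (d + 1)}
  {c' : Fin N' → Fin (d + 1)} {m : Measure (Fin N → Fin N → ℝ)}
  {m' : Measure (Fin N' → Fin N' → ℝ)} {η δ δ' G : ℝ}

theorem Cav.root_scale (hN : 1 ≤ N) :
    1 ≤ √(N : ℝ) ∧ √(N : ℝ) * √(N : ℝ) = N ∧ 1 / √(N : ℝ) ≤ √(N : ℝ) ∧
      ((N : ℝ) + 1) * (1 / √(N : ℝ)) ≤ 2 * √(N : ℝ) := by
  have h1 : (1 : ℝ) ≤ N := Nat.one_le_cast.2 hN
  have hr : 0 < √(N : ℝ) := Real.sqrt_pos.2 (by linarith)
  have hrr : √(N : ℝ) * √(N : ℝ) = N := Real.mul_self_sqrt (by linarith)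
  refine ⟨Real.one_le_sqrt.2 h1, hrr, ?_, ?_⟩
  · rw [div_le_iff₀ hr, hrr]; exact h1
  · rw [mul_one_div, div_le_iff₀ hr, mul_assoc, hrr]; linarith

theorem Cav.tailTop_meas (hm : IsHaarOrth m) (i : Fin k) :
    Measurable fun p : (Fin k → ℝ) × ℝ => tailTop m β a c i (lift p.1) p.2 := by
  unfold tailTop tail
  exact (Finset.measurable_sum _ fun l _ => qTop_meas β a c (fun _ => 0) hm l).const_mul _

theorem Cav.tailDiff_le (hm : IsHaarOrth m) (hm' : IsHaarOrth m') (hN : 1 ≤ N) (hN' : 1 ≤ N')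
    (i : Fin k) (τ : ℕ → ℝ) (h : ℝ) :
    |(|tailTop m β a c i τ h - tailTop m' β a c' i τ h|)| ≤ 1 :=
  (abs_abs _).trans_le (abs_sub_le_of_nonneg_of_le (tailTop_mem β a c hm hN i τ h).1
    (tailTop_mem β a c hm hN i τ h).2 (tailTop_mem β a c' hm' hN' i τ h).1
    (tailTop_mem β a c' hm' hN' i τ h).2)

theorem Cav.tailDiff_int (hm : IsHaarOrth m) (hm' : IsHaarOrth m') (hN : 1 ≤ N) (hN' : 1 ≤ N')
    (hδ : 0 < δ) (hδ' : 0 < δ') (i : Fin k) :
    PertInt k η δ δ' fun τ h => |tailTop m β a c i τ h - tailTop m' β a c' i τ h| := by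
  refine PertInt.of_meas (C := 1) hδ hδ' ?_ fun y h => tailDiff_le hm hm' hN hN' i _ h
  exact continuous_abs.measurable.comp ((tailTop_meas hm i).sub (tailTop_meas hm' i))

/-- One tail, averaged over perturbations. -/
theorem Cav.tail_avg (hm : IsHaarOrth m) (hm' : IsHaarOrth m') (hN : 1 ≤ N) (hN' : 1 ≤ N')
    (hd : |(N : ℝ) - N'| ≤ 1) (hη : 0 < η) (hη1 : η ≤ 1) (hδ : 0 < δ) (hδ1 : δ ≤ 1) (hδ' : 0 < δ')
    (hG : ∀ (y : Fin k → ℝ) (h : ℝ), (∀ l, η ≤ y l ∧ y l ≤ η + δ) → 0 ≤ h → h ≤ δ' →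
      |N * freeU m k β (raise a h) c (fun _ => 0) (lift y)
        - N' * freeU m' k β (raise a h) c' (fun _ => 0) (lift y)| ≤ G)
    (i : Fin k) :
    pertAvg k η δ δ' (fun τ h => |tailTop m β a c i τ h - tailTop m' β a c' i τ h|)
      ≤ (((δ * (1 + 3 * (|G| + 4)) + 16 * ((η + δ) * 2)) / η + δ) / δ) / √(N : ℝ) := by
  obtain ⟨hr1, hrr, hwr, hNr⟩ := root_scale hN
  set r := √(N : ℝ)
  have hr : 0 < r := zero_lt_one.trans_le hr1
  refine avg_amp_le hδ hδ' i (A := 1)
    (continuous_abs.measurable.comp ((tailTop_meas hm i).sub (tailTop_meas hm' i)))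
    (fun y h => tailDiff_le hm hm' hN hN' i _ h) fun h h0 h1 y hy => ?_
  have hupd : ∀ s ∈ Set.Icc η (η + δ), ∀ l,
      η ≤ Function.update y i s l ∧ Function.update y i s l ≤ η + δ := fun s hs l => by
    simp only [Function.update_apply]
    split_ifs
    exacts [hs, hy l]
  have hint : IntegrableOn (fun s => |tailTop m β a c i (Function.update (lift y) ((i : ℕ) + 1) s) h
      - tailTop m' β a c' i (Function.update (lift y) ((i : ℕ) + 1) s) h|) (Set.Icc η (η + δ)) := by
    have hJ : IsFiniteMeasure (volume.restrict (Set.Icc η (η + δ))) :=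
      isFiniteMeasure_restrict.2 measure_Icc_lt_top.ne
    simp only [← lift_update]
    refine Integrable.of_bound ?_ 1 (ae_of_all _ fun s =>
      (Real.norm_eq_abs _).trans_le (tailDiff_le hm hm' hN hN' i _ h))
    exact ((continuous_abs.measurable.comp ((tailTop_meas hm i).sub (tailTop_meas hm' i))).comp
      ((measurable_update y).prodMk measurable_const)).aestronglyMeasurable
  have hac := amp_close (G := |G|) β a c c' hm hm' hN hN' hd hη hδ (w := 1 / r) (by positivity) h
    (lift y) i (fun s hs => by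
      rw [← lift_update]
      exact (hG _ h (hupd s hs) h0 h1).trans (le_abs_self G)) hint
  simp only [lift_update]
  set I := ∫ s in Set.Icc η (η + δ), |tailTop m β a c i (Function.update (lift y) ((i : ℕ) + 1) s) h
      - tailTop m' β a c' i (Function.update (lift y) ((i : ℕ) + 1) s) h|
  have h2 : δ * (1 / r + 3 * (|G| + (η + δ) ^ 2) / (1 / r)) ≤ δ * (1 + 3 * (|G| + 4)) * r := by
    rw [div_div_eq_mul_div, div_one, mul_assoc δ]
    refine mul_le_mul_of_nonneg_left ?_ hδ.le
    have : (η + δ) ^ 2 ≤ 4 := by nlinarith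
    nlinarith
  have h3 : 16 * ((η + δ) * ((N : ℝ) + 1)) * (1 / r) ≤ 16 * ((η + δ) * 2) * r := by
    have := mul_le_mul_of_nonneg_left hNr (by positivity : 0 ≤ 16 * (η + δ))
    linarith
  have h4 := div_le_div_of_nonneg_right (add_le_add h2 h3) hη.le
  have h5 : δ ≤ δ * r := le_mul_of_one_le_right hδ.le hr1
  have hI : r * (r * I) ≤ r * ((δ * (1 + 3 * (|G| + 4)) + 16 * ((η + δ) * 2)) / η + δ) := by
    rw [← mul_assoc, hrr]
    refine hac.trans ((add_le_add h4 h5).trans (le_of_eq ?_))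
    field_simp
  rw [mul_div_assoc', le_div_iff₀ hr, mul_comm]
  refine (le_of_mul_le_mul_left hI hr).trans (le_of_eq ?_)
  field_simp

/-- The mass, averaged over perturbations. -/
theorem Cav.mass_avg (hm : IsHaarOrth m) (hm' : IsHaarOrth m') (hN : 1 ≤ N) (hN' : 1 ≤ N')
    (hd : |(N : ℝ) - N'| ≤ 1) (hβ : 0 < β) (hδ : 0 < δ) (hδ' : 0 < δ')
    (hG : ∀ (y : Fin k → ℝ) (h : ℝ), (∀ l, η ≤ y l ∧ y l ≤ η + δ) → 0 ≤ h → h ≤ δ' →
      |N * freeU m k β (raise a h) c (fun _ => 0) (lift y)
        - N' * freeU m' k β (raise a h) c' (fun _ => 0) (lift y)| ≤ G) :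
    pertAvg k η δ δ' (fun τ h =>
        |pTop m k β (raise a h) c (fun _ => 0) τ - pTop m' k β (raise a h) c' (fun _ => 0) τ|)
      ≤ (2 / β * (δ' * (1 + 3 * (|G| + 4)) + 16 * (β / 2 * 2)) + δ') / δ' / √(N : ℝ) := by
  obtain ⟨hr1, hrr, hwr, hNr⟩ := root_scale hN
  set r := √(N : ℝ)
  have hr : 0 < r := zero_lt_one.trans_le hr1
  refine avg_shift_le hδ hδ'
    ((pertInt_pTop β a c _ hm hδ hδ').sub (pertInt_pTop β a c' _ hm' hδ hδ')).abs fun y hy => ?_
  have hint : IntegrableOn (fun s => |pTop m k β (raise a s) c (fun _ => 0) (lift y)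
      - pTop m' k β (raise a s) c' (fun _ => 0) (lift y)|) (Set.Icc 0 δ') := by
    have hJ : IsFiniteMeasure (volume.restrict (Set.Icc (0 : ℝ) δ')) :=
      isFiniteMeasure_restrict.2 measure_Icc_lt_top.ne
    refine Integrable.of_bound ?_ 1 (ae_of_all _ fun s => (Real.norm_eq_abs _).trans_le
      ((abs_abs _).trans_le (abs_sub_le_of_nonneg_of_le (pTop_mem β c _ hm _ _).1
        (pTop_mem β c _ hm _ _).2 (pTop_mem β c' _ hm' _ _).1 (pTop_mem β c' _ hm' _ _).2)))
    exact ((continuous_abs.measurable.comp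
      ((pTop_meas β a c _ hm).sub (pTop_meas β a c' _ hm'))).comp
      (measurable_const.prodMk measurable_id (f := fun _ : ℝ => y))).aestronglyMeasurable
  have hsc := shift_close (G := |G|) β a c c' hm hm' hN hN' hd hβ hδ' (w := 1 / r) (by positivity)
    (lift y) (fun s hs => (hG y s hy hs.1 hs.2).trans (le_abs_self G)) hint
  set I := ∫ s in Set.Icc 0 δ', |pTop m k β (raise a s) c (fun _ => 0) (lift y)
      - pTop m' k β (raise a s) c' (fun _ => 0) (lift y)|
  have h2 : δ' * (1 / r + 3 * |G| / (1 / r)) ≤ δ' * (1 + 3 * (|G| + 4)) * r := by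
    rw [div_div_eq_mul_div, div_one, mul_assoc δ']
    exact mul_le_mul_of_nonneg_left (by nlinarith) hδ'.le
  have h3 : 16 * (β / 2 * ((N : ℝ) + 1)) * (1 / r) ≤ 16 * (β / 2 * 2) * r := by
    have := mul_le_mul_of_nonneg_left hNr (by positivity : 0 ≤ 16 * (β / 2))
    linarith
  have h4 := mul_le_mul_of_nonneg_left (add_le_add h2 h3) (by positivity : 0 ≤ 2 / β)
  have h5 : δ' ≤ δ' * r := le_mul_of_one_le_right hδ'.le hr1
  have hI : r * (r * I) ≤ r * (2 / β * (δ' * (1 + 3 * (|G| + 4)) + 16 * (β / 2 * 2)) + δ') := by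
    rw [← mul_assoc, hrr]
    refine hsc.trans ((add_le_add h4 h5).trans (le_of_eq ?_))
    ring
  rw [mul_div_assoc', le_div_iff₀ hr, mul_comm]
  refine (le_of_mul_le_mul_left hI hr).trans (le_of_eq ?_)
  field_simp

/-- Overlaps are differences of tails. -/
theorem Cav.path_dist_le (τ : ℕ → ℝ) (h : ℝ) :
    ∑ l ∈ Icc 1 k, |qTop m k β (raise a h) c (fun _ => 0) τ l
        - qTop m' k β (raise a h) c' (fun _ => 0) τ l|
      ≤ 2 * ((k : ℝ) + 1) * k
        * ∑ i : Fin k, |tailTop m β a c i τ h - tailTop m' β a c' i τ h| := by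
  set q := qTop m k β (raise a h) c (fun _ => 0) τ
  set q' := qTop m' k β (raise a h) c' (fun _ => 0) τ
  set S := ∑ i : Fin k, |tailTop m β a c i τ h - tailTop m' β a c' i τ h|
  have hS : 0 ≤ S := sum_nonneg fun _ _ => abs_nonneg _
  have hone : ∀ l, 1 ≤ l → |tail k q l - tail k q' l| ≤ S := fun l hl => by
    by_cases hlk : l ≤ k
    · obtain ⟨i, rfl⟩ : ∃ i, l = i + 1 := ⟨l - 1, by omega⟩
      exact single_le_sum (f := fun i : Fin k => |tailTop m β a c i τ h - tailTop m' β a c' i τ h|)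
        (fun _ _ => abs_nonneg _) (mem_univ ⟨i, by omega⟩)
    · simpa [tail, Icc_eq_empty hlk] using hS
  refine (sum_le_card_nsmul _ _ (2 * ((k : ℝ) + 1) * S) fun l hl => ?_).trans (le_of_eq ?_)
  · obtain ⟨hl1, hl2⟩ := mem_Icc.1 hl
    have e1 := tail_step (k := k) q hl2
    have e2 := tail_step (k := k) q' hl2
    have h1 := abs_le.1 (hone l hl1)
    have h2 := abs_le.1 (hone (l + 1) (by omega))
    have e : P157.Rsb.mass k * |q l - q' l| ≤ 2 * S := by
      rw [← abs_of_pos (P157.Rsb.mass_pos (k := k)), ← abs_mul, mul_sub, e1, e2, abs_le]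
      constructor <;> linarith
    rw [P157.Rsb.mass, one_div_mul_eq_div, div_le_iff₀ (by positivity)] at e
    linarith
  · rw [Nat.card_Icc, nsmul_eq_mul, show k + 1 - 1 = k by omega]
    ring

/-- Systems with values at bounded distance have close overlaps inside the last block. -/
theorem shiftStmt : ShiftStmt := by
  intro d a β hβ k G ε η δ δ' hε hη hδ hδ' hη1 hδ1 hδ'1
  obtain ⟨DT, hDT⟩ : ∃ DT, DT = ((δ * (1 + 3 * (|G| + 4)) + 16 * ((η + δ) * 2)) / η + δ) / δ :=
    ⟨_, rfl⟩
  obtain ⟨DP, hDP⟩ : ∃ DP, DP = (2 / β * (δ' * (1 + 3 * (|G| + 4)) + 16 * (β / 2 * 2)) + δ') / δ' :=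
    ⟨_, rfl⟩
  set D := 2 * ((k : ℝ) + 1) * k * (k * DT) + DP
  refine ⟨max 2 ⌈(D / ε) ^ 2⌉₊, fun N N' hN hN' hd c c' m m' hm hm' hfree => ?_⟩
  have hN1 : 1 ≤ N := le_trans (by omega) hN
  have hN1' : 1 ≤ N' := le_trans (by omega) hN'
  have hG : ∀ (y : Fin k → ℝ) (h : ℝ), (∀ l, η ≤ y l ∧ y l ≤ η + δ) → 0 ≤ h → h ≤ δ' →
      |N * freeU m k β (raise a h) c (fun _ => 0) (lift y)
        - N' * freeU m' k β (raise a h) c' (fun _ => 0) (lift y)| ≤ G := fun y h hy h0 h1 =>
    hfree (lift y) h (fun l => by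
      unfold P157.Rsb.lift
      split_ifs with hl
      · have hb := hy ⟨l - 1, by omega⟩
        exact abs_le.2 ⟨by linarith [hb.1], by linarith [hb.2]⟩
      · rw [abs_zero]; linarith) (by linarith) (by linarith)
  have hTi := fun i : Fin k => tailDiff_int (β := β) (a := a) (c := c) (c' := c') (η := η)
    hm hm' hN1 hN1' hδ hδ' i
  have hsumi := PertInt.sum (η := η) (δ := δ) (δ' := δ') univ fun i (_ : i ∈ univ) => hTi i
  have hPi := ((pertInt_pTop (k := k) (η := η) β a c (fun _ => 0) hm hδ hδ').sub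
    (pertInt_pTop β a c' (fun _ => 0) hm' hδ hδ')).abs
  have hqs := PertInt.sum (η := η) (δ := δ) (δ' := δ') (Icc 1 k) fun l hl =>
    ((pertInt_qTop β a c (fun _ => 0) hm hN1 hδ hδ' (mem_Icc.1 hl).2).sub
      (pertInt_qTop β a c' (fun _ => 0) hm' hN1' hδ hδ' (mem_Icc.1 hl).2)).abs
  refine (pertAvg_mono hδ hδ' (hqs.add hPi) ((hsumi.const_mul (2 * ((k : ℝ) + 1) * k)).add hPi)
    fun y h _ _ _ => add_le_add (path_dist_le _ h) le_rfl).trans ?_
  rw [pertAvg_add hδ hδ' (hsumi.const_mul _) hPi, pertAvg_const_mul hδ hδ' hsumi]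
  have hsum := (pertAvg_eq hδ hδ' hsumi).trans (integral_finsetSum _ fun i _ => hTi i)
  rw [hsum]
  refine (add_le_add (mul_le_mul_of_nonneg_left (sum_le_card_nsmul univ _ (DT / √(N : ℝ))
    fun i _ => (pertAvg_eq hδ hδ' (hTi i)).symm.trans_le ((tail_avg hm hm' hN1 hN1' hd hη hη1 hδ hδ1
      hδ' hG i).trans_eq (by rw [hDT]))) (by positivity))
    ((mass_avg hm hm' hN1 hN1' hd hβ hδ hδ' hG).trans_eq
      (show _ = DP / √(N : ℝ) by rw [hDP]))).trans ?_
  rw [card_univ, Fintype.card_fin, nsmul_eq_mul]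
  have hr : 0 < √(N : ℝ) := Real.sqrt_pos.2 (Nat.cast_pos.2 hN1)
  have hD0 : D / ε ≤ √(N : ℝ) := Real.le_sqrt_of_sq_le ((Nat.le_ceil _).trans
    (Nat.cast_le.2 ((le_max_right _ _).trans hN)))
  rw [div_le_iff₀ hε] at hD0
  calc 2 * ((k : ℝ) + 1) * k * ((k : ℝ) * (DT / √(N : ℝ))) + DP / √(N : ℝ) = D / √(N : ℝ) := by
        simp only [D]; ring
    _ ≤ ε := by rw [div_le_iff₀ hr]; linarith

end Vale.Agent.P166.Rsb
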