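import Vale.Agent.P166.Rsb.Sync.Export
import Vale.Agent.P166.Rsb.Calc
import Vale.Agent.P166.Rsb.HaarGroup
import Vale.Agent.P166.Rsb.Cav.SpinTools

/-!
# P166: the value averaged over small perturbations

`pertF` is the average of `n * freeU` over small amplitudes and shifts.  It does not depend on the
choice of the Haar law and is close to the pressure.  The entropy of the zero path is at most zero.
-/

open MeasureTheory Real Filter Topology Finset
open Vale.Agent.P157.Rsb (lift lift_succ lift_zero mass)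
open Vale.Agent.P157.Cube2 (IsVar spinG spinSup spinObj spinG_tangent spinQ_mem spinQ massK_pos isVar_le)

namespace Vale.Agent.P166.Rsb

variable {d n k : ℕ}

/-- The average of `n * freeU` over small perturbations. -/
noncomputable def pertF (A : Atoms d) (β : ℝ) (k : ℕ) (η δ δ₁ : ℝ) (n : ℕ) (c : Fin n → Fin (d + 1)) : ℝ :=
  pertAvg k η δ δ₁ fun τ h =>
    n * freeU (exists_isHaarOrth n).choose k β (raise A.a h) c (fun _ => 0) τ

/-- There is only one Haar law. -/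
theorem freeU_haar_eq {m m₂ : Measure (Fin n → Fin n → ℝ)} (hm : IsHaarOrth m) (hm₂ : IsHaarOrth m₂)
    (k : ℕ) (β : ℝ) (a : Fin (d + 1) → ℝ) (c : Fin n → Fin (d + 1)) (σ τ : ℕ → ℝ) :
    freeU m k β a c σ τ = freeU m₂ k β a c σ τ := by
  rw [(isInv_zero hm).unique (isInv_zero hm₂)]

theorem sum_lift_le {η δ : ℝ} (hη : 0 ≤ η) {y : Fin k → ℝ} (hy : ∀ l, η ≤ y l ∧ y l ≤ η + δ) :
    ∑ j ∈ Icc 1 k, lift y j ^ 2 ≤ (k : ℝ) * (η + δ) ^ 2 := by
  rw [P157.Rsb.sum_Icc_one, ← Fin.sum_univ_eq_sum_range]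
  simp only [lift_succ]
  refine (sum_le_sum (g := fun _ => (η + δ) ^ 2) fun l _ =>
    pow_le_pow_left₀ (hη.trans (hy l).1) (hy l).2 2).trans_eq ?_
  simp

theorem abs_freeU_box (A : Atoms d) (c : Fin n → Fin (d + 1)) {m : Measure (Fin n → Fin n → ℝ)}
    (hm : IsHaarOrth m) (hn : 1 ≤ n) {β η δ δ₁ : ℝ} (hβ : 0 ≤ β) (hη : 0 ≤ η) {y : Fin k → ℝ} {h : ℝ}
    (h0 : 0 ≤ h) (h1 : h ≤ δ₁) (hy : ∀ l, η ≤ y l ∧ y l ≤ η + δ) :
    |freeU m k β (raise A.a h) c (fun _ => 0) (lift y)|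
      ≤ β / 2 * ((∑ e, |A.a e|) + δ₁) + (k : ℝ) * (η + δ) ^ 2 / 2 := by
  refine (abs_freeU_le (k := k) β (raise A.a h) c hm (fun _ => 0) (lift y) hn).trans (add_le_add ?_ ?_)
  · rw [abs_of_nonneg hβ]
    refine mul_le_mul_of_nonneg_left ?_ (by linarith)
    refine (sum_le_sum fun e _ => abs_add_le (A.a e) _).trans ?_
    rw [sum_add_distrib]
    refine add_le_add le_rfl ?_
    simp only [apply_ite abs, abs_zero, sum_ite_eq', mem_univ, if_true, abs_of_nonneg h0]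
    exact h1
  · refine div_le_div_of_nonneg_right (le_trans (le_of_eq ?_) (sum_lift_le hη hy)) (by norm_num)
    rw [sum_fin_succ k fun j => (0 : ℝ) ^ 2 + lift y j ^ 2]
    simp

theorem pertInt_freeU (A : Atoms d) (c : Fin n → Fin (d + 1)) {m : Measure (Fin n → Fin n → ℝ)}
    (hm : IsHaarOrth m) {β η δ δ₁ : ℝ} (hβ : 0 ≤ β) (hη : 0 ≤ η) (hδ : 0 < δ) (hδ₁ : 0 < δ₁) :
    Syn.PertInt k η δ δ₁ fun τ h => n * freeU m k β (raise A.a h) c (fun _ => 0) τ := by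
  rcases Nat.eq_zero_or_pos n with rfl | hn
  · simpa using Syn.PertInt.const (k := k) (η := η) hδ hδ₁ 0
  have hc := (freeU_continuous (k := k) β A.a c hm hn).1
  have hc' : Continuous fun p : ℝ × (Fin k → ℝ) =>
      freeU m k β (raise A.a p.1) c (fun _ => 0) (lift p.2) := by
    have h := hc.comp (continuous_const.prodMk (continuous_snd.prodMk continuous_fst) :
      Continuous fun p : ℝ × (Fin k → ℝ) => ((fun _ => (0 : ℝ)), p.2, p.1))
    simpa [Function.comp_def, lift_zero] using h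
  refine Syn.PertInt.of_bdd hδ hδ₁ (hc'.measurable.const_mul _)
    (C := n * (β / 2 * ((∑ e, |A.a e|) + δ₁) + (k : ℝ) * (η + δ) ^ 2 / 2)) fun y h h0 h1 hy => ?_
  rw [abs_mul, Nat.abs_cast]
  exact mul_le_mul_of_nonneg_left (abs_freeU_box A c hm hn hβ hη h0 h1 hy) (Nat.cast_nonneg n)

/-- `pertF` grows at most linearly. -/
theorem abs_pertF_le (A : Atoms d) (k : ℕ) {β η δ δ₁ : ℝ} (hβ : 0 ≤ β) (hη : 0 ≤ η) (hδ : 0 < δ) (hδ₁ : 0 < δ₁) :
    ∃ B : ℝ, 0 ≤ B ∧ ∀ (n : ℕ) (c : Fin n → Fin (d + 1)), |pertF A β k η δ δ₁ n c| ≤ B * n := by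
  refine ⟨β / 2 * ((∑ e, |A.a e|) + δ₁) + (k : ℝ) * (η + δ) ^ 2 / 2, by
    have := sum_nonneg (s := (univ : Finset (Fin (d + 1)))) fun e _ => abs_nonneg (A.a e)
    positivity, fun n c => ?_⟩
  set B := β / 2 * ((∑ e, |A.a e|) + δ₁) + (k : ℝ) * (η + δ) ^ 2 / 2
  set m := (exists_isHaarOrth n).choose
  have hm : IsHaarOrth m := (exists_isHaarOrth n).choose_spec
  have hi := pertInt_freeU (k := k) A c hm hβ hη hδ hδ₁
  have hb : ∀ (y : Fin k → ℝ) (h : ℝ), 0 ≤ h → h ≤ δ₁ → (∀ l, η ≤ y l ∧ y l ≤ η + δ) →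
      -(B * n) ≤ n * freeU m k β (raise A.a h) c (fun _ => 0) (lift y) ∧
        n * freeU m k β (raise A.a h) c (fun _ => 0) (lift y) ≤ B * n := fun y h h0 h1 hy => by
    rcases Nat.eq_zero_or_pos n with rfl | hn
    · simp
    obtain ⟨a1, a2⟩ := abs_le.1 (abs_freeU_box A c hm hn hβ hη h0 h1 hy)
    have e1 := mul_le_mul_of_nonneg_left a1 (Nat.cast_nonneg (α := ℝ) n)
    have e2 := mul_le_mul_of_nonneg_left a2 (Nat.cast_nonneg (α := ℝ) n)
    have eB : B = β / 2 * ((∑ e, |A.a e|) + δ₁) + (k : ℝ) * (η + δ) ^ 2 / 2 := rfl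
    rw [← eB] at e1 e2
    constructor <;> linarith
  have l1 := Syn.pertAvg_mono hδ hδ₁ (.const hδ hδ₁ (-(B * n))) hi fun y h h0 h1 hy => (hb y h h0 h1 hy).1
  have l2 := Syn.pertAvg_mono hδ hδ₁ hi (.const hδ hδ₁ (B * n)) fun y h h0 h1 hy => (hb y h h0 h1 hy).2
  rw [Syn.pertAvg_const hδ hδ₁] at l1 l2
  exact abs_le.2 ⟨l1, l2⟩

/-- `pertF` is close to the pressure. -/
theorem pertF_close (A : Atoms d) (c : Fin n → Fin (d + 1)) {m : Measure (Fin n → Fin n → ℝ)}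
    (hm : IsHaarOrth m) (hn : 1 ≤ n) (k : ℕ) {β η δ δ₁ : ℝ} (hβ : 0 ≤ β) (hη : 0 ≤ η) (hδ : 0 < δ) (hδ₁ : 0 < δ₁) :
    |pertF A β k η δ δ₁ n c - n * meanP m β A.a c| ≤ ((k * (η + δ) ^ 2) / 2 + β * δ₁ / 2) * n := by
  set D := ((k : ℝ) * (η + δ) ^ 2) / 2 + β * δ₁ / 2
  have hr : raise A.a 0 = A.a := funext fun e => by simp [raise]
  have hF : pertF A β k η δ δ₁ n c
      = pertAvg k η δ δ₁ fun τ h => n * freeU m k β (raise A.a h) c (fun _ => 0) τ := by
    unfold pertF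
    simp only [freeU_haar_eq (exists_isHaarOrth n).choose_spec hm]
  have hi := pertInt_freeU (k := k) A c hm hβ hη hδ hδ₁
  have hb : ∀ (y : Fin k → ℝ) (h : ℝ), 0 ≤ h → h ≤ δ₁ → (∀ l, η ≤ y l ∧ y l ≤ η + δ) →
      n * meanP m β A.a c - D * n ≤ n * freeU m k β (raise A.a h) c (fun _ => 0) (lift y) ∧
        n * freeU m k β (raise A.a h) c (fun _ => 0) (lift y) ≤ n * meanP m β A.a c + D * n :=
    fun y h h0 h1 hy => by
    have hb := abs_freeU_sub_le (k := k) β A.a c hm hn h (fun _ => 0) (lift y)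
    rw [hr, freeU_zero β A.a c] at hb
    have h2 : |β * h| ≤ β * δ₁ := by
      rw [abs_of_nonneg (mul_nonneg hβ h0)]; exact mul_le_mul_of_nonneg_left h1 hβ
    obtain ⟨a1, a2⟩ := abs_le.1 (hb.trans (show _ ≤ D by simp only [D]; linarith [sum_lift_le hη hy]))
    constructor <;> nlinarith [Nat.cast_nonneg (α := ℝ) n]
  have l1 := Syn.pertAvg_mono hδ hδ₁ (.const hδ hδ₁ _) hi fun y h h0 h1 hy => (hb y h h0 h1 hy).1
  have l2 := Syn.pertAvg_mono hδ hδ₁ hi (.const hδ hδ₁ _) fun y h h0 h1 hy => (hb y h h0 h1 hy).2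
  rw [Syn.pertAvg_const hδ hδ₁] at l1 l2
  rw [hF, abs_le]
  constructor <;> linarith

/-- The one-spin functional is not positive. -/
theorem spinG_nonpos {r : ℕ → ℝ} (hr : IsVar k r) : spinG k r ≤ 0 := by
  have h0 : IsVar k fun _ : ℕ => (0 : ℝ) := ⟨rfl, fun _ _ => le_rfl⟩
  have hz : spinG k (fun _ : ℕ => (0 : ℝ)) = 0 := by
    have e : ∀ i ≤ k, P157.Cube2.spinF k (fun _ : ℕ => (0 : ℝ)) i = fun h => log (cosh h) := fun i hi => by
      refine P157.Cube2.spinF_induction (P := fun i => P157.Cube2.spinF k (fun _ : ℕ => (0 : ℝ)) i = _)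
        P157.Cube2.spinF_top (fun j h1 h2 ih => ?_) hi
      rw [P157.Cube2.spinF_step h1 h2, ih]
      funext h
      simp [P157.Cube2.hT, P157.Cube2.den, log_exp, mul_div_cancel_left₀ _ (P157.Cube2.levK_ne (k := k) h1)]
    simp [spinG, e 0 (Nat.zero_le k)]
  obtain ⟨C, hC⟩ := spinG_slant h0
  have key : ∀ η : ℝ, 0 < η → η ≤ 1 → spinG k r ≤ |C| * √η + k * η := by
    intro η hη hη1
    set rη : ℕ → ℝ := fun l => (0 : ℝ) + η * l
    have hs : ∀ j, 1 ≤ j → j ≤ k → rη (j - 1) < rη j := fun j a b => by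
      have h3 : ((j - 1 : ℕ) : ℝ) + 1 = j := by norm_cast; omega
      simp only [rη]; nlinarith
    have ht := spinG_tangent (k := k) (r := r) (r' := rη) (by simp [rη, hr.1])
      (fun j a b => isVar_le hr (Nat.sub_le j 1) b) hs
    have h2 : ∀ l ∈ Icc 1 k, -((k : ℝ) * η) ≤ spinQ k rη l * (r l - rη l) := fun l hl => by
      obtain ⟨q0, q1⟩ := spinQ_mem (r := rη) (mem_Icc.1 hl).2
      have hlk : (l : ℝ) ≤ k := by exact_mod_cast (mem_Icc.1 hl).2
      have hl0 : 0 ≤ r l := P157.Cube2.isVar_nonneg hr (mem_Icc.1 hl).2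
      have : -((k : ℝ) * η) ≤ r l - rη l := by simp only [rη]; nlinarith
      nlinarith [mul_nonneg (Nat.cast_nonneg (α := ℝ) k) hη.le]
    have h5 := mul_le_mul_of_nonneg_left (sum_le_sum h2) (massK_pos (k := k)).le
    rw [sum_const, Nat.card_Icc, nsmul_eq_mul, Nat.add_sub_cancel] at h5
    have h6 : P157.Rsb.mass k * ((k : ℝ) * ((k : ℝ) * η)) ≤ k * η := by
      rw [← mul_assoc]
      refine mul_le_of_le_one_left (by positivity) ?_
      unfold P157.Rsb.mass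
      rw [div_mul_eq_mul_div, one_mul, div_le_one (by positivity)]
      linarith
    have hc := (abs_le.1 (hC η hη.le hη1)).2
    have hc' := mul_le_mul_of_nonneg_right (le_abs_self C) (sqrt_nonneg η)
    have hrη : spinG k rη = spinG k fun l : ℕ => (fun _ : ℕ => (0 : ℝ)) l + η * l := rfl
    nlinarith [mul_nonneg (Nat.cast_nonneg (α := ℝ) k) hη.le]
  have hlim : Tendsto (fun η : ℝ => |C| * √η + k * η) (𝓝[>] 0) (𝓝 0) := by
    have hc : Continuous fun η : ℝ => |C| * √η + k * η := by fun_prop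
    simpa using (hc.tendsto 0).mono_left nhdsWithin_le_nhds
  refine ge_of_tendsto hlim ?_
  filter_upwards [Ioc_mem_nhdsGT (zero_lt_one' ℝ)] with η hη
  exact key η hη.1 hη.2

/-- The entropy of the zero path is bounded on all grids. -/
theorem exists_spinSup_zero_le : ∃ C : ℝ, ∀ k : ℕ, 1 ≤ k → spinSup k (fun _ => 0) ≤ C := by
  refine ⟨0, fun k _ => csSup_le (P157.Cube2.spin.2.1 k _ ⟨rfl, fun _ _ => le_rfl, zero_le_one⟩).1 ?_⟩
  rintro _ ⟨r, hr, rfl⟩
  simpa [spinObj] using spinG_nonpos hr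

end Vale.Agent.P166.Rsb
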