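import Vale.Agent.P166.Rsb.CalcRoot
import Vale.Agent.P166.Rsb.HaarGroup
import Vale.Agent.P157.Rsb.CalcParam
import Vale.Agent.P157.Rsb.CavStart
import Vale.Agent.P157.Cube2.AuxField

/-!
# P166: comparisons of cascades with masked amplitudes

Adding compensated fields lowers the value; a pointwise larger deterministic part pays for the
compensation.  Also the tangent bound from above by an exponential expectation, and the maps of
index sets and cubes used by the cavity step.
-/

open MeasureTheory ProbabilityTheory Real Finset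
open Vale.Agent.P157 (cubeLaw coin)
open Vale.Agent.P157.Rsb (stdG val cnd lev lev_pos lev_le_one LinB Tame Size gaussSize)

namespace Vale.Agent.P166.Rsb.CavH

section Field

variable {k : ℕ} {ι X : Type} [Fintype ι] [MeasurableSpace X]

omit [MeasurableSpace X] in
/-- Amplitudes switched by a mask. -/
def maskAmp (s : ℕ → ι → ℝ) (m : ι → ℝ) (l : ℕ) (i : ι) : ℝ := s l i * m i

/-- Only the products of amplitudes and values enter. -/
theorem gham_congr {D D' : FData ι X} {s s' : ℕ → ι → ℝ} (hdet : ∀ x, D.det x = D'.det x)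
    (hv : ∀ (l : Fin k) i x, s ((l : ℕ) + 1) i * D.v x i = s' ((l : ℕ) + 1) i * D'.v x i) :
    gham (k := k) D s = gham D' s' := by
  funext z x
  simp only [gham, hdet]
  congr 1
  refine sum_congr rfl fun l _ => sum_congr rfl fun i _ => ?_
  have h := hv l i x
  linear_combination (z l i - (s ((l : ℕ) + 1) i * D.v x i + s' ((l : ℕ) + 1) i * D'.v x i) / 2) * h

variable {μ : Measure X} [IsFiniteMeasure μ] [NeZero μ]

/-- Adding compensated fields lowers the value. -/
theorem gval_mask_le (D : FData ι X) (s : ℕ → ι → ℝ) {m : ι → ℝ} (hm : ∀ i, m i = 0 ∨ m i = 1) :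
    val (k := k) (stdG ι) μ (gham D s) 0 (fun _ _ => 0)
      ≤ val (k := k) (stdG ι) μ (gham D (maskAmp s m)) 0 (fun _ _ => 0) := by
  set d : ℕ → ι → ℝ := fun l i => s l i * (1 - m i)
  have hg : BMeas fun _ : X => (0 : ℝ) := ⟨measurable_const, 0, fun _ => by simp⟩
  have hsh : ∀ u, D.shift _ hg u = D := fun u => by simp [FData.shift]
  set f := fun t => val (k := k) (stdG ι) μ (gham D (lineAmp (maskAmp s m) d t)) 0 fun _ _ => 0
  have hd : ∀ t, HasDerivAt f (-(∑ l : Fin k, ∑ i, t * (d ((l : ℕ) + 1) i ^ 2 *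
      gtail μ k D (lineAmp (maskAmp s m) d t) i ((l : ℕ) + 1)))) t := fun t => by
    have h := gval_line_deriv (k := k) μ D (maskAmp s m) d hg t
    simp only [hsh] at h
    refine h.congr_deriv ?_
    rw [groot, P157.Rsb.cnd_const (gham_linB _ _), zero_sub]
    congr 1
    refine sum_congr rfl fun l _ => sum_congr rfl fun i _ => ?_
    have e : d ((l : ℕ) + 1) i * maskAmp s m ((l : ℕ) + 1) i = 0 := by
      simp only [d, maskAmp]
      rcases hm i with h0 | h0 <;> simp [h0]
    simp only [lineAmp]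
    linear_combination gtail μ k D (lineAmp (maskAmp s m) d t) i ((l : ℕ) + 1) * e
  have h1 : AntitoneOn f (Set.Icc 0 1) := by
    refine antitoneOn_of_hasDerivWithinAt_nonpos (convex_Icc 0 1)
      (fun t _ => (hd t).continuousAt.continuousWithinAt) (fun t _ => (hd t).hasDerivWithinAt)
      fun t ht => neg_nonpos.2 (sum_nonneg fun l _ => sum_nonneg fun i _ => ?_)
    rw [interior_Icc] at ht
    exact mul_nonneg ht.1.le (mul_nonneg (sq_nonneg _)
      (mul_nonneg P157.Rsb.mass_pos.le (sum_nonneg fun j _ => gq_nonneg μ D _ i j)))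
  have h2 := h1 (Set.left_mem_Icc.2 zero_le_one) (Set.right_mem_Icc.2 zero_le_one) zero_le_one
  have e0 : lineAmp (maskAmp s m) d 0 = maskAmp s m := by funext l i; simp [lineAmp]
  have e1 : lineAmp (maskAmp s m) d 1 = s := by
    funext l i
    simp only [lineAmp, d, maskAmp]
    ring
  simpa only [f, e0, e1] using h2

/-- A larger deterministic part pays for the compensation of added fields. -/
theorem gval_mask_add_le (D D' : FData ι X) (hv : D'.v = D.v) (s : ℕ → ι → ℝ) {m : ι → ℝ}
    (hm : ∀ i, m i = 0 ∨ m i = 1) {K : ℝ}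
    (hdet : ∀ x, D.det x + K + ∑ l : Fin k, ∑ i, (1 - m i) * (s ((l : ℕ) + 1) i ^ 2 / 2) * D.v x i ^ 2
      ≤ D'.det x) :
    val (k := k) (stdG ι) μ (gham D (maskAmp s m)) 0 (fun _ _ => 0) + K
      ≤ val (k := k) (stdG ι) μ (gham D' s) 0 (fun _ _ => 0) := by
  have hH := gham_linB (k := k) D (maskAmp s m)
  refine le_trans ?_ (gval_support (μ := μ) (k := k) D D' hv (maskAmp s m) s)
  rw [add_assoc]
  refine add_le_add le_rfl ?_
  have hq : ∀ (l : Fin k) i, (s ((l : ℕ) + 1) i - maskAmp s m ((l : ℕ) + 1) i) *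
        (-maskAmp s m ((l : ℕ) + 1) i * gtail μ k D (maskAmp s m) i ((l : ℕ) + 1))
      - (s ((l : ℕ) + 1) i - maskAmp s m ((l : ℕ) + 1) i) ^ 2 / 2 *
        groot (k := k) μ D (maskAmp s m) (fun _ x => D.v x i ^ 2)
      = -groot (k := k) μ D (maskAmp s m)
          (fun _ x => (1 - m i) * (s ((l : ℕ) + 1) i ^ 2 / 2) * D.v x i ^ 2) := fun l i => by
    rw [show groot (k := k) μ D (maskAmp s m)
        (fun _ x => (1 - m i) * (s ((l : ℕ) + 1) i ^ 2 / 2) * D.v x i ^ 2)
      = (1 - m i) * (s ((l : ℕ) + 1) i ^ 2 / 2) * groot (k := k) μ D (maskAmp s m)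
        (fun _ x => D.v x i ^ 2) from P157.Rsb.cnd_const_mul _ _ _]
    simp only [maskAmp]
    rcases hm i with h0 | h0 <;> simp [h0]
  simp only [hq, sum_neg_distrib, ← sub_eq_add_neg]
  have ht : ∀ (l : Fin k) i, Tame (gaussSize ι) fun (_ : Fin k → ι → ℝ) x =>
      (1 - m i) * (s ((l : ℕ) + 1) i ^ 2 / 2) * D.v x i ^ 2 := fun l i =>
    (tame_v_sq D i).const_mul _
  have hd : Tame (gaussSize ι) fun (_ : Fin k → ι → ℝ) x => D'.det x - D.det x := by
    obtain ⟨B, _, hB⟩ := D.bound
    obtain ⟨B', _, hB'⟩ := D'.bound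
    exact tame_bmeas ⟨D'.det_meas.sub D.det_meas, B' + B,
      fun x => (abs_sub _ _).trans (add_le_add (hB' x).2 (hB x).2)⟩
  have hS : Tame (gaussSize ι) fun (_ : Fin k → ι → ℝ) x =>
      ∑ l : Fin k, ∑ i, (1 - m i) * (s ((l : ℕ) + 1) i ^ 2 / 2) * D.v x i ^ 2 :=
    Tame.sum univ fun l _ => Tame.sum univ fun i _ => ht l i
  simp only [groot]
  rw [sum_congr rfl fun l _ => (P157.Rsb.cnd_finsum hH univ (fun i _ => ht l i) 0 _).symm,
    ← P157.Rsb.cnd_finsum hH univ (fun l _ => Tame.sum univ fun i _ => ht l i) 0 _,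
    ← P157.Rsb.cnd_sub hH hd hS]
  refine (le_of_eq (P157.Rsb.cnd_const hH K 0 _).symm).trans (P157.Rsb.cnd_mono hH
    (Tame.of_bdd measurable_const (B := |K|) fun _ _ => le_rfl) (hd.sub hS) (fun _ x => ?_) 0 _)
  linarith [hdet x]

end Field

section Exp

variable {k : ℕ} {Z X : Type} [MeasurableSpace Z] [MeasurableSpace X] {γ : Measure Z}
  [IsProbabilityMeasure γ] {μ : Measure X} [IsFiniteMeasure μ] [NeZero μ] {w : Size γ}

/-- The value rises by at most the logarithm of the exponential expectation. -/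
theorem val_le_log_cnd {H : (Fin k → Z) → X → ℝ} {D : X → ℝ} (hH : LinB w H) (hD : Measurable D)
    {B : ℝ} (hB : ∀ x, |D x| ≤ B) (j : ℕ) (z : Fin k → Z) :
    val γ μ (fun z x => H z x + D x) j z ≤ val γ μ H j z + log (cnd γ μ H (fun _ x => exp (D x)) j z) := by
  have hH' : LinB w fun z x => H z x + D x := by
    obtain ⟨A, hA, hb⟩ := hH.bound
    refine ⟨hH.meas.add (hD.comp measurable_snd), A + |B|, by positivity, fun z x => ?_⟩
    refine (abs_add_le _ _).trans ((add_le_add (hb z x) ((hB x).trans (le_abs_self B))).trans ?_)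
    nlinarith [w.tot_nonneg z, abs_nonneg B]
  have te : Tame w fun (_ : Fin k → Z) x => exp (D x) :=
    Tame.of_bdd (hD.exp.comp measurable_snd) (B := exp B) fun _ x => by
      rw [abs_of_pos (exp_pos _)]; exact exp_le_exp.2 ((le_abs_self _).trans (hB x))
  have tl : Tame w fun (_ : Fin k → Z) (_ : X) => exp (-B) :=
    Tame.of_bdd measurable_const (B := exp (-B)) fun _ _ => (abs_of_pos (exp_pos _)).le
  have hpos : ∀ j z, 0 < cnd γ μ H (fun _ x => exp (D x)) j z := fun j z => by
    refine (exp_pos (-B)).trans_le ((le_of_eq (P157.Rsb.cnd_const hH _ j z).symm).trans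
      (P157.Rsb.cnd_mono hH tl te (fun _ x => exp_le_exp.2 ?_) j z))
    linarith [(abs_le.1 (hB x)).1]
  induction j using P157.Rsb.levels_induction (k := k) generalizing z with
  | htop j hj =>
    simp only [P157.Rsb.val_of_le hj, P157.Rsb.cnd_of_le hj, P157.Rsb.val_top, P157.Rsb.cnd_top, exp_add]
    have hp := integral_exp_pos (P157.Rsb.integrable_exp_leaf (μ := μ) hH z)
    have hi := P157.Rsb.integrable_exp_leaf (μ := μ) hH' z
    simp only [exp_add] at hi
    have hq : 0 < ∫ x, exp (H z x) * exp (D x) ∂μ := by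
      simpa only [exp_add] using integral_exp_pos (P157.Rsb.integrable_exp_leaf (μ := μ) hH' z)
    simp only [mul_comm (exp (D _))]
    rw [log_div hq.ne' hp.ne']
    linarith
  | hstep j hj hjk ih =>
    set m := lev k j with hm
    have hm0 : 0 < m := lev_pos hj
    have hm1 : m ≤ 1 := lev_le_one (by omega)
    obtain ⟨hu, hp⟩ := P157.Rsb.integrable_val_step (γ := γ) (μ := μ) hH (j := j) z (j - 1)
    obtain ⟨hv, hq⟩ := P157.Rsb.integrable_val_step (γ := γ) (μ := μ) hH' (j := j) z (j - 1)
    have hc := P157.Rsb.integrable_cnd_step (γ := γ) (μ := μ) hH te (j := j) z (j - 1)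
    rw [← hm] at hu hp hv hq hc
    set E := fun y => cnd γ μ H (fun _ x => exp (D x)) j (P157.Rsb.put z (j - 1) y)
    set u := fun y => exp (m * val γ μ H j (P157.Rsb.put z (j - 1) y))
    set C := cnd γ μ H (fun _ x => exp (D x)) (j - 1) z with hC
    have hC0 : 0 < C := hpos _ _
    have hCe : C = (∫ y, E y * u y ∂γ) / ∫ y, u y ∂γ := by
      rw [hC, P157.Rsb.cnd_step hj hjk]
    have hpt : ∀ y, exp (m * val γ μ (fun z x => H z x + D x) j (P157.Rsb.put z (j - 1) y))
        ≤ exp (m * log C) * ((1 - m) * u y + m / C * (E y * u y)) := fun y => by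
      have h1 := ih (P157.Rsb.put z (j - 1) y)
      have hE : 0 < E y := hpos _ _
      refine (exp_le_exp.2 (mul_le_mul_of_nonneg_left h1 hm0.le)).trans ?_
      rw [mul_add, exp_add]
      have h2 : exp (m * log (E y)) ≤ exp (m * log C) * ((1 - m) + m / C * E y) := by
        have h3 := rpow_one_add_le_one_add_mul_self (s := E y / C - 1) (by
          linarith [div_pos hE hC0]) hm0.le hm1
        rw [show 1 + (E y / C - 1) = E y / C by ring, rpow_def_of_pos (div_pos hE hC0),
          log_div hE.ne' hC0.ne'] at h3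
        have h4 : exp (m * log C) * exp ((log (E y) - log C) * m) = exp (m * log (E y)) := by
          rw [← exp_add]; ring_nf
        rw [← h4]
        refine mul_le_mul_of_nonneg_left (h3.trans (le_of_eq ?_)) (exp_pos _).le
        ring
      calc exp (m * val γ μ H j (P157.Rsb.put z (j - 1) y)) * exp (m * log (E y))
          ≤ u y * (exp (m * log C) * ((1 - m) + m / C * E y)) :=
            mul_le_mul_of_nonneg_left h2 (exp_pos _).le
        _ = _ := by ring
    have hI := integral_mono hv (((hu.const_mul (1 - m)).add (hc.const_mul (m / C))).const_mul _) hpt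
    simp only [Pi.add_apply] at hI
    rw [integral_const_mul, integral_add (hu.const_mul _) (hc.const_mul _), integral_const_mul,
      integral_const_mul] at hI
    have e : (1 - m) * ∫ y, u y ∂γ + m / C * ∫ y, E y * u y ∂γ = ∫ y, u y ∂γ := by
      have : ∫ y, E y * u y ∂γ = C * ∫ y, u y ∂γ := by rw [hCe, div_mul_cancel₀ _ hp.ne']
      rw [this]; field_simp; ring
    rw [e] at hI
    rw [P157.Rsb.val_step hj hjk, P157.Rsb.val_step hj hjk, ← hm]
    have h5 := log_le_log hq hI
    rw [log_mul (exp_pos _).ne' hp.ne', log_exp] at h5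
    rw [div_add' _ _ _ hm0.ne', mul_comm (log C), div_le_div_iff_of_pos_right hm0]
    linarith

end Exp

/-- Forgetting coordinates preserves standard Gaussian families. -/
theorem mp_inj {ι ι' : Type} [Fintype ι] [Fintype ι'] {e : ι' → ι} (he : Function.Injective e) :
    MeasurePreserving (fun (w : ι → ℝ) i => w (e i)) (stdG ι) (stdG ι') := by
  classical
  let q := (Equiv.sumCongr (Equiv.ofInjective e he) (Equiv.refl ((Set.range e)ᶜ : Set ι))).trans
    (Equiv.Set.sumCompl (Set.range e))
  have h1 := P157.Rsb.mp_reindex q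
  have h2 := measurePreserving_sumPiEquivProdPi
    (fun _ : ι' ⊕ ((Set.range e)ᶜ : Set ι) => gaussianReal 0 1)
  have h3 := measurePreserving_fst (μ := Measure.pi fun _ : ι' => gaussianReal 0 1)
    (ν := Measure.pi fun _ : ((Set.range e)ᶜ : Set ι) => gaussianReal 0 1)
  exact (h3.comp h2).comp h1

/-- The cube of one more dimension as the cube and the first spin. -/
theorem mp_split (N : ℕ) : MeasurePreserving (fun s : Fin (N + 1) → Bool => ((fun i => s i.succ), s 0))
    (cubeLaw (N + 1)) ((cubeLaw N).prod coin) := by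
  have h1 := measurePreserving_piFinSuccAbove (fun _ : Fin (N + 1) => coin) 0
  have h2 := (Measure.measurePreserving_swap (μ := coin) (ν := cubeLaw N)).comp h1
  have e : (fun s : Fin (N + 1) → Bool => ((fun i => s i.succ), s 0))
      = Prod.swap ∘ MeasurableEquiv.piFinSuccAbove (fun _ : Fin (N + 1) => Bool) 0 := by
    funext s
    simp only [Function.comp_apply, MeasurableEquiv.piFinSuccAbove_apply, Prod.swap,
      Fin.insertNthEquiv_symm_apply]
    exact Prod.ext (funext fun i => by simp [Fin.removeNth]) rfl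
  rw [e]
  exact h2

end Vale.Agent.P166.Rsb.CavH
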