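import Vale.Agent.P166.Rsb.Energy.Rot
import Vale.Agent.P150.Fast.ChiTail
import Vale.Agent.P166.Rsb.CavDefs
import Vale.Agent.P166.Rsb.Cav.HaarTools

/-!
# P166: symmetries used by the cavity step

A rotation that keeps every block changes no value.  Hence the coordinates of the last block are
alike: the second moment of one of them is at most `N / n` and a small exponential moment is bounded.
-/

open MeasureTheory ProbabilityTheory Real Finset Matrix
open Vale.Agent.P157 (cubeLaw)
open Vale.Agent.P157.Rsb (stdG val cnd LinB Tame gaussSize)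
open Vale.Agent.P166.Rsb.Energy (lin blk InBlk dirV zrot mp_zrot)

namespace Vale.Agent.P166.Rsb.CavH

variable {d N k : ℕ}

/-- A rotation that keeps every block. -/
def BlockOrth (c : Fin N → Fin (d + 1)) (P : Fin N → Fin N → ℝ) : Prop :=
  IsOrth P ∧ ∀ i l, c i ≠ c l → P i l = 0

variable {c : Fin N → Fin (d + 1)} {P : Fin N → Fin N → ℝ}

theorem block_comm (hP : BlockOrth c P) (φ : Fin (d + 1) → ℝ) (x : Fin N → ℝ) :
    app P (fun i => φ (c i) * x i) = fun i => φ (c i) * app P x i := by
  funext i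
  simp only [app, mulVec, dotProduct, Matrix.of_apply, mul_sum]
  refine sum_congr rfl fun l _ => ?_
  rcases eq_or_ne (c i) (c l) with h | h
  · rw [h]; ring
  · rw [hP.2 i l h]; ring

theorem block_quad (hP : BlockOrth c P) (φ : Fin (d + 1) → ℝ) (U : Fin N → Fin N → ℝ)
    (s : Fin N → Bool) :
    ∑ i, φ (c i) * rotate (mul P U) s i ^ 2 = ∑ i, φ (c i) * rotate U s i ^ 2 := by
  have e : ∀ x : Fin N → ℝ, ∑ i, φ (c i) * x i ^ 2 = x ⬝ᵥ fun i => φ (c i) * x i := fun x =>
    sum_congr rfl fun i _ => by ring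
  rw [e, e, Energy.rotate_mul_app, ← block_comm hP, app_dot hP.1]

theorem block_line (hP : BlockOrth c P) (φ : Fin (d + 1) → ℝ) (U : Fin N → Fin N → ℝ)
    (s : Fin N → Bool) (y : Fin N → ℝ) :
    ∑ i, φ (c i) * y i * rotate (mul P U) s i = ∑ i, φ (c i) * app (tr P) y i * rotate U s i := by
  have e : ∀ x y : Fin N → ℝ, ∑ i, φ (c i) * y i * x i = y ⬝ᵥ fun i => φ (c i) * x i := fun x y =>
    sum_congr rfl fun i _ => by ring
  rw [e, e, Energy.rotate_mul_app, ← block_comm hP, app_transpose_dot]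

/-- A rotation that keeps every block changes no value. -/
theorem gval_rot (hP : BlockOrth c P) (β : ℝ) (a : Fin (d + 1) → ℝ) (U : Fin N → Fin N → ℝ)
    (S : ℕ → Fld N → ℝ) {t : ℕ → ℝ} (hS : ∀ l i, S l (.inr i) = t l) :
    val (k := k) (stdG (Fld N)) (cubeLaw N) (gham (fdata β a c (mul P U)) S) 0 (fun _ _ => 0)
      = val (k := k) (stdG (Fld N)) (cubeLaw N) (gham (fdata β a c U) S) 0 (fun _ _ => 0) := by
  have h1 : ∀ s, ∑ i, a (c i) * rotate (mul P U) s i ^ 2 = ∑ i, a (c i) * rotate U s i ^ 2 :=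
    block_quad hP a U
  have h2 : ∀ s, ∑ i, (topMask c i * rotate (mul P U) s i) ^ 2 = ∑ i, (topMask c i * rotate U s i) ^ 2 :=
    fun s => by
      simp only [mul_pow]
      exact block_quad hP (fun e => (if e = Fin.last d then (1 : ℝ) else 0) ^ 2) U s
  have h3 : ∀ s (y : Fld N → ℝ), ∑ i, y (.inr i) * (topMask c i * rotate (mul P U) s i)
      = ∑ i, zrot (tr P) y (.inr i) * (topMask c i * rotate U s i) := fun s y => by
    have h := block_line hP (fun e => if e = Fin.last d then (1 : ℝ) else 0) U s fun i => y (.inr i)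
    refine Eq.trans ?_ (h.trans ?_)
    · exact sum_congr rfl fun i _ => by unfold topMask; ring
    · exact sum_congr rfl fun i _ => by
        simp only [zrot, Sum.elim_inr]
        unfold topMask
        ring
  have e : gham (k := k) (fdata β a c (mul P U)) S
      = fun z s => gham (k := k) (fdata β a c U) S (fun l => zrot (tr P) (z l)) (id s) := by
    funext z s
    simp only [gham, fdata, id, enV, h1 s]
    congr 1
    refine sum_congr rfl fun l _ => ?_
    simp only [Fintype.sum_sum_type, fldV, Sum.elim_inl, Sum.elim_inr, sum_sub_distrib, hS, mul_assoc,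
      ← mul_sum, h2 s]
    rw [h3 s (z l)]
    simp only [zrot, Sum.elim_inl]
  have hm := (P157.Rsb.val_map (F := zrot (tr P)) (G := id) (mp_zrot (isOrth_tr hP.1))
    (MeasurePreserving.id (cubeLaw N)) (gham_linB (k := k) (fdata β a c U) S) 0 fun _ _ => 0).1
  rw [e, hm]
  refine congrArg (val (k := k) (stdG (Fld N)) (cubeLaw N) (gham (fdata β a c U) S) 0) ?_
  funext l i
  cases i <;> simp [zrot, app, mulVec, dotProduct]

variable (β : ℝ) (a : Fin (d + 1) → ℝ) (σ τ : ℕ → ℝ)

/-- An expectation at the root is a weighted sum over configurations. -/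
theorem gibR_decomp (U : Fin N → Fin N → ℝ) (φ : (Fin N → Bool) → ℝ) :
    gibR β a c U k σ τ φ = ∑ x, φ x * gibR β a c U k σ τ fun s => if s = x then 1 else 0 := by
  unfold gibR
  simp only [← P157.Rsb.cnd_const_mul]
  rw [← P157.Rsb.cnd_finsum (hamU_linB β a c U σ τ) univ (fun x _ => Energy.tame_leaf _)]
  simp

theorem gibR_rot {b : Fin (d + 1)} {j : Fin N} (hj : c j = b) {w : Fin N → ℝ} (hw : InBlk c b w)
    (U : Fin N → Fin N → ℝ) (φ : (Fin N → Bool) → ℝ) :
    gibR β a c (mul (hh j w) U) k σ τ φ = gibR β a c U k σ τ φ := by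
  have h := (Energy.rot_sys (k := k) β a σ τ hj hw U fun _ => 0).2.1 φ
  have e : ∀ U, Energy.sGib β a c σ τ k U (fun _ => 0) φ = gibR β a c U k σ τ φ := fun U => by
    rw [Energy.sGib, gibR]
    congr 1
    funext z s
    simp [Energy.potH]
  rwa [e, e] at h

variable {m : Measure (Fin N → Fin N → ℝ)} {j : Fin N}

theorem measurable_gibR_lin (φ : ℝ → ℝ) (hφ : Continuous φ) :
    Measurable (Function.uncurry fun (U : Fin N → Fin N → ℝ) (w : Fin N → ℝ) =>
      gibR β a c U k σ τ fun s => φ (lin U w s)) := by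
  refine P157.Rsb.cnd_measurable_param_at
    (H := fun q : (Fin N → Fin N → ℝ) × (Fin N → ℝ) => hamU (k := k) β a c σ τ q.1)
    (φ := fun q (_ : Fin k → Fld N → ℝ) s => φ (lin q.1 q.2 s)) ?_ ?_ 0 _
  · exact (hamU_meas β a c σ τ).comp (f := fun q : (((Fin N → Fin N → ℝ) × (Fin N → ℝ))
      × (Fin k → Fld N → ℝ)) × (Fin N → Bool) => ((q.1.1.1, q.1.2), q.2)) (by fun_prop)
  · exact measurable_from_prod_countable_left fun s =>
      hφ.measurable.comp ((Energy.measurable_lin s).comp measurable_fst)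

theorem dir_same (hm : IsHaarOrth m) (hj : c j = Fin.last d) {w : Fin N → ℝ}
    (hw : InBlk c (Fin.last d) w) (φ : ℝ → ℝ) (hφ : Continuous φ) :
    ∫ U, gibR β a c U k σ τ (fun s => φ (lin U w s)) ∂m
      = ∫ U, gibR β a c U k σ τ (fun s => φ (rotate U s j)) ∂m := by
  have h := Energy.dir_const (j := j) hm (measurable_gibR_lin (k := k) (c := c) β a σ τ φ hφ)
    (fun U w hw => by
      simp only [Energy.lin_rot hw]
      exact gibR_rot β a σ τ hj hw U _) hw
  simpa only [Energy.lin_bas] using h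

theorem card_blk : ((blk c (Fin.last d)).card : ℝ) = nTop c := rfl

theorem nTop_pos (hj : c j = Fin.last d) : 0 < nTop c := by
  rw [← card_blk]
  exact_mod_cast card_pos.2 ⟨j, mem_filter.2 ⟨mem_univ _, hj⟩⟩

/-- The second moment of one coordinate of the last block. -/
theorem int_gibR_sq_le (hm : IsHaarOrth m) (hj : c j = Fin.last d) :
    Integrable (fun U => gibR β a c U k σ τ fun s => rotate U s j ^ 2) m ∧
      ∫ U, gibR β a c U k σ τ (fun s => rotate U s j ^ 2) ∂m ≤ N / nTop c := by
  have := hm.1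
  have hi : ∀ i, Integrable (fun U => gibR β a c U k σ τ fun s => rotate U s i ^ 2) m := fun i =>
    Integrable.of_bound (gibR_meas β a c σ τ (fun s => by unfold rotate; fun_prop)).aestronglyMeasurable N
      (hm.2.1.mono fun U hU => by
        rw [norm_eq_abs]
        refine abs_gibR_le β a c U σ τ fun s => ?_
        rw [abs_pow, sq_abs, ← sum_sq_rotate hU s]
        exact single_le_sum (f := fun i => rotate U s i ^ 2) (fun i _ => sq_nonneg _) (mem_univ i))
  refine ⟨hi j, ?_⟩
  have he : ∀ i ∈ blk c (Fin.last d), ∫ U, gibR β a c U k σ τ (fun s => rotate U s i ^ 2) ∂m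
      = ∫ U, gibR β a c U k σ τ (fun s => rotate U s j ^ 2) ∂m := fun i hi' => by
    have h := dir_same (k := k) β a σ τ hm hj (Energy.inBlk_bas (mem_filter.1 hi').2)
      (fun x => x ^ 2) (by fun_prop)
    simpa only [Energy.lin_bas] using h
  rw [le_div_iff₀' (nTop_pos hj), ← card_blk, ← nsmul_eq_mul, ← sum_const, ← sum_congr rfl he,
    ← integral_finsetSum _ fun i _ => hi i]
  refine (integral_mono_ae (integrable_finsetSum _ fun i _ => hi i) (integrable_const (N : ℝ)) ?_).trans
    (by simp)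
  refine hm.2.1.mono fun U hU => ?_
  simp only [gibR]
  rw [← P157.Rsb.cnd_const (μ := cubeLaw N) (hamU_linB β a c U σ τ (k := k)) (N : ℝ) 0 (fun _ _ => 0),
    ← P157.Rsb.cnd_finsum (hamU_linB β a c U σ τ (k := k)) _ fun i _ => Energy.tame_leaf _]
  refine P157.Rsb.cnd_mono (hamU_linB β a c U σ τ) (Tame.sum _ fun i _ => Energy.tame_leaf _)
    (Energy.tame_leaf fun _ => (N : ℝ)) (fun _ s => ?_) 0 _
  refine (sum_le_sum_of_subset_of_nonneg (subset_univ _) fun i _ _ => sq_nonneg _).trans_eq ?_
  exact sum_sq_rotate hU s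

theorem exp_sum_sq_integrable {t : ℝ} (ht : t < 1 / 2) :
    Integrable (fun g : Fin N → ℝ => exp (t * ∑ i, g i ^ 2)) (stdG (Fin N)) := by
  simp only [mul_sum, exp_sum]
  exact Integrable.fintype_prod (f := fun (_ : Fin N) (x : ℝ) => exp (t * x ^ 2)) fun _ =>
    (P150.Fast.exp_sq_std ht).1

theorem sum_sq_mean (T : Finset (Fin N)) :
    Integrable (fun g : Fin N → ℝ => ∑ i ∈ T, g i ^ 2) (stdG (Fin N)) ∧
      ∫ g, ∑ i ∈ T, g i ^ 2 ∂stdG (Fin N) = T.card := by
  have mp : ∀ i, MeasurePreserving (fun g : Fin N → ℝ => g i) (stdG (Fin N)) (gaussianReal 0 1) :=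
    fun i => measurePreserving_eval (fun _ : Fin N => gaussianReal 0 1) i
  have h2 : Integrable (fun x : ℝ => x ^ 2) (gaussianReal 0 1) :=
    (memLp_id_gaussianReal' (μ := 0) (v := 1) 2 ENNReal.ofNat_ne_top).integrable_sq
  have hv : ∫ x, x ^ 2 ∂gaussianReal 0 1 = 1 := by
    have h := variance_id_gaussianReal (μ := 0) (v := 1)
    rw [variance_of_integral_eq_zero (by fun_prop) (by simp)] at h
    simpa using h
  have hi : ∀ i, Integrable (fun g : Fin N → ℝ => g i ^ 2) (stdG (Fin N)) := fun i =>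
    (mp i).integrable_comp_of_integrable h2
  refine ⟨integrable_finsetSum _ fun i _ => hi i, ?_⟩
  rw [integral_finsetSum _ fun i _ => hi i]
  have : ∀ i, ∫ g : Fin N → ℝ, g i ^ 2 ∂stdG (Fin N) = 1 := fun i => by
    have h := integral_map (mp i).measurable.aemeasurable (μ := stdG (Fin N))
      (f := fun x : ℝ => x ^ 2) (by fun_prop)
    rw [(mp i).map_eq, hv] at h
    exact h.symm
  simp [this]

/-- A small exponential moment of one coordinate of the last block. -/
theorem int_gibR_exp_le (hm : IsHaarOrth m) (hj : c j = Fin.last d) {t : ℝ} (ht : 0 ≤ t)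
    (hN : 8 * t * N ≤ nTop c) :
    ∫ U, gibR β a c U k σ τ (fun s => exp (t * rotate U s j ^ 2)) ∂m ≤ 2 := by
  classical
  have := hm.1
  set T := blk c (Fin.last d)
  set n := nTop c
  have hn : 0 < n := nTop_pos hj
  set q := t / n
  have hq : 0 ≤ q := by positivity
  have hqN : q * N ≤ 1 / 8 := by
    rw [div_mul_eq_mul_div, div_le_iff₀ hn]; linarith
  set r2 : (Fin N → ℝ) → ℝ := fun g => ∑ i ∈ T, g i ^ 2
  set F : (Fin N → Fin N → ℝ) → (Fin N → ℝ) → ℝ := fun U g =>
    gibR β a c U k σ τ fun s => exp (q * r2 g * rotate U s j ^ 2)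
  set E := fun g : Fin N → ℝ => exp (1 / 8 * ∑ i, g i ^ 2)
  have hE : Integrable E (stdG (Fin N)) := exp_sum_sq_integrable (by norm_num)
  have hr : ∀ g, 0 ≤ r2 g ∧ r2 g ≤ ∑ i, g i ^ 2 := fun g =>
    ⟨sum_nonneg fun i _ => sq_nonneg _, sum_le_sum_of_subset_of_nonneg (subset_univ _) fun i _ _ => sq_nonneg _⟩
  have hw2 : ∀ U, IsOrth U → ∀ s i, rotate U s i ^ 2 ≤ (N : ℝ) := fun U hU s i => by
    rw [← sum_sq_rotate hU s]
    exact single_le_sum (f := fun i => rotate U s i ^ 2) (fun i _ => sq_nonneg _) (mem_univ i)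
  have hb : ∀ U, IsOrth U → ∀ g s, q * r2 g * rotate U s j ^ 2 ≤ 1 / 8 * ∑ i, g i ^ 2 := fun U hU g s => by
    calc q * r2 g * rotate U s j ^ 2 ≤ q * r2 g * N :=
          mul_le_mul_of_nonneg_left (hw2 U hU s j) (mul_nonneg hq (hr g).1)
      _ = q * N * r2 g := by ring
      _ ≤ 1 / 8 * ∑ i, g i ^ 2 := mul_le_mul hqN (hr g).2 (hr g).1 (by norm_num)
  have hFm : Measurable (Function.uncurry F) := by
    refine P157.Rsb.cnd_measurable_param_at
      (H := fun p : (Fin N → Fin N → ℝ) × (Fin N → ℝ) => hamU (k := k) β a c σ τ p.1)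
      (φ := fun p (_ : Fin k → Fld N → ℝ) s => exp (q * r2 p.2 * rotate p.1 s j ^ 2)) ?_ ?_ 0 _
    · exact (hamU_meas β a c σ τ).comp (f := fun p : (((Fin N → Fin N → ℝ) × (Fin N → ℝ))
        × (Fin k → Fld N → ℝ)) × (Fin N → Bool) => ((p.1.1.1, p.1.2), p.2)) (by fun_prop)
    · exact measurable_from_prod_countable_left fun s => by simp only [r2]; unfold rotate; fun_prop
  have hFi : Integrable (Function.uncurry F) (m.prod (stdG (Fin N))) := by
    refine ((integrable_const (1 : ℝ)).mul_prod hE).mono' hFm.aestronglyMeasurable ?_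
    exact (Measure.quasiMeasurePreserving_fst.ae hm.2.1).mono fun p hp => by
      rw [one_mul, norm_eq_abs]
      exact abs_gibR_le β a c p.1 σ τ fun s => by
        rw [abs_of_pos (exp_pos _)]; exact exp_le_exp.2 (hb p.1 hp p.2 s)
  have hL : Integrable (fun U => gibR β a c U k σ τ fun s => exp (t * rotate U s j ^ 2)) m :=
    Integrable.of_bound (gibR_meas β a c σ τ (fun s => by unfold rotate; fun_prop)).aestronglyMeasurable
      (exp (t * N)) (hm.2.1.mono fun U hU => by
        rw [norm_eq_abs]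
        refine abs_gibR_le β a c U σ τ fun s => ?_
        rw [abs_of_pos (exp_pos _)]
        exact exp_le_exp.2 (mul_le_mul_of_nonneg_left (hw2 U hU s j) ht))
  -- the mean over a squared Gaussian length
  have h1 : ∫ U, gibR β a c U k σ τ (fun s => exp (t * rotate U s j ^ 2)) ∂m
      ≤ ∫ U, ∫ g, F U g ∂stdG (Fin N) ∂m := by
    refine integral_mono_ae hL hFi.integral_prod_left (hm.2.1.mono fun U hU => ?_)
    have hi : ∀ x, Integrable (fun g => exp (q * r2 g * rotate U x j ^ 2)) (stdG (Fin N)) := fun x =>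
      hE.mono' (show Measurable fun g => exp (q * r2 g * rotate U x j ^ 2) by
        simp only [r2]; fun_prop).aestronglyMeasurable (ae_of_all _ fun g => by
        rw [norm_of_nonneg (exp_pos _).le]; exact exp_le_exp.2 (hb U hU g x))
    simp only [F, gibR_decomp (c := c) β a σ τ U fun s => exp (q * r2 _ * rotate U s j ^ 2)]
    rw [gibR_decomp β a σ τ U, integral_finsetSum _ fun x _ => (hi x).mul_const _]
    refine sum_le_sum fun x _ => ?_
    rw [integral_mul_const]
    refine mul_le_mul_of_nonneg_right ?_ (P157.Rsb.cnd_nonneg (fun _ s => by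
      dsimp only; split_ifs <;> norm_num) 0 _)
    set u := q * rotate U x j ^ 2
    obtain ⟨hs, hsm⟩ := sum_sq_mean (N := N) T
    have hsn : (T.card : ℝ) = n := rfl
    have hlow : ∀ g, exp (u * n) * (1 + u * (r2 g - n)) ≤ exp (q * r2 g * rotate U x j ^ 2) := fun g => by
      calc exp (u * n) * (1 + u * (r2 g - n)) ≤ exp (u * n) * exp (u * (r2 g - n)) :=
            mul_le_mul_of_nonneg_left (by linarith [add_one_le_exp (u * (r2 g - n))]) (exp_pos _).le
        _ = _ := by rw [← exp_add]; simp only [u]; ring_nf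
    have hint : Integrable (fun g => exp (u * n) * (1 + u * (r2 g - n))) (stdG (Fin N)) :=
      ((integrable_const (1 : ℝ)).add ((hs.sub (integrable_const n)).const_mul u)).const_mul _
    refine le_trans (le_of_eq ?_) (integral_mono hint (hi x) hlow)
    have hz : ∫ g, u * (r2 g - n) ∂stdG (Fin N) = 0 := by
      rw [integral_const_mul, integral_sub hs (integrable_const n), hsm, integral_const, probReal_univ,
        one_smul, hsn, sub_self, mul_zero]
    have h0 : Integrable (fun g => u * (r2 g - n)) (stdG (Fin N)) :=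
      (hs.sub (integrable_const n)).const_mul u
    rw [integral_const_mul, integral_add (integrable_const _) h0, hz, integral_const,
      probReal_univ, one_smul, add_zero, mul_one]
    simp only [u, q]
    congr 1
    field_simp
  -- a rotation inside the block for every length
  have h2 : ∀ g, ∫ U, F U g ∂m = ∫ U, gibR β a c U k σ τ
      (fun s => exp (q * (∑ i ∈ T, g i * rotate U s i) ^ 2)) ∂m := fun g => by
    have h := dir_same (k := k) β a σ τ hm hj (Energy.inBlk_dirV (b := Fin.last d) hj g)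
      (fun x => exp (q * r2 g * x ^ 2)) (by fun_prop)
    rw [← h]
    refine integral_congr_ae (ae_of_all _ fun U => congrArg (gibR β a c U k σ τ) (funext fun s => ?_))
    rw [Energy.lin_dirV U s g, mul_pow, Real.sq_sqrt (hr g).1]
    simp only [r2, T]
    ring_nf
  refine h1.trans ?_
  set G : (Fin N → Fin N → ℝ) → (Fin N → ℝ) → ℝ := fun U g =>
    gibR β a c U k σ τ fun s => exp (q * (∑ i ∈ T, g i * rotate U s i) ^ 2)
  have hGm : Measurable (Function.uncurry G) := by
    refine P157.Rsb.cnd_measurable_param_at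
      (H := fun p : (Fin N → Fin N → ℝ) × (Fin N → ℝ) => hamU (k := k) β a c σ τ p.1)
      (φ := fun p (_ : Fin k → Fld N → ℝ) s => exp (q * (∑ i ∈ T, p.2 i * rotate p.1 s i) ^ 2)) ?_ ?_ 0 _
    · exact (hamU_meas β a c σ τ).comp (f := fun p : (((Fin N → Fin N → ℝ) × (Fin N → ℝ))
        × (Fin k → Fld N → ℝ)) × (Fin N → Bool) => ((p.1.1.1, p.1.2), p.2)) (by fun_prop)
    · exact measurable_from_prod_countable_left fun s => by unfold rotate; fun_prop
  have hGi : Integrable (Function.uncurry G) (m.prod (stdG (Fin N))) := by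
    refine ((integrable_const (1 : ℝ)).mul_prod hE).mono' hGm.aestronglyMeasurable ?_
    refine (Measure.quasiMeasurePreserving_fst.ae hm.2.1).mono fun p hp => ?_
    rw [one_mul, norm_eq_abs]
    refine abs_gibR_le β a c p.1 σ τ fun s => ?_
    rw [abs_of_pos (exp_pos _)]
    refine exp_le_exp.2 ?_
    refine (mul_le_mul_of_nonneg_left (sum_mul_sq_le_sq_mul_sq T (fun i => p.2 i) fun i => rotate p.1 s i)
      hq).trans ?_
    calc q * ((∑ i ∈ T, p.2 i ^ 2) * ∑ i ∈ T, rotate p.1 s i ^ 2)
        ≤ q * ((∑ i, p.2 i ^ 2) * N) := by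
          refine mul_le_mul_of_nonneg_left (mul_le_mul (hr p.2).2 ?_ (sum_nonneg fun i _ => sq_nonneg _)
            (sum_nonneg fun i _ => sq_nonneg _)) hq
          exact (sum_le_sum_of_subset_of_nonneg (subset_univ _) fun i _ _ => sq_nonneg _).trans_eq
            (sum_sq_rotate hp s)
      _ = q * N * ∑ i, p.2 i ^ 2 := by ring
      _ ≤ _ := mul_le_mul_of_nonneg_right hqN (sum_nonneg fun i _ => sq_nonneg _)
  rw [integral_integral_swap hFi]
  simp only [h2]
  rw [← integral_integral_swap hGi]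
  refine (integral_mono_ae hGi.integral_prod_left (integrable_const (2 : ℝ)) ?_).trans (by simp)
  refine hm.2.1.mono fun U hU => ?_
  have hv : ∀ x, Integrable (fun g => exp (q * (∑ i ∈ T, g i * rotate U x i) ^ 2)) (stdG (Fin N)) ∧
      ∫ g, exp (q * (∑ i ∈ T, g i * rotate U x i) ^ 2) ∂stdG (Fin N) ≤ 2 := fun x => by
    have h := Energy.dot_sq_exp (v := fun i => if i ∈ T then rotate U x i else 0) hq (by
      calc q * ∑ i, (if i ∈ T then rotate U x i else 0) ^ 2 ≤ q * N := by
            refine mul_le_mul_of_nonneg_left ((sum_le_sum fun i _ => ?_).trans_eq (sum_sq_rotate hU x)) hq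
            split_ifs
            · exact le_rfl
            · simpa using sq_nonneg _
        _ ≤ _ := hqN.trans (by norm_num))
    simp only [ite_mul, zero_mul, sum_ite_mem, univ_inter, mul_comm (rotate U x _)] at h
    exact h
  dsimp only
  rw [integral_congr_ae (μ := stdG (Fin N)) (ae_of_all _ fun g => show Function.uncurry G (U, g) = _ from
    gibR_decomp β a σ τ U fun s => exp (q * (∑ i ∈ T, g i * rotate U s i) ^ 2))]
  rw [integral_finsetSum _ fun x _ => (hv x).1.mul_const _]
  have hone : ∑ x, (2 : ℝ) * gibR β a c U k σ τ (fun s => if s = x then 1 else 0) = 2 := by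
    rw [← gibR_decomp β a σ τ U fun _ => (2 : ℝ)]
    exact P157.Rsb.cnd_const (hamU_linB β a c U σ τ) 2 0 _
  refine le_trans (sum_le_sum fun x _ => ?_) hone.le
  rw [integral_mul_const]
  exact mul_le_mul_of_nonneg_right (hv x).2 (P157.Rsb.cnd_nonneg (fun _ s => by
    dsimp only; split_ifs <;> norm_num) 0 _)

end Vale.Agent.P166.Rsb.CavH
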