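import Vale.Agent.P166.Rsb.Cav.LowPins
import Vale.Agent.P166.Rsb.Cav.KerFacts
import Vale.Agent.P166.Rsb.Cav.SpinTools
import Vale.Agent.P166.Rsb.FormulaEng
import Vale.Agent.P166.Rsb.FormulaApprox

/-!
# P166: one step is at least the variational value

The gain at the exact weights is the functional at the image of the kernel.  By consistency the
variances of the new spin nearly solve the one-spin problem of that path, which is concave.
-/

open MeasureTheory Real Finset
open Vale.Agent.P157.Rsb (lev tail IsPath)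
open Vale.Agent.P157.Cube2 (IsVar spinG spinSup spinObj spinTail bump)
open Vale.Agent.P166.Rsb.Slot (IsKer)

namespace Vale.Agent.P166.Rsb

variable {d k : ℕ}

theorem Atoms.up_a (A : Atoms d) {h : ℝ} (hh : 0 ≤ h) : (A.up h).a = raise A.a h := by
  show raise A.a (max h 0) = _
  rw [max_eq_left hh]

/-- The energy functional moves little with the shift of the top atom. -/
theorem Atoms.abs_eng_up_le (A : Atoms d) {β h : ℝ} (hβ : 0 ≤ β) (hh : 0 ≤ h) {q : ℕ → ℝ}
    (hq : IsPath k q) :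
    |eng (A.up h).law (A.up h).top β k q - eng A.law A.top β k q| ≤ β * h / 2 := by
  set P : Measure (Fin (d + 1)) := ∑ e, ENNReal.ofReal (A.w e) • Measure.dirac e
  have : IsProbabilityMeasure P := ⟨by
    simp [P, Measure.coe_finsetSum, ← ENNReal.ofReal_sum_of_nonneg fun e _ => (A.w_pos e).le, A.w_sum]⟩
  have hlaw : ∀ B : Atoms d, B.w = A.w → P.map B.a = B.law := fun B hB => by
    refine Measure.ext fun S hS => ?_
    rw [Measure.map_apply (measurable_of_countable _) hS]
    simp only [P, Atoms.law, hB, Measure.coe_finsetSum, Finset.sum_apply, Measure.smul_apply,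
      Measure.dirac_apply' _ hS, Measure.dirac_apply' _ (measurable_of_countable B.a hS)]
    rfl
  have hup : ∀ e, A.a e ≤ (A.up h).a e ∧ (A.up h).a e ≤ A.a e + h := fun e => by
    rw [A.up_a hh, raise]
    constructor <;> split_ifs <;> linarith
  have hmem : ∀ (B : Atoms d), A.a 0 ≤ B.a 0 → ∀ᵐ e ∂P, B.a e ∈ Set.Icc (A.a 0) B.top := fun B h0 =>
    ae_of_all _ fun e => ⟨h0.trans (B.mono.monotone (Fin.zero_le e)), B.mono.monotone (Fin.le_last e)⟩
  have hd : ∀ e, |(A.up h).a e - A.a e| ≤ h := fun e => by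
    rw [abs_of_nonneg (sub_nonneg.2 (hup e).1)]; linarith [(hup e).2]
  have h1 := abs_eng_map_sub_le (P := P) (r₁ := (A.up h).a) (r₂ := A.a) (b₁ := (A.up h).top)
    (b₂ := A.top) (δ := h) (c := A.a 0) (measurable_of_countable _) (measurable_of_countable _)
    (hmem (A.up h) (hup 0).1) (hmem A le_rfl) (hd _) (ae_of_all _ hd) hβ hq
  rwa [hlaw (A.up h) rfl, hlaw A rfl] at h1

/-- The distance of the tails is the distance of the paths. -/
theorem abs_tail_sub_le (q q' : ℕ → ℝ) {j : ℕ} (hj : 1 ≤ j) :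
    |tail k q j - tail k q' j| ≤ P157.Rsb.mass k * ∑ l ∈ Icc 1 k, |q l - q' l| := by
  rw [tail, tail, ← mul_sub, ← sum_sub_distrib, abs_mul, abs_of_nonneg P157.Rsb.mass_pos.le]
  exact mul_le_mul_of_nonneg_left ((abs_sum_le_sum_abs _ _).trans
    (sum_le_sum_of_subset_of_nonneg (Icc_subset_Icc_left hj) fun _ _ _ => abs_nonneg _))
    P157.Rsb.mass_pos.le

/-- A slant of the variances costs little in the dual objective. -/
theorem spinObj_slant_le {q r : ℕ → ℝ} (hq : IsPath k q) (hr : IsVar k r) {η δ : ℝ} (hη : 0 ≤ η)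
    (hδ : η * k ≤ δ) :
    IsVar k (fun l => r l + η * l) ∧ (∀ l ∈ Icc 1 k, |r l + η * l - r l| ≤ δ) ∧
      spinObj k q (fun l => r l + η * l) ≤ spinObj k q r + δ := by
  have hv : IsVar k fun l => r l + η * l := ⟨by simp [hr.1], fun j hj => by
    have := hr.2 j hj
    push_cast
    linarith⟩
  have hl : ∀ l ∈ Icc 1 k, |r l + η * l - r l| ≤ δ := fun l hl => by
    rw [add_sub_cancel_left, abs_of_nonneg (by positivity)]
    exact (mul_le_mul_of_nonneg_left (by exact_mod_cast (mem_Icc.1 hl).2) hη).trans hδ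
  have hδ0 : 0 ≤ δ := le_trans (by positivity) hδ
  refine ⟨hv, hl, ?_⟩
  have h1 := (abs_le.1 (abs_spinG_sub_le hv hr hδ0 hl)).2
  have h2 : ∀ l ∈ Icc 1 k, q l * (η * l) ≤ δ := fun l hl' => by
    have h3 := P157.Cube2.isPath_mem hq (mem_Icc.1 hl').2
    have h4 := hl l hl'
    rw [add_sub_cancel_left, abs_of_nonneg (by positivity)] at h4
    exact (mul_le_of_le_one_left (by positivity) h3.2).trans h4
  have h5 := mass_sum_const_le (k := k) δ hδ0 h2
  simp only [spinObj, mul_add, sum_add_distrib]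
  linarith

/-- Consistency: the variances of the new spin have nearly the tails of the image. -/
theorem tail_image_le {Ce Ca s E img M : ℝ} {r qA q V : ℕ → ℝ}
    (hexp : ∀ j ∈ Icc 1 k,
      |spinG k (bump r j s) - spinG k r + s / 2 * spinTail k r j| ≤ Ce * (s * √s))
    (hcons : ∀ j ∈ Icc 1 k,
      |spinG k (bump r j s) - spinG k r + s / 2 * tail k qA j| ≤ E + Ca * (s * √s))
    (hs : 0 < s) (hE : 0 ≤ E) (hM : M ≠ 0) (hq : IsPath k q) (hqV : ∀ l, q l = imgQ k V l / M)
    (himg : |M - 1| + P157.Rsb.mass k * ∑ l ∈ Icc 1 k, |qA l - imgQ k V l| ≤ img) :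
    ∀ j ∈ Icc 1 k, |tail k q j - spinTail k r j| ≤ img + 4 * E / s + 2 * (Ca + Ce) * √s := by
  intro j hj
  have a := abs_le.1 (hcons j hj)
  have b := abs_le.1 (hexp j hj)
  have h1 : |tail k qA j - spinTail k r j| ≤ 4 * E / s + 2 * (Ca + Ce) * √s := by
    rw [div_add' _ _ _ hs.ne', le_div_iff₀ hs, ← abs_of_pos hs, ← abs_mul, abs_le, abs_of_pos hs]
    constructor <;> linarith [a.1, a.2, b.1, b.2]
  have h2 : |tail k q j - tail k qA j| ≤ img := by
    refine (abs_tail_sub_le q qA (mem_Icc.1 hj).1).trans ?_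
    have h3 : ∀ l ∈ Icc 1 k, |q l - qA l| ≤ |M - 1| + |qA l - imgQ k V l| := fun l hl => by
      refine (abs_sub_le _ (imgQ k V l) _).trans (add_le_add ?_ (abs_sub_comm _ _).le)
      have e1 : q l - imgQ k V l = q l * (1 - M) := by
        rw [hqV l]
        field_simp
      have h4 := P157.Cube2.isPath_mem hq (mem_Icc.1 hl).2
      rw [e1, abs_mul, abs_sub_comm, abs_of_nonneg h4.1]
      exact mul_le_of_le_one_left (abs_nonneg _) h4.2
    refine le_trans (mul_le_mul_of_nonneg_left (sum_le_sum h3) P157.Rsb.mass_pos.le) (le_trans ?_ himg)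
    rw [sum_add_distrib, mul_add]
    exact add_le_add (mass_sum_const_le (k := k) |M - 1| (abs_nonneg _) (f := fun _ => |M - 1|)
      fun _ _ => le_rfl) le_rfl
  refine (abs_sub_le _ (tail k qA j) _).trans ?_
  linarith

/-- Variances with nearly the tails of a path bound the variational value. -/
theorem variational_le (A : Atoms d) {β h e R C Cl Ct s E0 I : ℝ} {q r : ℕ → ℝ} (hβ : 0 < β)
    (hh : 0 ≤ h) (he : 0 < e) (he1 : e ≤ 1) (hs : 0 < s) (hs1 : s ≤ 1) (hk : 1 ≤ k)
    (hCl : 0 ≤ Cl) (hCt : 0 ≤ Ct) (hE0 : 0 ≤ E0) (hq : IsPath k q) (hr : IsVar k r) (hrk : r k ≤ C)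
    (hlip : ∀ q q', IsPath k q → IsPath k q' → |eng A.law A.top β k q' - eng A.law A.top β k q|
      ≤ β * (Cl * (P157.Rsb.mass k * ∑ l ∈ Icc 1 k, |q' l - q l|)))
    (hclose : ∀ r', IsVar k r' → (∀ l ∈ Icc 1 k, |r l - r' l| ≤ s ^ 2) → ∀ j ∈ Icc 1 k,
      |spinTail k r j - spinTail k r' j| ≤ Ct * (s ^ 2 / s + √s))
    (hcap : ∀ r', IsVar k r' → (∀ j < k, r' j < r' (j + 1)) → ∀ ε : ℝ,
      (∀ j ∈ Icc 1 k, |tail k q j - spinTail k r' j| ≤ ε) →
        spinSup k (fun l => (1 - e) * q l) ≤ spinObj k q r' + ε / 2 * (R + r' k) + e)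
    (htail : ∀ j ∈ Icc 1 k, |tail k q j - spinTail k r j| ≤ E0)
    (hI : ∀ q, IsPath k q → I ≤ spinSup k q + eng A.law A.top β k q) :
    I ≤ spinObj k q r + eng (A.up h).law (A.up h).top β k q + β * h / 2 + β * (Cl * e) + √s + e
      + (E0 + 2 * Ct * √s) / 2 * (R + C + 1) := by
  have hk' : (0 : ℝ) < k := by exact_mod_cast hk
  have hsq : s ^ 2 ≤ √s := by
    refine (pow_le_of_le_one hs.le hs1 two_ne_zero).trans ?_
    rw [le_sqrt hs.le hs.le]
    exact pow_le_of_le_one hs.le hs1 two_ne_zero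
  set η := s ^ 2 / k
  have hηk : η * k ≤ s ^ 2 := le_of_eq (div_mul_cancel₀ _ hk'.ne')
  have hη : 0 < η := by positivity
  obtain ⟨hv, hl, hobj⟩ := spinObj_slant_le hq hr hη.le hηk
  have htail' : ∀ j ∈ Icc 1 k, |tail k q j - spinTail k (fun l => r l + η * l) j|
      ≤ E0 + 2 * Ct * √s := fun j hj => by
    have a := hclose _ hv (fun l hl' => by rw [abs_sub_comm]; exact hl l hl') j hj
    have hss : s ^ 2 / s ≤ √s := by
      rw [pow_two, mul_div_assoc, div_self hs.ne', mul_one, le_sqrt hs.le hs.le]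
      exact pow_le_of_le_one hs.le hs1 two_ne_zero
    have b := mul_le_mul_of_nonneg_left (add_le_add hss (le_refl √s)) hCt
    refine (abs_sub_le _ (spinTail k r j) _).trans ?_
    linarith [htail j hj]
  have hsup := hcap _ hv (fun j hj => by
    have := hr.2 j hj
    push_cast
    linarith) _ htail'
  have hqd : IsPath k fun l => (1 - e) * q l := by
    refine ⟨by simp [hq.1], fun j hj => mul_le_mul_of_nonneg_left (hq.2.1 j hj) (sub_nonneg.2 he1), ?_⟩
    nlinarith [(P157.Cube2.isPath_mem hq (le_refl k)).1, (P157.Cube2.isPath_mem hq (le_refl k)).2]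
  have a := (abs_le.1 (A.abs_eng_up_le hβ.le hh hq)).1
  have b := (abs_le.1 (hlip q _ hq hqd)).2
  have c := mul_le_mul_of_nonneg_left (mul_le_mul_of_nonneg_left (mass_sum_const_le (k := k) e he.le
    (f := fun l => |(1 - e) * q l - q l|) fun l hl => by
      have h4 := P157.Cube2.isPath_mem hq (mem_Icc.1 hl).2
      rw [show (1 - e) * q l - q l = -(e * q l) by ring, abs_neg, abs_mul, abs_of_pos he,
        abs_of_nonneg h4.1]
      exact mul_le_of_le_one_right he.le h4.2) hCl) hβ.le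
  have hW : (E0 + 2 * Ct * √s) / 2 * (R + (r k + η * k)) ≤ (E0 + 2 * Ct * √s) / 2 * (R + C + 1) :=
    mul_le_mul_of_nonneg_left (by linarith [hηk.trans (pow_le_one₀ hs.le hs1 (n := 2))]) (by positivity)
  linarith [hI _ hqd]

/-- One step is at least the variational value, up to the errors of the step and of the image. -/
theorem exists_increment (hA : AlgStmt) (A : Atoms d) {β L G I₀ ε : ℝ} (hβ : 0 < β) (hG : 0 ≤ G)
    {Ca : ℝ} (hCa : 0 ≤ Ca) (hε : 0 < ε) :
    ∃ Cb s : ℝ, 0 ≤ Cb ∧ 0 < s ∧ s ≤ 1 ∧ ∃ h₀ : ℝ, 0 < h₀ ∧ h₀ ≤ 1 ∧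
      ∀ k : ℕ, 1 ≤ k → ∀ h : ℝ, 0 ≤ h → h ≤ h₀ → ∀ (K : ℕ → ℝ) (P : ℝ), IsKer k K P → P ≤ L →
        |gainBase A β h k K P| ≤ G → (∀ e, |gainG A β h k K P e 1 0| ≤ G) →
        ∀ (qA : ℕ → ℝ) (I E inc : ℝ), 0 ≤ E →
          (∀ q, IsPath k q → I ≤ spinSup k q + eng A.law A.top β k q) → I ≤ I₀ →
          ∑ e, A.w e * gainG A β h k K P e 1 0 - gainBase A β h k K P - E ≤ inc →
          (∀ j ∈ Icc 1 k, |gainG A β h k K P (Fin.last d) j s - gainG A β h k K P (Fin.last d) j 0
              + s / 2 * tail k qA j| ≤ E + Ca * (s * √s)) →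
            I - ε - Cb * (E + imgDist (A.up h) β k K P qA) ≤ inc := by
  obtain ⟨C, δ₀, hC, hδ₀, hAlg⟩ := hA d A β hβ
  obtain ⟨Cl, hCl, hlip⟩ := A.exists_eng_lip β hβ
  obtain ⟨Ce, hCe, hexp⟩ := exists_spinG_expand
  obtain ⟨Ct, hCt, hclose⟩ := exists_spinTail_close
  -- the damping
  obtain ⟨e, he, he1, heε⟩ : ∃ e : ℝ, 0 < e ∧ e ≤ 1 ∧ (β * Cl + 1) * e ≤ ε / 4 := by
    refine ⟨min 1 (ε / 4 / (β * Cl + 1)), by positivity, min_le_left _ _, ?_⟩
    have := min_le_right 1 (ε / 4 / (β * Cl + 1))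
    rw [le_div_iff₀ (by positivity)] at this
    linarith
  obtain ⟨R, hR, hcap⟩ := exists_cap he he1
  -- the variance of the test field
  set W := R + C + 1
  set K1 := 2 * (Ca + Ce) + 2 * Ct
  obtain ⟨s, hs, hs1, hsε⟩ : ∃ s : ℝ, 0 < s ∧ s ≤ 1 ∧ (K1 * W / 2 + 1) * √s ≤ ε / 4 := by
    set x := ε / 4 / (K1 * W / 2 + 1)
    have hx : 0 < x := by positivity
    refine ⟨min 1 (x ^ 2), by positivity, min_le_left _ _, ?_⟩
    have h1 : √(min 1 (x ^ 2)) ≤ x :=
      (sqrt_le_sqrt (min_le_right _ _)).trans_eq (sqrt_sq hx.le)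
    refine (mul_le_mul_of_nonneg_left h1 (by positivity)).trans_eq ?_
    exact mul_div_cancel₀ _ (by positivity)
  set δ := min δ₀ (1 / 2)
  have hδ : 0 < δ := lt_min hδ₀ (by norm_num)
  set Cb := C + (|I₀| + 2 * G) / δ + W / 2 * (1 + 4 / s) + 1
  refine ⟨Cb, s, by positivity, hs, hs1, min 1 (ε / 4 / (β + 1)), by positivity, min_le_left _ _,
    fun k hk h hh0 hhle K P hK hP hgb hgG qA I E inc hE hI hI₀ hinc hcons => ?_⟩
  have hh1 : h ≤ 1 := hhle.trans (min_le_left _ _)
  have hhβ : β * h ≤ ε / 4 := by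
    have h2 := hhle.trans (min_le_right _ _)
    rw [le_div_iff₀ (by positivity)] at h2
    linarith
  set V := imgV (A.up h) β k K P
  set M := combV k V fun v => v
  set img := imgDist (A.up h) β k K P qA with himg
  have himg0 : 0 ≤ img := imgDist_nonneg _ _ _
  have hM : |M - 1| ≤ img :=
    le_add_of_nonneg_right (mul_nonneg P157.Rsb.mass_pos.le (sum_nonneg fun _ _ => abs_nonneg _))
  have hmain : 0 ≤ Cb * (E + img) := by positivity
  rcases le_or_gt |M - 1| δ with hMδ | hMδ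
  · -- the good case
    have hMpos : 0 < M := by
      have := (abs_le.1 (hMδ.trans (min_le_right _ _))).1
      linarith
    obtain ⟨hq, hr, hrk, hrT, hgain⟩ :=
      hAlg h hh0 hh1 k K P hk hK (hMδ.trans (min_le_left _ _))
    set q := fun l => imgQ k V l / M
    set r := tiltR k ((secOf A h).tT β) ((secOf A h).tB β) (dOfK k K P)
    change IsPath k q at hq
    change IsVar k r at hr
    have hgain2 : |∑ f, A.w f * gainG A β h k K P f 1 0 - gainBase A β h k K P
        - (spinObj k q r + eng (A.up h).law (A.up h).top β k q)| ≤ C * |M - 1| := hgain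
    have hcons' : ∀ j ∈ Icc 1 k,
        |spinG k (bump r j s) - spinG k r + s / 2 * tail k qA j| ≤ E + Ca * (s * √s) := fun j hj => by
      refine le_of_eq_of_le (congrArg (fun x => |x + s / 2 * tail k qA j|) ?_) (hcons j hj)
      have e2 : bump r j 0 = r := funext fun l => by simp [bump]
      simp only [gainG, tiltV]
      rw [show tiltR k ((secOf A h).gainT β 0 0 (Fin.last d)) ((secOf A h).gainB β) (dOfK k K P) = r
          from hrT _, e2]
      ring
    have htail := tail_image_le (V := V) (q := q) (img := img) (fun j hj => hexp k r hr j s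
      (mem_Icc.1 hj).1 (mem_Icc.1 hj).2 hs.le hs1) hcons' hs hE hMpos.ne' hq (fun _ => rfl) le_rfl
    have hvar := variational_le A (R := R) hβ hh0 he he1 hs hs1 hk hCl hCt (by positivity) hq hr hrk
      (fun q q' => hlip k β q q' hβ.le le_rfl)
      (fun r' hr' hl => hclose k r r' hr hr' (s ^ 2) s (sq_nonneg s) hs hs1 hl)
      (fun r' hr' hs' => hcap k q r' hk hq hr' hs') htail hI
    have p3 : C * |M - 1| + W / 2 * (img + 4 * E / s) + E ≤ Cb * (E + img) := by
      have hX : 0 ≤ (|I₀| + 2 * G) / δ := by positivity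
      have q1 : C * |M - 1| ≤ C * (E + img) := mul_le_mul_of_nonneg_left (by linarith) hC
      have q2 : img + 4 * E / s ≤ (1 + 4 / s) * (E + img) := by
        rw [mul_div_right_comm]
        linarith [mul_nonneg (show 0 ≤ 4 / s by positivity) himg0]
      have q3 := mul_le_mul_of_nonneg_left q2 (show 0 ≤ W / 2 by positivity)
      have q4 := mul_nonneg hX (add_nonneg hE himg0)
      simp only [Cb]
      linarith
    have p4 : (img + 4 * E / s + 2 * (Ca + Ce) * √s + 2 * Ct * √s) / 2 * (R + C + 1)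
        = W / 2 * (img + 4 * E / s) + K1 * W / 2 * √s := by ring
    linarith [(abs_le.1 hgain2).1]
  · -- the bad case
    have h1 : ∀ e, -(A.w e * G) ≤ A.w e * gainG A β h k K P e 1 0 := fun e => by
      rw [← mul_neg]
      exact mul_le_mul_of_nonneg_left (abs_le.1 (hgG e)).1 (A.w_pos e).le
    have h2 := sum_le_sum (s := univ) fun e _ => h1 e
    rw [sum_neg_distrib, ← sum_mul, A.w_sum, one_mul] at h2
    have h3 : |I₀| + 2 * G ≤ (|I₀| + 2 * G) / δ * img := by
      rw [div_mul_eq_mul_div, le_div_iff₀ hδ]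
      exact mul_le_mul_of_nonneg_left (hMδ.le.trans hM) (by positivity)
    have h4 : (|I₀| + 2 * G) / δ * img + E ≤ Cb * (E + img) := by
      have q1 : 0 ≤ C + W / 2 * (1 + 4 / s) := by positivity
      have q2 := mul_nonneg q1 (add_nonneg hE himg0)
      have q3 : 0 ≤ (|I₀| + 2 * G) / δ * E := by positivity
      simp only [Cb]
      linarith
    linarith [le_abs_self I₀, (abs_le.1 hgb).2]

end Vale.Agent.P166.Rsb
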