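import Vale.Agent.P166.Rsb.CavPins

/-!
# P166: the gain at exact weights, and the bounds on one step

`BoundsStmt` puts the cavity, the tilt, the columns and the continuity in the weights together.
-/

open MeasureTheory Real Finset
open Vale.Agent.P166.Rsb.Slot (IsKer)

namespace Vale.Agent.P166.Rsb

variable {d : ℕ}

/-- The secular data at the exact weights. -/
noncomputable def secOf (A : Atoms d) (h : ℝ) : Secular d :=
  ⟨(A.up h).a, A.w, (A.up h).mono, A.w_pos, A.w_sum⟩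

/-- The gain in block `e` at the exact weights, with a field of variance `s` at level `j`. -/
noncomputable def gainG (A : Atoms d) (β h : ℝ) (k : ℕ) (K : ℕ → ℝ) (P : ℝ) (e : Fin (d + 1)) (j : ℕ)
    (s : ℝ) : ℝ :=
  β * (secOf A h).mean / 2 + tiltV k ((secOf A h).gainT β 0 0 e) ((secOf A h).gainB β) K P j s

/-- The value of the base system over the reference. -/
noncomputable def gainBase (A : Atoms d) (β h : ℝ) (k : ℕ) (K : ℕ → ℝ) (P : ℝ) : ℝ :=
  tiltV k (baseT β (A.up h).a 0) (fun _ => 0) K P 1 0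

/-- One step against the reference labelling, up to the error of the reference. -/
def BoundsStmt : Prop :=
  ∀ (d : ℕ) (A : Atoms d) (β : ℝ), 0 < β → ∃ L G : ℝ, 0 < L ∧ 0 ≤ G ∧
    (∀ (h : ℝ), 0 ≤ h → h ≤ 1 → ∀ (k : ℕ) (K : ℕ → ℝ) (P : ℝ), 1 ≤ k → IsKer k K P → P ≤ L →
      |gainBase A β h k K P| ≤ G ∧ ∀ e, |gainG A β h k K P e 1 0| ≤ G) ∧
    ∀ ε : ℝ, 0 < ε → ∃ C ρ₁ θ₁ : ℝ, 0 ≤ C ∧ 0 < ρ₁ ∧ ρ₁ ≤ 1 ∧ 0 < θ₁ ∧
      ∀ k : ℕ, 1 ≤ k → ∃ N₀ : ℕ, ∀ N : ℕ, N₀ ≤ N → ∀ (c : Fin N → Fin (d + 1)), Fits A c θ₁ →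
        ∃ cR : Fin N → Fin (d + 1),
          blockCard cR (Fin.last d) = blockCard c (Fin.last d) + d ∧
          (∀ e, e ≠ Fin.last d → blockCard cR e + 1 = blockCard c e) ∧
          (N : ℝ) ≤ L * nTop cR ∧ 0 < nTop cR ∧
          ∀ (m : Measure (Fin N → Fin N → ℝ)) (m' : Measure (Fin (N + 1) → Fin (N + 1) → ℝ)),
            IsHaarOrth m → IsHaarOrth m' →
          ∀ τ : ℕ → ℝ, fldC k τ ≤ ρ₁ → ∀ h : ℝ, |h| ≤ ρ₁ →
            let a := raise A.a h
            let F := N * freeU m k β a cR (fun _ => 0) τ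
            (∀ e, |(N + 1 : ℕ) * freeU m' k β a (Fin.cons e c) (fun _ => 0) τ - F| ≤ G) ∧
            (0 ≤ h →
              let K := kerK m k β a cR τ
              let P := kerP m k β a cR τ
              let err := ε + C * topErr m k β a cR (fun _ => 0) τ
              N * freeU m k β a c (fun _ => 0) τ ≤ F + gainBase A β h k K P + err ∧
              ∀ (e : Fin (d + 1)) (j : ℕ) (s : ℝ), 1 ≤ j → j ≤ k → 0 ≤ s → s ≤ 1 →
                |auxE m' k β a (Fin.cons e c) τ 0 j s - (F + gainG A β h k K P e j s)| ≤ err)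

end Vale.Agent.P166.Rsb
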