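import Vale.Agent.P166.Rsb.Cav.TiltErr

/-!
# P166: the value of a tilt by specials of the last block is the Gaussian recursion
-/

open MeasureTheory ProbabilityTheory Real Finset
open Vale.Agent.P157 (cubeLaw coin)
open Vale.Agent.P157.Rsb (stdG val cnd LinB Tame gaussSize val_map)
open Vale.Agent.P166.Rsb.Energy (BPot linB_pot)

namespace Vale.Agent.P166.Rsb.Tilt

variable {d N k p : ℕ} (D : Dat N d p) (U : Fin N → Fin N → ℝ)

/-- The potentials of the specials. -/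
noncomputable def Dat.rowPot (F : ℝ → ℝ → ℝ) (_z : Fin k → Fld N ⊕ Unit → ℝ)
    (x : (Fin N → Bool) × Bool) : ℝ :=
  ∑ r, F (D.T r) (rotate U x.1 (D.sp r) + sh (D.T r) (D.b r) (spin x.2))

/-- The system of the tilt without potentials. -/
noncomputable def Dat.rowBase (z : Fin k → Fld N ⊕ Unit → ℝ) (x : (Fin N → Bool) × Bool) : ℝ :=
  hamU D.β D.a D.c (fun _ => 0) D.τ U (zl z) x.1 + auxH k D.j D.s (zr z) x.2

/-- The system of the tilt with potentials `F`. -/
noncomputable def Dat.rowH (F : ℝ → ℝ → ℝ) (z : Fin k → Fld N ⊕ Unit → ℝ) (x : (Fin N → Bool) × Bool) : ℝ :=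
  D.rowBase U z x + D.rowPot U F z x

/-- Its value. -/
noncomputable def Dat.rowV (k : ℕ) (F : ℝ → ℝ → ℝ) : ℝ :=
  val (stdG (Fld N ⊕ Unit)) ((cubeLaw N).prod coin) (D.rowH (k := k) U F) 0 fun _ _ => 0

theorem Dat.linB_rowBase : LinB (gaussSize (Fld N ⊕ Unit)) (D.rowBase (k := k) U) :=
  linB_split (hamU_linB D.β D.a D.c U (fun _ => 0) D.τ) (auxH_linB k D.j D.s)

theorem Dat.rowPot_bpot (F : ℝ → ℝ → ℝ) : BPot (D.rowPot (k := k) U F) :=
  ⟨(measurable_of_countable fun x : (Fin N → Bool) × Bool =>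
      ∑ r, F (D.T r) (rotate U x.1 (D.sp r) + sh (D.T r) (D.b r) (spin x.2))).comp measurable_snd,
    ∑ x : (Fin N → Bool) × Bool, |∑ r, F (D.T r) (rotate U x.1 (D.sp r) + sh (D.T r) (D.b r) (spin x.2))|,
    fun _ x => single_le_sum (f := fun x : (Fin N → Bool) × Bool =>
      |∑ r, F (D.T r) (rotate U x.1 (D.sp r) + sh (D.T r) (D.b r) (spin x.2))|)
      (fun _ _ => abs_nonneg _) (mem_univ x)⟩

theorem Dat.rowV_meas {F : ℝ → ℝ → ℝ} (hF : ∀ r, Measurable (F (D.T r))) :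
    Measurable fun U => D.rowV U k F := by
  refine P157.Rsb.val_measurable_param_at (H := fun U => D.rowH (k := k) U F) ?_ 0 _
  refine measurable_from_prod_countable_left fun x => ?_
  unfold Dat.rowH Dat.rowBase Dat.rowPot
  refine Measurable.add (Measurable.add ?_ ?_) (Finset.measurable_sum _ fun r _ => (hF r).comp ?_)
  · exact (hamU_meas D.β D.a D.c (fun _ => 0) D.τ).comp
      (f := fun q : (Fin N → Fin N → ℝ) × (Fin k → Fld N ⊕ Unit → ℝ) => ((q.1, zl q.2), x.1))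
      ((measurable_fst.prodMk (measurable_zl.comp measurable_snd)).prodMk measurable_const)
  · exact (auxH_linB k D.j D.s).meas.comp
      (f := fun q : (Fin N → Fin N → ℝ) × (Fin k → Fld N ⊕ Unit → ℝ) => (zr q.2, x.2))
      ((measurable_zr.comp measurable_snd).prodMk measurable_const)
  · exact ((continuous_rotate x.1 (D.sp r)).measurable.comp measurable_fst).add_const (sh (D.T r) (D.b r) (spin x.2))

/-- The system of the tilt is a hybrid without replacements. -/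
theorem Dat.hybV_empty {Bp : ℝ} (hD : D.Bdd Bp) : D.hybV U k univ ∅ = D.rowV U k D.φ := by
  have hu : MeasurePreserving (fun y : HIdx N p → ℝ => Sum.elim (fun i => y (.inl i)) fun i : Unit => y (.inr (.inr i)))
      (stdG (HIdx N p)) (stdG (Fld N ⊕ Unit)) := by
    have h := (mp_split (ι := Fld N) (κ := Unit)).symm (MeasurableEquiv.sumPiEquivProdPi fun _ : Fld N ⊕ Unit => ℝ)
    exact h.comp (((MeasurePreserving.id (stdG (Fld N))).prod
      ((measurePreserving_snd (μ := stdG (Fin p)) (ν := stdG Unit)).comp (mp_split (ι := Fin p) (κ := Unit)))).comp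
        mp_split)
  have hg : MeasurePreserving (fun x : HLeaf N p => (x.1, x.2.2)) (hLaw N p) ((cubeLaw N).prod coin) :=
    (MeasurePreserving.id (cubeLaw N)).prod (measurePreserving_snd (μ := stdG (Fin p)) (ν := coin))
  have h := (val_map (γ' := stdG (HIdx N p)) (μ' := hLaw N p) hu hg
    (linB_pot (D.linB_rowBase (k := k) U) (D.rowPot_bpot U D.φ)) 0 fun _ _ => 0).1
  have e0 : (fun _ : Fin k => Sum.elim (fun _ : Fld N => (0 : ℝ)) fun _ : Unit => (0 : ℝ)) = fun _ _ => 0 := by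
    funext l i; cases i <;> rfl
  simp only [e0] at h
  refine Eq.trans ?_ h
  refine congrArg (fun F => val (stdG (HIdx N p)) (hLaw N p) F 0 fun _ _ => (0 : ℝ)) (funext₂ fun z x => ?_)
  have hb := hD
  simp only [Dat.hyb, Dat.base, Dat.term, Dat.rowBase, Dat.rowPot, notMem_empty, if_false]
  rfl

theorem tame_left_sum (u : (Fin N → Bool) → ℝ) :
    Tame (gaussSize (Fld N ⊕ Unit)) fun (_ : Fin k → Fld N ⊕ Unit → ℝ) (x : (Fin N → Bool) × Bool) => u x.1 :=
  tame_left (tame_obs u)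

/-- The cost of the cut at a fixed rotation. -/
theorem Dat.cut_close {t B M δ : ℝ} (ht : 0 < t) (hB : 0 ≤ B) {R Bp : ℝ} {f1 f2 f3 : ℝ → ℝ → ℝ}
    (hcut : Cut t B M R Bp D.φ f1 f2 f3)
    (hT : ∀ r, (t ≤ D.T r ∧ D.T r ≤ B ∧ |D.b r| ≤ B) ∨ (D.T r = 0 ∧ D.b r = 0))
    (hgap : ∀ (H g g1 : (Fin k → Fld N ⊕ Unit → ℝ) → (Fin N → Bool) × Bool → ℝ),
      LinB (gaussSize (Fld N ⊕ Unit)) H → BPot g → BPot g1 → (∀ z x, g z x ≤ g1 z x) →
      (∀ z x, g1 z x ≤ 0) → (∀ z x, exp (g1 z x) ≤ exp (g z x) + exp (-M)) → ∀ z,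
      |val (stdG (Fld N ⊕ Unit)) ((cubeLaw N).prod coin) (fun z x => H z x + g1 z x) 0 z
          - val (stdG (Fld N ⊕ Unit)) ((cubeLaw N).prod coin) (fun z x => H z x + g z x) 0 z|
        ≤ δ + δ * cnd (stdG (Fld N ⊕ Unit)) ((cubeLaw N).prod coin) H (fun z x => g z x ^ 2) 0 z)
    (hδ : 0 ≤ δ) :
    |D.rowV U k quad - (D.rowV U k D.φ - ∑ r, depth M (D.T r))|
      ≤ δ + δ * gibR D.β D.a D.c U k (fun _ => 0) D.τ
          (fun x => (p : ℝ) * ∑ r, qK B (B / t) * (1 + rotate U x (D.sp r) ^ 4)) := by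
  have hadm : ∀ r, Adm t B (D.T r) := fun r => adm_of (hT r)
  have hT0 : ∀ r, 0 ≤ D.T r := fun r => (hadm r).nonneg ht
  have hTB : ∀ r, D.T r ≤ B := fun r => (hadm r).elim And.right fun h => h.le.trans hB
  set f : ℝ → ℝ → ℝ := fun T u => D.φ T u - depth M T with hf
  have hbase := D.linB_rowBase (k := k) U
  have e : D.rowV U k f = D.rowV U k D.φ - ∑ r, depth M (D.T r) := by
    unfold Dat.rowV
    rw [show D.rowH (k := k) U f = fun z x => D.rowH U D.φ z x + -∑ r, depth M (D.T r) by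
      funext z x; simp only [Dat.rowH, Dat.rowPot, hf, sum_sub_distrib]; ring]
    exact val_add_const (linB_pot hbase (D.rowPot_bpot U D.φ)) _ 0 _
  have hgT : Tame (gaussSize (Fld N ⊕ Unit)) fun z x => D.rowPot (k := k) U quad z x ^ 2 := by
    obtain ⟨L', hL'⟩ := (D.rowPot_bpot (k := k) U quad).2
    refine Tame.of_bdd ((D.rowPot_bpot (k := k) U quad).1.pow_const 2) (B := L' ^ 2) fun z x => ?_
    rw [abs_pow]; exact pow_le_pow_left₀ (abs_nonneg _) (hL' z x) 2
  have h := hgap (D.rowBase U) (D.rowPot U quad) (D.rowPot U f) hbase (D.rowPot_bpot U quad)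
    (D.rowPot_bpot U f) (fun z x => sum_le_sum fun r _ => hcut.lower _ _ (hadm r))
    (fun z x => sum_nonpos fun r _ => hcut.upper _ _ (hadm r))
    (fun z x => sum_cut_exp _ _ (fun r => hcut.upper _ _ (hadm r)) fun r => hcut.far _ _ (hadm r))
    (fun _ _ => 0)
  rw [← e, abs_sub_comm]
  refine h.trans (add_le_add le_rfl (mul_le_mul_of_nonneg_left ?_ hδ))
  refine (P157.Rsb.cnd_mono hbase hgT (tame_left_sum fun x => (p : ℝ) * ∑ r, qK B (B / t) *
    (1 + rotate U x (D.sp r) ^ 4)) (fun z x => ?_) 0 _).trans (le_of_eq ?_)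
  · refine (sq_sum_le_card_mul_sum_sq (s := univ)).trans ?_
    rw [card_univ, Fintype.card_fin]
    exact mul_le_mul_of_nonneg_left (sum_le_sum fun r _ =>
      quad_sq_le (hT0 r) (hTB r) (abs_sh_le ht hB (hT r) x.2) _) (Nat.cast_nonneg _)
  · exact (val_split (hamU_linB D.β D.a D.c U (fun _ => 0) D.τ) (auxH_linB k D.j D.s) 0 _).2
      (fun _ x => (p : ℝ) * ∑ r, qK B (B / t) * (1 + rotate U x (D.sp r) ^ 4)) (tame_obs _)

variable {m : Measure (Fin N → Fin N → ℝ)}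

/-- The mean cost of the cut. -/
theorem Dat.cut_mean (hm : IsHaarOrth m) {t B M δ L : ℝ} (ht : 0 < t) (hB : 0 ≤ B) {R Bp : ℝ}
    {f1 f2 f3 : ℝ → ℝ → ℝ} (hcut : Cut t B M R Bp D.φ f1 f2 f3)
    (hT : ∀ r, (t ≤ D.T r ∧ D.T r ≤ B ∧ |D.b r| ≤ B) ∨ (D.T r = 0 ∧ D.b r = 0))
    (htop : ∀ r, D.c (D.sp r) = Fin.last d) (hn : 0 < nTop D.c) (hL : (N : ℝ) ≤ L * nTop D.c)
    (hgap : ∀ (H g g1 : (Fin k → Fld N ⊕ Unit → ℝ) → (Fin N → Bool) × Bool → ℝ),
      LinB (gaussSize (Fld N ⊕ Unit)) H → BPot g → BPot g1 → (∀ z x, g z x ≤ g1 z x) →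
      (∀ z x, g1 z x ≤ 0) → (∀ z x, exp (g1 z x) ≤ exp (g z x) + exp (-M)) → ∀ z,
      |val (stdG (Fld N ⊕ Unit)) ((cubeLaw N).prod coin) (fun z x => H z x + g1 z x) 0 z
          - val (stdG (Fld N ⊕ Unit)) ((cubeLaw N).prod coin) (fun z x => H z x + g z x) 0 z|
        ≤ δ + δ * cnd (stdG (Fld N ⊕ Unit)) ((cubeLaw N).prod coin) H (fun z x => g z x ^ 2) 0 z)
    (hδ : 0 ≤ δ) :
    |tiltE m k D.β D.a D.c D.τ D.sp D.T D.b D.j D.s
        - (∫ U, D.hybV U k univ ∅ ∂m + ∑ r, (D.b r ^ 2 / (2 * D.T r) - depth M (D.T r)))|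
      ≤ δ + δ * (p * ((p : ℝ) * (qK B (B / t) * (1 + 3 * L ^ 2)))) := by
  have := hm.1
  have hadm : ∀ r, Adm t B (D.T r) := fun r => adm_of (hT r)
  have hD : D.Bdd Bp := fun r => ⟨(hcut.pot _ (hadm r)).hf.meas, (hcut.pot _ (hadm r)).hf.bound⟩
  set cB := ∑ r, D.b r ^ 2 / (2 * D.T r) with hcB
  set K4 := qK B (B / t) with hK4
  have hK0 : 0 ≤ K4 := by rw [hK4, qK]; positivity
  set q : (Fin N → ℝ) → ℝ := fun y => (p : ℝ) * ∑ r, K4 * (1 + y (D.sp r) ^ 4) with hq
  have hqc : Continuous q := by rw [hq]; fun_prop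
  have hqi := integrable_rot (k := k) (β := D.β) (a := D.a) (c := D.c) (τ := D.τ) hm hqc
  have hc := fun U => D.cut_close U ht hB hcut hT hgap hδ
  have hφi : Integrable (fun U => D.rowV U k D.φ) m :=
    (D.hybV_integrable hm hD univ ∅).congr (ae_of_all _ fun U => D.hybV_empty U hD)
  have hqm : Integrable (fun U => D.rowV U k quad) m := by
    refine ((hφi.abs.add (integrable_const (|∑ r, depth M (D.T r)| + δ))).add (hqi.const_mul δ)).mono'
      (D.rowV_meas fun r => by unfold quad; fun_prop).aestronglyMeasurable (ae_of_all _ fun U => ?_)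
    have h := abs_le.1 (hc U)
    simp only [Pi.add_apply, Real.norm_eq_abs, hq]
    rw [abs_le]
    constructor <;> linarith [h.1, h.2, le_abs_self (∑ r, depth M (D.T r)), neg_abs_le (∑ r, depth M (D.T r)),
      le_abs_self (D.rowV U k D.φ), neg_abs_le (D.rowV U k D.φ)]
  have e1 : tiltE m k D.β D.a D.c D.τ D.sp D.T D.b D.j D.s = ∫ U, D.rowV U k quad ∂m + cB := by
    have e : ∀ U, val (stdG (Fld N ⊕ Unit)) ((cubeLaw N).prod coin)
        (tiltHam (k := k) D.β D.a D.c D.τ U D.sp D.T D.b D.j D.s) 0 (fun _ _ => 0) = D.rowV U k quad + cB := by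
      intro U
      refine Eq.trans ?_ (val_add_const (linB_pot (D.linB_rowBase U) (D.rowPot_bpot U quad)) cB 0 _)
      refine congrArg (fun F => val (stdG (Fld N ⊕ Unit)) ((cubeLaw N).prod coin) F 0 fun _ _ => (0 : ℝ))
        (funext₂ fun z x => ?_)
      simp only [tiltHam, Dat.rowBase, Dat.rowPot, auxH, tilt_square ht (hT _), sum_add_distrib, hcB]
      unfold zl zr
      ring
    simp only [tiltE, e]
    rw [integral_add hqm (integrable_const _), integral_const, probReal_univ, one_smul]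
  have e2 : ∫ U, D.hybV U k univ ∅ ∂m = ∫ U, D.rowV U k D.φ ∂m :=
    integral_congr_ae (ae_of_all _ fun U => D.hybV_empty U hD)
  rw [e1, e2, sum_sub_distrib, ← hcB]
  have e3 : ∫ U, D.rowV U k quad ∂m + cB - (∫ U, D.rowV U k D.φ ∂m + (cB - ∑ r, depth M (D.T r)))
      = ∫ U, (D.rowV U k quad - (D.rowV U k D.φ - ∑ r, depth M (D.T r))) ∂m := by
    have hi : Integrable (fun U => D.rowV U k D.φ - ∑ r, depth M (D.T r)) m := hφi.sub (integrable_const _)
    rw [integral_sub hqm hi, integral_sub hφi (integrable_const _), integral_const, probReal_univ, one_smul]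
    ring
  rw [e3]
  refine abs_integral_le_integral_abs.trans ((integral_mono (hqm.sub (hφi.sub (integrable_const _))).abs
    ((integrable_const δ).add (hqi.const_mul δ)) hc).trans ?_)
  rw [integral_add' (integrable_const δ) (hqi.const_mul δ), integral_const, probReal_univ, one_smul, integral_const_mul]
  refine add_le_add le_rfl (mul_le_mul_of_nonneg_left ?_ hδ)
  show rotE m k D.β D.a D.c D.τ q ≤ _
  rw [hq, rotE_mul hm, rotE_sum hm univ fun r => by fun_prop]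
  refine mul_le_mul_of_nonneg_left ((sum_le_card_nsmul _ _ (K4 * (1 + 3 * L ^ 2)) fun r _ => ?_).trans
    (le_of_eq (by simp [nsmul_eq_mul]))) (Nat.cast_nonneg _)
  rw [rotE_mul hm, rotE_add hm continuous_const (by fun_prop), rotE_const hm]
  refine mul_le_mul_of_nonneg_left (add_le_add le_rfl ((rotE_four hm (htop r)).trans ?_)) hK0
  rw [div_le_iff₀ (by positivity)]
  nlinarith [pow_le_pow_left₀ (Nat.cast_nonneg N) hL 2]

/-- All specials replaced. -/
theorem Dat.replace_all (hm : IsHaarOrth m) {Bp E : ℝ} (hD : D.Bdd Bp)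
    (hstep : ∀ (S : Finset (Fin p)) (r₀ : Fin p), r₀ ∉ S →
      |∫ U, D.hybV U k univ S ∂m - ∫ U, D.hybV U k univ (insert r₀ S) ∂m| ≤ E) :
    |∫ U, D.hybV U k univ ∅ ∂m
        - (∫ U, rootU k D.β D.a D.c (fun _ => 0) D.τ U ∂m + fieldV k D.φ D.T D.b D.K D.P D.j D.s)|
      ≤ p * E := by
  classical
  have := hm.1
  have h : ∀ S : Finset (Fin p),
      |∫ U, D.hybV U k univ ∅ ∂m - ∫ U, D.hybV U k univ S ∂m| ≤ S.card * E := fun S => by
    induction S using Finset.induction_on with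
    | empty => simp
    | insert r S hr ih =>
      rw [card_insert_of_notMem hr, Nat.cast_succ, add_mul, one_mul]
      exact (abs_sub_le _ _ _).trans (add_le_add ih (hstep S r hr))
  have h1 := h univ
  rw [card_univ, Fintype.card_fin] at h1
  simp only [D.hybV_univ _ hD] at h1
  rwa [integral_add (rootU_integrable D.β D.a D.c hm _ _) (integrable_const _), integral_const,
    probReal_univ, one_smul] at h1

end Vale.Agent.P166.Rsb.Tilt

namespace Vale.Agent.P166.Rsb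

open Vale.Agent.P166.Rsb.Tilt

theorem tiltStmt (hG : GaussStmt) : TiltStmt := by
  intro p t B L ε ht hε
  set B' := max B 0 with hB'
  set L' := max L 1 with hL'
  have hB0 : 0 ≤ B' := le_max_right _ _
  have hL1 : 1 ≤ L' := le_max_right _ _
  set G := (p : ℝ) * ((p : ℝ) * (qK B' (B' / t) * (1 + 3 * L' ^ 2))) with hGdef
  have hG0 : 0 ≤ G := by
    have : 0 ≤ qK B' (B' / t) := by unfold qK; positivity
    positivity
  obtain ⟨M₁, hM₁, hgap⟩ := exists_cut_gap (δ := ε / (4 * (1 + G))) (by positivity)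
  obtain ⟨M₂, hM₂, hfield⟩ := exists_field_gap hG (L := L') ht hB0 (δ := ε / 4) (by positivity) p
  set M := max M₁ M₂ with hMdef
  obtain ⟨R, Bp, φ, f1, f2, f3, hcut⟩ := exists_cut (M := M) ht hB0 (hM₁.trans_le (le_max_left _ _))
  obtain ⟨c₀, hc0, hc₀⟩ := exists_length_bound
  have hBp : 0 ≤ Bp := zero_le_one.trans (hcut.pot 0 (.inr rfl)).one_le
  set Cd := 4 * Bp * (1 + |R| + |B' / t|) with hCd
  set α := 2 * (Bp * exp (4 * Bp) * Bp) * exp (4 * (p * Bp)) with hα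
  have hCd0 : 0 ≤ Cd := by positivity
  have hα0 : 0 ≤ α := by positivity
  set X := (p : ℝ) * (Cd * c₀ + 3 * α * ((p : ℝ) * (2 * L' + 1 + 3 * L' ^ 2))) with hX
  have hX0 : 0 ≤ X := by positivity
  refine ⟨(p : ℝ) * α * (4 * L'), by positivity, fun k =>
    ⟨⌈L' * (2 * (4 * X / ε) ^ 2 + 2 * p + 2)⌉₊ + 1, fun N hN d β a c m hm hNL τ sp hinj htop T b hTb j s hj hjk hs _ => ?_⟩⟩
  have hN1 : 1 ≤ N := le_trans (Nat.le_add_left _ _) hN
  have hn0 : 0 ≤ nTop c := Nat.cast_nonneg _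
  have hL2 : (N : ℝ) ≤ L' * nTop c := hNL.trans (mul_le_mul_of_nonneg_right (le_max_left _ _) hn0)
  have hn : 2 * (4 * X / ε) ^ 2 + 2 * p + 2 ≤ nTop c := by
    refine le_of_mul_le_mul_left (le_trans ?_ hL2) (lt_of_lt_of_le one_pos hL1)
    exact (Nat.le_ceil _).trans (by exact_mod_cast (Nat.le_succ _).trans hN)
  have hT : ∀ r, (t ≤ T r ∧ T r ≤ B' ∧ |b r| ≤ B') ∨ (T r = 0 ∧ b r = 0) := fun r =>
    (hTb r).imp_left fun h => ⟨h.1, h.2.1.trans (le_max_left _ _), h.2.2.trans (le_max_left _ _)⟩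
  have hnpos : 0 < nTop c := by nlinarith [sq_nonneg (4 * X / ε), (Nat.cast_nonneg p : (0 : ℝ) ≤ _)]
  set D : Dat N d p := ⟨β, a, c, τ, sp, φ, T, b, kerK m k β a c τ, kerP m k β a c τ, j, s⟩ with hDdef
  have hker := isKer_ker (k := k) β a c hm hN1 τ
  have hP : ∀ r, P157.Rsb.Slot.Pot R Bp (φ (T r)) (f1 (T r)) (f2 (T r)) (f3 (T r)) :=
    fun r => hcut.pot _ (adm_of (hT r))
  have hD : D.Bdd Bp := fun r => ⟨(hP r).hf.meas, (hP r).hf.bound⟩
  have h1 := D.cut_mean (k := k) hm ht hB0 hcut hT htop hnpos hL2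
    (hgap M (le_max_left _ _) k _ _ inferInstance inferInstance _ _ inferInstance inferInstance _)
    (by positivity)
  set err := topErr m k β a c (fun _ => 0) τ
  set E := α * (4 * L' * err) + X / p / √(nTop c / 2) with hE
  have hstep : ∀ (S : Finset (Fin p)) (r₀ : Fin p), r₀ ∉ S →
      |∫ U, D.hybV U k univ S ∂m - ∫ U, D.hybV U k univ (insert r₀ S) ∂m| ≤ E := by
    intro S r₀ hr
    have hp : (p : ℝ) ≠ 0 := by exact_mod_cast (r₀.pos).ne'
    refine (D.step hm hD htop hinj hP hker (O := B' / t) (fun r x => abs_sh_le ht hB0 (hT r) x) hc₀ hr).trans ?_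
    have hk := integral_kerR_le (k := k) D hm hN1 (zero_le_one.trans hL1) hL2
      (by linarith [sq_nonneg (4 * X / ε)]) rfl rfl r₀
    obtain ⟨hle, hge⟩ := card_freeSet (c := c) sp r₀
    set n' : ℝ := ((freeSet c sp r₀).card : ℝ)
    have hn2 : nTop c / 2 ≤ n' := by linarith [sq_nonneg (4 * X / ε)]
    have hs2 : √(nTop c / 2) ≤ √n' := Real.sqrt_le_sqrt hn2
    have hs0 : 0 < √(nTop c / 2) := Real.sqrt_pos.2 (by linarith)
    have hs1 : √(nTop c / 2) ≤ nTop c := by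
      refine (Real.sqrt_le_left hn0).2 ?_
      nlinarith [sq_nonneg (4 * X / ε), (Nat.cast_nonneg p : (0 : ℝ) ≤ _)]
    have a1 : Cd * (c₀ / √n') ≤ Cd * (c₀ / √(nTop c / 2)) :=
      mul_le_mul_of_nonneg_left (div_le_div_of_nonneg_left hc0 hs0 hs2) hCd0
    have a2 : (p : ℝ) * (2 * L' + 1 + 3 * L' ^ 2) / nTop c
        ≤ (p : ℝ) * (2 * L' + 1 + 3 * L' ^ 2) / √(nTop c / 2) :=
      div_le_div_of_nonneg_left (by positivity) hs0 hs1
    have e : X / p / √(nTop c / 2) = Cd * (c₀ / √(nTop c / 2))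
        + α * (3 * ((p : ℝ) * (2 * L' + 1 + 3 * L' ^ 2) / √(nTop c / 2))) := by
      rw [hX]; field_simp
    rw [hE, e, ← mul_assoc (2 * (Bp * exp (4 * Bp) * Bp)), ← hα]
    have a3 := mul_le_mul_of_nonneg_left (hk.trans (add_le_add le_rfl (mul_le_mul_of_nonneg_left a2 zero_le_three))) hα0
    rw [mul_add] at a3
    show Cd * (c₀ / √n') + α * ∫ U, D.kerR U k (freeSet c sp r₀) ∂m ≤ _
    linarith
  have h2 := D.replace_all hm hD hstep
  have h3 := hfield M (le_max_right _ _) R Bp φ f1 f2 f3 hcut k (kerK m k β a c τ) (kerP m k β a c τ) hker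
    (kerP_le β a c hm hL2 hnpos τ) T b hT j s hj hjk hs
  have e4 : (N : ℝ) * freeU m k β a c (fun _ => 0) τ = ∫ U, rootU k β a c (fun _ => 0) τ U ∂m :=
    mul_div_cancel₀ _ (by exact_mod_cast (show N ≠ 0 by omega))
  have h5 : (p : ℝ) * E ≤ ε / 4 + (p : ℝ) * α * (4 * L') * err := by
    have hs : 4 * X / ε ≤ √(nTop c / 2) :=
      Real.le_sqrt_of_sq_le (by linarith [(Nat.cast_nonneg p : (0 : ℝ) ≤ _)])
    have h : X / √(nTop c / 2) ≤ ε / 4 := by
      rw [div_le_iff₀ (Real.sqrt_pos.2 (by linarith [(Nat.cast_nonneg p : (0 : ℝ) ≤ _), sq_nonneg (4 * X / ε)]))]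
      rw [div_le_iff₀ hε] at hs
      linarith
    rcases eq_or_ne (p : ℝ) 0 with hp | hp
    · rw [hp]; simp only [zero_mul, add_zero]; positivity
    · rw [hE, mul_add, show (p : ℝ) * (X / p / √(nTop c / 2)) = X / √(nTop c / 2) by field_simp]
      linarith
  have h6 : ε / (4 * (1 + G)) + ε / (4 * (1 + G)) * G = ε / 4 := by field_simp
  rw [h6] at h1
  rw [e4]
  simp only [hDdef] at h1 h2
  obtain ⟨a1, a1'⟩ := abs_le.1 h1
  obtain ⟨a2, a2'⟩ := abs_le.1 h2
  obtain ⟨a3, a3'⟩ := abs_le.1 h3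
  rw [abs_le]
  constructor <;> linarith

end Vale.Agent.P166.Rsb
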