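import Mathlib.Analysis.Calculus.BumpFunction.InnerProduct
import Vale.Agent.P157.Rsb.Slot
import Vale.Agent.P157.Rsb.CalcGauss

/-!
# P166: cutting a quadratic potential off, and the length of a Gaussian vector
-/

open MeasureTheory ProbabilityTheory Real Finset
open Vale.Agent.P157.Rsb
open Vale.Agent.P157.Rsb.Slot (Pot Cpt exists_pot)

namespace Vale.Agent.P166.Rsb.Tilt

/-- The quadratic potential of a tilt. -/
noncomputable def quad (T u : ℝ) : ℝ := -(T / 2) * u ^ 2

/-- The depth of the cut-off potential. -/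
noncomputable def depth (M T : ℝ) : ℝ := if T = 0 then 0 else M

/-- The admissible tilts. -/
def Adm (t B T : ℝ) : Prop := (t ≤ T ∧ T ≤ B) ∨ T = 0

/-- Compactly supported potentials that imitate the quadratic ones up to a depth `M`. -/
structure Cut (t B M R Bp : ℝ) (φ φ1 φ2 φ3 : ℝ → ℝ → ℝ) : Prop where
  pot : ∀ T, Adm t B T → Pot R Bp (φ T) (φ1 T) (φ2 T) (φ3 T)
  lower : ∀ T u, Adm t B T → quad T u ≤ φ T u - depth M T
  upper : ∀ T u, Adm t B T → φ T u - depth M T ≤ 0
  far : ∀ T u, Adm t B T → φ T u - depth M T = quad T u ∨ φ T u - depth M T ≤ -M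

theorem quad_nonpos {T : ℝ} (hT : 0 ≤ T) (u : ℝ) : quad T u ≤ 0 := by
  unfold quad; nlinarith [sq_nonneg u]

theorem Adm.nonneg {t B T : ℝ} (ht : 0 < t) (h : Adm t B T) : 0 ≤ T := by
  rcases h with h | h <;> linarith [h]

theorem exists_cut {t B M : ℝ} (ht : 0 < t) (hB : 0 ≤ B) (hM : 0 < M) :
    ∃ R Bp φ φ1 φ2 φ3, Cut t B M R Bp φ φ1 φ2 φ3 := by
  have hR1 : 0 < √(2 * M / t) + 1 := by positivity
  set bmp : ContDiffBump (0 : ℝ) := ⟨√(2 * M / t) + 1, √(2 * M / t) + 2, hR1, by linarith⟩ with hbmp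
  set χ : ℝ → ℝ := fun u => bmp u with hχ
  set ξ : ℝ → ℝ := fun u => χ u * (-(u ^ 2) / 2) with hξ
  have c1 : ContDiff ℝ 3 χ := bmp.contDiff
  have c2 : ContDiff ℝ 3 ξ := c1.mul ((contDiff_id.pow 2).neg.div_const 2)
  have s1 : HasCompactSupport χ := bmp.hasCompactSupport
  have s2 : HasCompactSupport ξ := s1.mul_right
  obtain ⟨R, P, p⟩ := exists_pot c1 s1
  obtain ⟨R', P', p'⟩ := exists_pot c2 s2
  have hP : 0 ≤ P := zero_le_one.trans p.one_le
  have hP' : 0 ≤ P' := zero_le_one.trans p'.one_le
  have hd : ∀ T, |depth M T| ≤ M := fun T => by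
    unfold depth; split_ifs <;> simp [abs_of_pos hM, hM.le]
  have key : ∀ {a a' : ℝ → ℝ}, Cpt R P a → Cpt R' P' a' → ∀ T, Adm t B T →
      Cpt (max R R') (max 1 (M * P + B * P')) fun u => depth M T * a u + T * a' u := by
    intro a a' ha ha' T hT
    have hTB : |T| ≤ B := by
      rw [abs_of_nonneg (hT.nonneg ht)]; rcases hT with h | h <;> linarith [h]
    refine ⟨(ha.meas.const_mul _).add (ha'.meas.const_mul _), fun u => ?_, fun u hu => ?_⟩
    · refine (abs_add_le _ _).trans ((add_le_add ?_ ?_).trans (le_max_right _ _))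
      · rw [abs_mul]; exact mul_le_mul (hd T) (ha.bound u) (abs_nonneg _) hM.le
      · rw [abs_mul]; exact mul_le_mul hTB (ha'.bound u) (abs_nonneg _) hB
    · rw [ha.zero u ((le_max_left _ _).trans_lt hu), ha'.zero u ((le_max_right _ _).trans_lt hu),
        mul_zero, mul_zero, add_zero]
  refine ⟨max R R', max 1 (M * P + B * P'), fun T u => depth M T * χ u + T * ξ u,
    fun T u => depth M T * deriv χ u + T * deriv ξ u,
    fun T u => depth M T * deriv (deriv χ) u + T * deriv (deriv ξ) u,
    fun T u => depth M T * deriv (deriv (deriv χ)) u + T * deriv (deriv (deriv ξ)) u,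
    fun T hT => ⟨key p.hf p'.hf T hT, key p.hf1 p'.hf1 T hT, key p.hf2 p'.hf2 T hT,
      key p.hf3 p'.hf3 T hT, le_max_left _ _,
      fun u => ((p.d1 u).const_mul _).add ((p'.d1 u).const_mul _),
      fun u => ((p.d2 u).const_mul _).add ((p'.d2 u).const_mul _),
      fun u => ((p.d3 u).const_mul _).add ((p'.d3 u).const_mul _)⟩, ?_, ?_, ?_⟩
  -- convex combinations of the potential and the depth
  all_goals intro T u hT
  all_goals rcases eq_or_ne T 0 with rfl | hT0
  all_goals first
    | simp [depth, quad]; done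
    | skip
  all_goals
    have hTt : t ≤ T := by
      rcases hT with h | h
      · exact h.1
      · exact absurd h hT0
    have h0 : 0 ≤ χ u := bmp.nonneg
    have h1 : χ u ≤ 1 := bmp.le_one
    have e : depth M T * χ u + T * ξ u - depth M T = χ u * quad T u + (1 - χ u) * -M := by
      simp only [depth, if_neg hT0, hξ, quad]; ring
    have hq0 := quad_nonpos (ht.le.trans hTt) u
    have hq : χ u = 1 ∨ quad T u ≤ -M := by
      rcases le_or_gt |u| (√(2 * M / t) + 1) with hu | hu
      · exact .inl (bmp.one_of_mem_closedBall (by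
          rw [Metric.mem_closedBall, dist_zero_right, Real.norm_eq_abs]; exact hu))
      · refine .inr ?_
        have h2 : √(2 * M / t) ^ 2 ≤ u ^ 2 := by
          rw [← sq_abs u]; exact pow_le_pow_left₀ (sqrt_nonneg _) (by linarith) 2
        rw [sq_sqrt (by positivity), div_le_iff₀ ht] at h2
        unfold quad
        nlinarith [mul_le_mul_of_nonneg_left hTt (sq_nonneg u)]
    rw [e]
  · rcases hq with h | h
    · simp [h]
    · nlinarith
  · rcases hq with h | h
    · simp [h, hq0]
    · nlinarith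
  · rcases hq with h | h
    · exact .inl (by simp [h])
    · exact .inr (by nlinarith)

/-- Rescaling the argument of a compactly supported potential. -/
theorem dilate {R Bp : ℝ} {f f1 f2 f3 : ℝ → ℝ} (hP : Pot R Bp f f1 f2 f3) {O o : ℝ} (ho : |o| ≤ O)
    {u a w : ℝ} (hw : 0 ≤ w) (ha : w ≠ 0 → a = u / √w) :
    |f (a + o) - f (u + o)| ≤ 4 * Bp * (1 + |R| + |O|) * |w - 1| := by
  have hB : 0 ≤ Bp := zero_le_one.trans hP.one_le
  rcases le_or_gt |w - 1| (1 / 2) with h | h
  · have hw2 : 1 / 2 ≤ w := by linarith [(abs_le.1 h).1]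
    have hw3 : w ≤ 3 / 2 := by linarith [(abs_le.1 h).2]
    set s := √w with hs
    have hs0 : 1 / 2 ≤ s := (Real.le_sqrt (by norm_num) hw).2 (by linarith)
    have hs1 : s ≤ 2 := (Real.sqrt_le_left (by norm_num)).2 (by linarith)
    have ea : a = u / s := ha (by linarith)
    by_cases h2 : R < |a + o| ∧ R < |u + o|
    · rw [hP.hf.zero _ h2.1, hP.hf.zero _ h2.2, sub_zero, abs_zero]; positivity
    · have hu : |u| ≤ 2 * (|R| + |O|) := by
        rw [not_and_or, not_lt, not_lt] at h2
        rcases h2 with h2 | h2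
        · have : u = s * a := by rw [ea]; field_simp
          rw [this, abs_mul, abs_of_nonneg (by linarith : 0 ≤ s)]
          have h3 := abs_add_le (a + o) (-o)
          rw [add_neg_cancel_right, abs_neg] at h3
          exact mul_le_mul hs1 (by linarith [le_abs_self R, le_abs_self O]) (abs_nonneg _) zero_le_two
        · have h3 := abs_add_le (u + o) (-o)
          rw [add_neg_cancel_right, abs_neg] at h3
          linarith [le_abs_self R, le_abs_self O, abs_nonneg R, abs_nonneg O]
      have hL : |f (a + o) - f (u + o)| ≤ Bp * |a + o - (u + o)| := by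
        simpa [Real.norm_eq_abs] using Convex.norm_image_sub_le_of_norm_hasDerivWithin_le
          (f := f) (f' := f1) (s := Set.univ) (C := Bp) (fun x _ => (hP.d1 x).hasDerivWithinAt)
          (fun x _ => by rw [Real.norm_eq_abs]; exact hP.hf1.bound x) convex_univ
          (Set.mem_univ (u + o)) (Set.mem_univ (a + o))
      have hd : |a + o - (u + o)| ≤ |u| * (2 * |w - 1|) := by
        rw [show a + o - (u + o) = u * ((1 - s) / s) by rw [ea]; field_simp; ring, abs_mul, abs_div,
          abs_of_nonneg (by linarith : 0 ≤ s)]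
        refine mul_le_mul_of_nonneg_left ?_ (abs_nonneg _)
        rw [div_le_iff₀ (by linarith : 0 < s)]
        have : |1 - s| * (1 + s) = |w - 1| := by
          rw [← abs_of_nonneg (by linarith : 0 ≤ 1 + s), ← abs_mul, abs_sub_comm w,
            show (1 - s) * (1 + s) = 1 - s ^ 2 by ring, hs, sq_sqrt hw]
        nlinarith [abs_nonneg (1 - s), abs_nonneg (w - 1)]
      have h5 := mul_le_mul_of_nonneg_left (hd.trans (mul_le_mul_of_nonneg_right hu (by positivity))) hB
      have h6 : 0 ≤ Bp * |w - 1| := by positivity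
      refine hL.trans (h5.trans (le_of_sub_nonneg ?_))
      linarith
  · have := abs_sub (f (a + o)) (f (u + o))
    nlinarith [hP.hf.bound (a + o), hP.hf.bound (u + o), abs_nonneg R, abs_nonneg O,
      mul_nonneg hB (abs_nonneg R), mul_nonneg hB (abs_nonneg O)]

theorem pow_four_le (x : ℝ) : x ^ 4 ≤ 24 * (exp x + exp (-x)) := by
  have h := pow_div_factorial_le_exp |x| (abs_nonneg x) 4
  rw [← Even.pow_abs ⟨2, rfl⟩ x]
  have h2 : exp |x| ≤ exp x + exp (-x) := by
    rcases abs_cases x with ⟨h, -⟩ | ⟨h, -⟩ <;> rw [h] <;> linarith [exp_pos x, exp_pos (-x)]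
  rw [div_le_iff₀ (by positivity)] at h
  norm_num [Nat.factorial] at h
  rw [show (2 : ℕ) + 2 = 4 from rfl]
  nlinarith

theorem memLp_sq_gauss : MemLp (fun x : ℝ => x ^ 2) 2 (gaussianReal 0 1) := by
  rw [memLp_two_iff_integrable_sq (by fun_prop)]
  refine Integrable.mono' ((integrable_exp_mul_gaussianReal (μ := 0) (v := 1) 1).add
    (integrable_exp_mul_gaussianReal (μ := 0) (v := 1) (-1)) |>.const_mul 24) (by fun_prop)
    (ae_of_all _ fun x => ?_)
  simp only [Pi.add_apply, one_mul, neg_one_mul, Real.norm_eq_abs]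
  rw [abs_of_nonneg (by positivity), ← pow_mul]
  exact pow_four_le x

theorem integral_sq_gauss : ∫ x : ℝ, x ^ 2 ∂gaussianReal 0 1 = 1 := by
  have h := variance_id_gaussianReal (μ := 0) (v := 1)
  rw [variance_eq_integral aemeasurable_id] at h
  simpa using h

/-- The squared length of a Gaussian vector concentrates. -/
theorem exists_length_bound : ∃ c, 0 ≤ c ∧ ∀ n : ℕ, 1 ≤ n →
    Integrable (fun g : Fin n → ℝ => |(∑ i, g i ^ 2) / n - 1|) (stdG (Fin n)) ∧
    ∫ g, |(∑ i, g i ^ 2) / n - 1| ∂stdG (Fin n) ≤ c / √n := by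
  set v := variance (fun x : ℝ => x ^ 2) (gaussianReal 0 1) with hv
  have hv0 : 0 ≤ v := variance_nonneg _ _
  refine ⟨(1 + v) / 2, by positivity, fun n hn => ?_⟩
  have hn0 : (0 : ℝ) < n := by exact_mod_cast hn
  have hmp : ∀ i : Fin n, MeasurePreserving (fun g : Fin n → ℝ => g i) (stdG (Fin n)) (gaussianReal 0 1) :=
    fun i => measurePreserving_eval (fun _ : Fin n => gaussianReal 0 1) i
  have hc : ∀ i : Fin n, MemLp (fun g : Fin n → ℝ => g i ^ 2) 2 (stdG (Fin n)) := fun i =>
    memLp_sq_gauss.comp_measurePreserving (hmp i)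
  set S : (Fin n → ℝ) → ℝ := fun g => ∑ i, g i ^ 2 with hS
  have hSm : MemLp S 2 (stdG (Fin n)) := memLp_finsetSum _ fun i _ => hc i
  have hSi := hSm.integrable one_le_two
  have hE : ∫ g, S g ∂stdG (Fin n) = n := by
    rw [hS, integral_finsetSum _ fun i _ => (hc i).integrable one_le_two]
    have : ∀ i : Fin n, ∫ g, g i ^ 2 ∂stdG (Fin n) = 1 := fun i => by
      rw [← integral_sq_gauss, ← (hmp i).map_eq, integral_map (hmp i).measurable.aemeasurable
        (by fun_prop)]
    simp [this]
  have hV : variance S (stdG (Fin n)) = n * v := by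
    have h := variance_sum_pi (μ := fun _ : Fin n => gaussianReal 0 1)
      (X := fun _ (x : ℝ) => x ^ 2) fun _ => memLp_sq_gauss
    rw [sum_const, card_univ, Fintype.card_fin, nsmul_eq_mul] at h
    rw [← h]
    congr 1
    funext g
    simp [hS]
  have hd : MemLp (fun g => S g / n - 1) 2 (stdG (Fin n)) :=
    ((hSm.const_mul (1 / (n : ℝ))).sub (memLp_const 1)).ae_eq (ae_of_all _ fun g => by simp [div_eq_inv_mul])
  have hi : Integrable (fun g => |S g / n - 1|) (stdG (Fin n)) := (hd.integrable one_le_two).abs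
  refine ⟨hi, ?_⟩
  have hsq : ∫ g, (S g / n - 1) ^ 2 ∂stdG (Fin n) = v / n := by
    have h := variance_eq_integral hSm.aemeasurable
    rw [hV, hE] at h
    have e : (fun g => (S g / n - 1) ^ 2) = fun g => (1 / n ^ 2) * (S g - n) ^ 2 := by
      funext g; field_simp
    rw [e, integral_const_mul, ← h]
    field_simp
  set a := 1 / √n with ha
  have ha0 : 0 < a := by positivity
  have hp : ∀ g, |S g / n - 1| ≤ a / 2 + (S g / n - 1) ^ 2 / (2 * a) := fun g => by
    rw [← sq_abs (S g / n - 1), div_add_div _ _ two_ne_zero (by positivity), le_div_iff₀ (by positivity)]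
    nlinarith [sq_nonneg (|S g / n - 1| - a)]
  have hi2 : Integrable (fun g => (S g / n - 1) ^ 2 / (2 * a)) (stdG (Fin n)) :=
    (hd.integrable_sq).div_const _
  refine (integral_mono hi ((integrable_const _).add hi2) hp).trans (le_of_eq ?_)
  rw [integral_add' (integrable_const _) hi2, integral_const, probReal_univ, one_smul, integral_div, hsq, ha]
  have : √(n : ℝ) * √n = n := Real.mul_self_sqrt hn0.le
  field_simp
  linear_combination v * this

end Vale.Agent.P166.Rsb.Tilt
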