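import Vale.Agent.P166.Rsb.Cav.TiltGen
import Vale.Agent.P166.Rsb.Cav.TiltPot
import Vale.Agent.P166.Rsb.Energy.Collapse

/-!
# P166: cutting the potentials of a tilt off costs little, uniformly in the number of levels
-/

open MeasureTheory ProbabilityTheory Real Finset
open Vale.Agent.P157.Rsb
open Vale.Agent.P166.Rsb.Energy (BPot val_gap linB_pot)

namespace Vale.Agent.P166.Rsb.Tilt

variable {p : ℕ}

theorem sum_cut_exp (u v : Fin p → ℝ) {M : ℝ} (hv : ∀ r, v r ≤ 0)
    (h : ∀ r, v r = u r ∨ v r ≤ -M) : exp (∑ r, v r) ≤ exp (∑ r, u r) + exp (-M) := by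
  by_cases hh : ∀ r, v r = u r
  · simp only [hh]; linarith [exp_pos (-M)]
  · obtain ⟨r, hr⟩ := not_forall.1 hh
    refine le_add_of_nonneg_of_le (exp_pos _).le (exp_le_exp.2 ?_)
    rw [← add_sum_erase _ _ (mem_univ r)]
    have := sum_nonpos fun i (_ : i ∈ univ.erase r) => hv i
    linarith [(h r).resolve_left hr]

/-- A depth that makes the cut harmless, uniformly in the system. -/
theorem exists_cut_gap {δ : ℝ} (hδ : 0 < δ) :
    ∃ M₀ : ℝ, 0 < M₀ ∧ ∀ M : ℝ, M₀ ≤ M → ∀ (k : ℕ) (Z X : Type) (_ : MeasurableSpace Z)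
      (_ : MeasurableSpace X) (γ : Measure Z) (μ : Measure X), IsProbabilityMeasure γ →
      IsProbabilityMeasure μ → ∀ (w : Size γ) (H g g1 : (Fin k → Z) → X → ℝ), LinB w H → BPot g →
      BPot g1 → (∀ z x, g z x ≤ g1 z x) → (∀ z x, g1 z x ≤ 0) →
      (∀ z x, exp (g1 z x) ≤ exp (g z x) + exp (-M)) → ∀ z,
      |val γ μ (fun z x => H z x + g1 z x) 0 z - val γ μ (fun z x => H z x + g z x) 0 z|
        ≤ δ + δ * cnd γ μ H (fun z x => g z x ^ 2) 0 z := by
  set q := min 1 (δ / 2) with hq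
  have hq0 : 0 < q := lt_min one_pos (by linarith)
  refine ⟨2 / δ + 1 / (δ * q ^ 2), by positivity,
    fun M hM k Z X _ _ γ μ hγ hμ w H g g1 hH hg hg1 h01 h1 he z => ?_⟩
  have h := val_gap (γ := γ) (μ := μ) hH hg hg1 h01 h1 he hq0 (min_le_left _ _)
    (by positivity : 0 < 2 / δ) z
  have h2 : exp (q * (2 / δ - M)) / q ≤ δ := by
    have hy : 1 / (δ * q) ≤ q * (M - 2 / δ) := by
      have := mul_le_mul_of_nonneg_left (le_sub_iff_add_le'.2 hM) hq0.le
      refine le_of_eq_of_le ?_ this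
      field_simp
    have he : exp (q * (2 / δ - M)) ≤ δ * q := by
      rw [show q * (2 / δ - M) = -(q * (M - 2 / δ)) by ring, exp_neg, inv_le_iff_one_le_mul₀ (exp_pos _)]
      have h3 := mul_le_mul_of_nonneg_left
        (hy.trans ((le_add_of_nonneg_right zero_le_one).trans (add_one_le_exp _))) (by positivity : 0 ≤ δ * q)
      rw [mul_one_div_cancel (by positivity : δ * q ≠ 0)] at h3
      exact h3
    rw [div_le_iff₀ hq0]; exact he
  have h3 : 1 / (2 / δ) + q ≤ δ := by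
    rw [one_div_div]; linarith [min_le_right 1 (δ / 2)]
  have hc := cnd_nonneg (γ := γ) (μ := μ) (H := H) (φ := fun z x => g z x ^ 2)
    (fun z x => sq_nonneg _) 0 z
  have hm := val_mono (γ := γ) (μ := μ) (linB_pot hH hg) (linB_pot hH hg1)
    (fun z x => by linarith [h01 z x]) 0 z
  rw [abs_of_nonneg (sub_nonneg.2 hm)]
  nlinarith [mul_le_mul_of_nonneg_right h3 hc]

end Vale.Agent.P166.Rsb.Tilt
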