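import Vale.Agent.P166.Rsb.Cav.TiltHyb
import Vale.Agent.P166.Rsb.Slot.Main

/-!
# P166: replacing one special by a field
-/

open MeasureTheory ProbabilityTheory Real Finset
open Vale.Agent.P157 (cubeLaw coin)
open Vale.Agent.P157.Rsb
open Vale.Agent.P157.Rsb.Slot (Pot)
open Vale.Agent.P166.Rsb.Slot (kerFld Sys IsKer keep keep2 mp_keep2)

namespace Vale.Agent.P166.Rsb.Tilt

variable {d N k p : ℕ}

/-- The coordinates free to rotate when the special `r₀` is replaced. -/
def freeSet (c : Fin N → Fin (d + 1)) (sp : Fin p → Fin N) (r₀ : Fin p) : Finset (Fin N) :=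
  univ.filter fun i => c i = Fin.last d ∧ ∀ r, r ≠ r₀ → sp r ≠ i

/-- The rotation of all coordinates of a level. -/
def hMap (V : Fin N → Fin N → ℝ) (y : HIdx N p → ℝ) : HIdx N p → ℝ :=
  Sum.elim (fldMap V fun i => y (.inl i)) fun i => y (.inr i)

theorem mp_hMap {V : Fin N → Fin N → ℝ} (hV : IsOrth V) :
    MeasurePreserving (hMap (p := p) V) (stdG (HIdx N p)) (stdG (HIdx N p)) := by
  have h := (mp_split (ι := Fld N) (κ := Fin p ⊕ Unit)).symm
    (MeasurableEquiv.sumPiEquivProdPi fun _ : HIdx N p => ℝ)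
  exact h.comp (((mp_fldMap hV).prod (MeasurePreserving.id _)).comp mp_split)

/-- The combination of a Gaussian vector. -/
noncomputable def dirVec (T' : Finset (Fin N)) (j : Fin N) (g : Fin T'.card → ℝ) (l : Fin N) : ℝ :=
  if ∑ i, g i ^ 2 = 0 then bas j l
  else if h : l ∈ T' then g (T'.equivFin ⟨l, h⟩) / √(∑ i, g i ^ 2) else 0

variable {T' : Finset (Fin N)} {j : Fin N}

theorem dirVec_out (hj : j ∈ T') (g : Fin T'.card → ℝ) : ∀ i ∉ T', dirVec T' j g i = 0 := fun i hi => by
  have : i ≠ j := fun h => hi (h ▸ hj)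
  unfold dirVec
  split_ifs <;> simp [bas, this]

theorem sum_dirVec (hj : j ∈ T') (g : Fin T'.card → ℝ) (hg : ∑ i, g i ^ 2 ≠ 0) (y : Fin N → ℝ) :
    ∑ l, dirVec T' j g l * y l = (∑ i, g i * y (T'.equivFin.symm i)) / √(∑ i, g i ^ 2) := by
  rw [← sum_subset (subset_univ T') fun l _ hl => by rw [dirVec_out hj g l hl, zero_mul],
    ← sum_coe_sort T' fun l => dirVec T' j g l * y l, sum_div,
    ← T'.equivFin.symm.sum_comp fun l : T' => dirVec T' j g l * y l]
  refine sum_congr rfl fun i _ => ?_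
  rw [dirVec, if_neg hg, dif_pos (T'.equivFin.symm i).2, Subtype.coe_eta, Equiv.apply_symm_apply]
  ring

theorem dirVec_unit (hj : j ∈ T') (g : Fin T'.card → ℝ) : dirVec T' j g ⬝ᵥ dirVec T' j g = 1 := by
  by_cases hg : ∑ i, g i ^ 2 = 0
  · have : dirVec T' j g = bas j := funext fun l => by rw [dirVec, if_pos hg]
    simp [this, bas, dotProduct, Pi.single_apply]
  · rw [dotProduct, sum_dirVec hj g hg]
    have e : ∀ i, g i * dirVec T' j g (T'.equivFin.symm i) = g i ^ 2 / √(∑ i, g i ^ 2) := fun i => by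
      rw [dirVec, if_neg hg, dif_pos (T'.equivFin.symm i).2, Subtype.coe_eta, Equiv.apply_symm_apply]
      ring
    simp only [e]
    rw [← sum_div, div_div, Real.mul_self_sqrt (sum_nonneg fun i _ => sq_nonneg _), div_self hg]

variable (D : Dat N d p) {R Bp : ℝ} {f1 f2 f3 : ℝ → ℝ → ℝ}

/-- The fields are moved, the replaced coordinates stay. -/
theorem Dat.hyb_move {r₀ : Fin p} {S : Finset (Fin p)} (hr : r₀ ∉ S) {V : Fin N → Fin N → ℝ}
    (hV : MovesIn (freeSet D.c D.sp r₀) V) (U : Fin N → Fin N → ℝ)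
    (z : Fin k → HIdx N p → ℝ) (x : HLeaf N p) :
    D.hyb (mul V U) univ S z x = D.hyb U (univ.erase r₀) S (fun l => hMap V (z l)) x
      + D.φ (D.T r₀) (rotate (mul V U) x.1 (D.sp r₀) + sh (D.T r₀) (D.b r₀) (spin x.2.2)) := by
  have hS : ∀ i ∈ freeSet D.c D.sp r₀, D.c i = Fin.last d := fun i hi => (mem_filter.1 hi).2.1
  have hout : ∀ r, r ≠ r₀ → rotate (mul V U) x.1 (D.sp r) = rotate U x.1 (D.sp r) := fun r hr' =>
    hV.rotate_out (fun h => (mem_filter.1 h).2.2 r hr' rfl) U x.1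
  have e1 : ∀ r ∈ univ.erase r₀, D.term (mul V U) S r z x = D.term U S r (fun l => hMap V (z l)) x := fun r hr' => by
    have := hout r (ne_of_mem_erase hr')
    simp only [Dat.term, this, hMap, Sum.elim_inr]
  simp only [Dat.hyb]
  rw [← add_sum_erase univ _ (mem_univ r₀), sum_congr rfl e1]
  simp only [Dat.base, hamU_move hS hV, Dat.term, if_neg hr]
  simp only [hMap, Sum.elim_inr]
  unfold zl zr
  simp only [Sum.elim_inl, Sum.elim_inr]
  ring

theorem mp_leafUpd (N : ℕ) (r₀ : Fin p) :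
    MeasurePreserving (fun x : HLeaf N p × ℝ => (x.1.1, (Function.update x.1.2.1 r₀ x.2, x.1.2.2)))
      ((hLaw N p).prod (gaussianReal 0 1)) (hLaw N p) := by
  have hu : MeasurePreserving (fun z : (Fin p → ℝ) × ℝ => Function.update z.1 r₀ z.2)
      ((stdG (Fin p)).prod (gaussianReal 0 1)) (stdG (Fin p)) := P150.measurePreserving_update (κ := Fin p) r₀
  have h1 : MeasurePreserving (fun q : ((Fin p → ℝ) × Bool) × ℝ => (Function.update q.1.1 r₀ q.2, q.1.2))
      (((stdG (Fin p)).prod coin).prod (gaussianReal 0 1)) ((stdG (Fin p)).prod coin) :=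
    (hu.prod (MeasurePreserving.id coin)).comp
      (((measurePreserving_prodAssoc (stdG (Fin p)) (gaussianReal 0 1) coin).symm
        MeasurableEquiv.prodAssoc).comp
        (((MeasurePreserving.id (stdG (Fin p))).prod (Measure.measurePreserving_swap (μ := coin))).comp
          (measurePreserving_prodAssoc (stdG (Fin p)) coin (gaussianReal 0 1))))
  exact ((MeasurePreserving.id (cubeLaw N)).prod h1).comp
    (measurePreserving_prodAssoc (cubeLaw N) ((stdG (Fin p)).prod coin) (gaussianReal 0 1))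

/-- The potential of the rotated special. -/
noncomputable def Dat.movedTerm (r₀ : Fin p) (V U : Fin N → Fin N → ℝ) (_z : Fin k → HIdx N p → ℝ)
    (x : HLeaf N p) : ℝ :=
  D.φ (D.T r₀) (rotate (mul V U) x.1 (D.sp r₀) + sh (D.T r₀) (D.b r₀) (spin x.2.2))

theorem Dat.movedTerm_meas (hD : D.Bdd Bp) (r₀ : Fin p) (V U : Fin N → Fin N → ℝ) :
    Measurable (Function.uncurry (D.movedTerm (k := k) r₀ V U)) := by
  have h1 : Measurable fun q : (Fin k → HIdx N p → ℝ) × HLeaf N p => rotate (mul V U) q.2.1 (D.sp r₀) :=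
    (measurable_of_countable fun s : Fin N → Bool => rotate (mul V U) s (D.sp r₀)).comp
      (measurable_fst.comp measurable_snd)
  have h2 : Measurable fun q : (Fin k → HIdx N p → ℝ) × HLeaf N p => sh (D.T r₀) (D.b r₀) (spin q.2.2.2) :=
    (measurable_of_countable fun x : Bool => sh (D.T r₀) (D.b r₀) (spin x)).comp
      (measurable_snd.comp (measurable_snd.comp measurable_snd))
  exact (hD r₀).1.comp (h1.add h2)

/-- The system after a rotation of the free coordinates. -/
noncomputable def Dat.movedH (S : Finset (Fin p)) (r₀ : Fin p) (V U : Fin N → Fin N → ℝ)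
    (z : Fin k → HIdx N p → ℝ) (x : HLeaf N p) : ℝ :=
  D.hyb U (univ.erase r₀) S z x + D.movedTerm r₀ V U z x

/-- The value after a rotation of the free coordinates. -/
theorem Dat.hybV_move (hD : D.Bdd Bp) {S : Finset (Fin p)} {r₀ : Fin p} (hr : r₀ ∉ S)
    {V : Fin N → Fin N → ℝ} (hV : MovesIn (freeSet D.c D.sp r₀) V) (U : Fin N → Fin N → ℝ) :
    LinB (gaussSize (HIdx N p)) (D.movedH (k := k) S r₀ V U) ∧
    D.hybV (mul V U) k univ S
      = val (stdG (HIdx N p)) (hLaw N p) (D.movedH (k := k) S r₀ V U) 0 (fun _ _ => 0) := by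
  have hGL : LinB (gaussSize (HIdx N p)) (D.movedH (k := k) S r₀ V U) :=
    linB_add_bdd (D.hyb_linB (k := k) U hD (univ.erase r₀) S) (d := D.movedTerm (k := k) r₀ V U)
      (D.movedTerm_meas hD r₀ V U) fun _ _ => (hD r₀).2 _
  refine ⟨hGL, ?_⟩
  have h := (val_map (γ' := stdG (HIdx N p)) (μ' := hLaw N p) (mp_hMap hV.1)
    (MeasurePreserving.id (hLaw N p)) hGL 0 fun _ _ => 0).1
  have e0 : (fun _ : Fin k => hMap (p := p) V fun _ => 0) = fun _ _ => (0 : ℝ) := by
    funext l i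
    rcases i with (i | i) | i <;> simp [hMap, fldMap]
  rw [e0] at h
  refine Eq.trans ?_ h
  exact congrArg (fun F => val (stdG (HIdx N p)) (hLaw N p) F 0 fun _ _ => (0 : ℝ))
    (funext₂ fun z x => D.hyb_move hr hV U z x)

/-- The direction of a Gaussian vector, as an argument of the potential. -/
theorem row_arg (hj : j ∈ T') (g : Fin T'.card → ℝ) (U : Fin N → Fin N → ℝ) (x : Fin N → Bool)
    (hw : (∑ i, g i ^ 2) / T'.card ≠ 0) :
    rotate (mul (hh j (dirVec T' j g)) U) x j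
      = sdot g (fun i => rotate U x (T'.equivFin.symm i) / √T'.card) / √((∑ i, g i ^ 2) / T'.card) := by
  have hg : ∑ i, g i ^ 2 ≠ 0 := fun h => hw (by rw [h, zero_div])
  have hn : (0 : ℝ) < T'.card := by exact_mod_cast card_pos.2 ⟨_, hj⟩
  have hS0 : 0 < ∑ i, g i ^ 2 := (sum_nonneg fun i _ => sq_nonneg _).lt_of_ne' hg
  rw [rotate_hh (dirVec_unit hj g), sum_dirVec hj g hg (rotate U x), Real.sqrt_div hS0.le, sdot]
  simp only [mul_div_assoc']
  rw [← sum_div, div_div_div_eq]
  field_simp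

/-- A rotation inside the last block produces the direction of the row. -/
theorem Dat.row_close (hD : D.Bdd Bp) {S : Finset (Fin p)} {r₀ : Fin p} {U : Fin N → Fin N → ℝ}
    {g : Fin (freeSet D.c D.sp r₀).card → ℝ}
    (hstart : LinB (gaussSize (HIdx N p))
      ((D.rowSys (k := k) U hD S r₀ (freeSet D.c D.sp r₀)).startH (D.φ (D.T r₀)) g))
    (hP : ∀ r, Pot R Bp (D.φ (D.T r)) (f1 (D.T r)) (f2 (D.T r)) (f3 (D.T r)))
    {O : ℝ} (hO : ∀ r x, |sh (D.T r) (D.b r) (spin x)| ≤ O) (hr : r₀ ∉ S)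
    (hj : D.sp r₀ ∈ freeSet D.c D.sp r₀) :
    |D.hybV (mul (hh (D.sp r₀) (dirVec (freeSet D.c D.sp r₀) (D.sp r₀) g)) U) k univ S
        - val (stdG (HIdx N p)) (hLaw N p)
            ((D.rowSys (k := k) U hD S r₀ (freeSet D.c D.sp r₀)).startH (D.φ (D.T r₀)) g) 0 (fun _ _ => 0)|
      ≤ 4 * Bp * (1 + |R| + |O|) * |(∑ i, g i ^ 2) / (freeSet D.c D.sp r₀).card - 1| := by
  obtain ⟨hGL, e⟩ := D.hybV_move (k := k) hD hr
    (movesIn_hh hj (dirVec_unit hj g) (dirVec_out hj g)) U
  rw [e]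
  refine val_close hstart hGL (fun z x => ?_) 0 _
  show |D.hyb U (univ.erase r₀) S z x + D.φ (D.T r₀) (_ + sh (D.T r₀) (D.b r₀) (spin x.2.2))
    - (D.hyb U (univ.erase r₀) S z x + D.φ (D.T r₀) (sdot g _ + sh (D.T r₀) (D.b r₀) (spin x.2.2)))| ≤ _
  rw [add_sub_add_left_eq_sub]
  exact dilate (hP r₀) (hO r₀ x.2.2) (div_nonneg (sum_nonneg fun i _ => sq_nonneg _) (Nat.cast_nonneg _))
    (row_arg hj g U x.1)

/-- The row is replaced by a field. -/
theorem Dat.field_close (hD : D.Bdd Bp) {S : Finset (Fin p)} {r₀ : Fin p}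
    (hP : ∀ r, Pot R Bp (D.φ (D.T r)) (f1 (D.T r)) (f2 (D.T r)) (f3 (D.T r))) (hq : IsKer k D.K D.P)
    (hr : r₀ ∉ S) (U : Fin N → Fin N → ℝ) :
    |∫ g, val (stdG (HIdx N p)) (hLaw N p)
          ((D.rowSys (k := k) U hD S r₀ (freeSet D.c D.sp r₀)).startH (D.φ (D.T r₀)) g) 0 (fun _ _ => 0)
          ∂stdG (Fin (freeSet D.c D.sp r₀).card)
        - D.hybV U k univ (insert r₀ S)|
      ≤ 2 * (Bp * exp (4 * Bp) * Bp) * (exp (4 * (p * Bp)) * D.kerR U k (freeSet D.c D.sp r₀)) := by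
  set T' := freeSet D.c D.sp r₀ with hT'
  have hB0 : 0 ≤ Bp := zero_le_one.trans (hP r₀).one_le
  refine le_trans ?_ (((D.rowSys (k := k) U hD S r₀ T').val_bound (hLaw N p) (hP r₀) hq).trans
    (mul_le_mul_of_nonneg_left (D.totK_le U hD S r₀ T') (by positivity)))
  refine le_of_eq (congrArg (fun u : ℝ => |_ - u|) ?_)
  have hu : MeasurePreserving (fun z : (HIdx N p → ℝ) × ℝ => Function.update z.1 (.inr (.inl r₀)) z.2)
      ((stdG (HIdx N p)).prod (gaussianReal 0 1)) (stdG (HIdx N p)) :=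
    P150.measurePreserving_update (κ := HIdx N p) (.inr (.inl r₀))
  have h := (val_map (γ' := stdG (HIdx N p ⊕ Unit)) (μ' := (hLaw N p).prod (gaussianReal 0 1))
    (hu.comp mp_keep2) (mp_leafUpd N r₀) (D.hyb_linB (k := k) U hD univ (insert r₀ S)) 0 fun _ _ => 0).1
  have e0 : (fun _ : Fin k => ((fun z : (HIdx N p → ℝ) × ℝ => Function.update z.1 (.inr (.inl r₀)) z.2)
      ∘ keep2) fun _ => 0) = fun _ _ => (0 : ℝ) := by
    funext l i
    simp [keep2, keep, Function.update_apply]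
  rw [e0] at h
  rw [Dat.hybV, ← h]
  congr 1
  funext z x
  simp only [Dat.hyb, Sys.endH, Sys.endFld, Dat.rowSys, ← add_sum_erase univ _ (mem_univ r₀),
    Function.comp_apply, keep2]
  have e1 : ∀ r ∈ univ.erase r₀, D.term U (insert r₀ S) r
      (fun l => Function.update (keep (z l)) (.inr (.inl r₀)) (z l (.inr ())))
      (x.1.1, (Function.update x.1.2.1 r₀ x.2, x.1.2.2))
        = D.term U S r (fun l => keep (z l)) x.1 := fun r hr' => by
    have hne : r ≠ r₀ := ne_of_mem_erase hr'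
    simp only [Dat.term, mem_insert, hne, false_or, ne_eq, not_false_iff, Function.update_of_ne,
      Sum.inr.injEq, Sum.inl.injEq]
  rw [sum_congr rfl e1]
  simp only [Dat.base, Dat.term, mem_insert_self, if_true, Function.update_self]
  have e2 : zl (fun l => Function.update (keep (z l)) (.inr (.inl r₀)) (z l (.inr ())))
      = zl (fun l => keep (z l)) := by
    funext l i; simp [zl]
  have e3 : zr (zr (fun l => Function.update (keep (z l)) (.inr (.inl r₀)) (z l (.inr ()))))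
      = zr (zr (fun l => keep (z l))) := by
    funext l i; simp [zr]
  rw [e2, e3]
  ring

/-- One replacement. -/
theorem Dat.step {m : Measure (Fin N → Fin N → ℝ)} (hm : IsHaarOrth m) (hD : D.Bdd Bp)
    (htop : ∀ r, D.c (D.sp r) = Fin.last d) (hinj : Function.Injective D.sp)
    (hP : ∀ r, Pot R Bp (D.φ (D.T r)) (f1 (D.T r)) (f2 (D.T r)) (f3 (D.T r))) (hq : IsKer k D.K D.P)
    {O : ℝ} (hO : ∀ r x, |sh (D.T r) (D.b r) (spin x)| ≤ O) {c₀ : ℝ}
    (hc₀ : ∀ n : ℕ, 1 ≤ n → Integrable (fun g : Fin n → ℝ => |(∑ i, g i ^ 2) / n - 1|) (stdG (Fin n)) ∧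
      ∫ g, |(∑ i, g i ^ 2) / n - 1| ∂stdG (Fin n) ≤ c₀ / √n)
    {S : Finset (Fin p)} {r₀ : Fin p} (hr : r₀ ∉ S) :
    |∫ U, D.hybV U k univ S ∂m - ∫ U, D.hybV U k univ (insert r₀ S) ∂m|
      ≤ 4 * Bp * (1 + |R| + |O|) * (c₀ / √(freeSet D.c D.sp r₀).card)
        + 2 * (Bp * exp (4 * Bp) * Bp) * (exp (4 * (p * Bp))
          * ∫ U, D.kerR U k (freeSet D.c D.sp r₀) ∂m) := by
  have := hm.1
  set T' := freeSet D.c D.sp r₀ with hT'
  have hj : D.sp r₀ ∈ T' := mem_filter.2 ⟨mem_univ _, htop r₀, fun r hne h => hne (hinj h)⟩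
  have hcard : 1 ≤ T'.card := card_pos.2 ⟨_, hj⟩
  have hB0 : 0 ≤ Bp := zero_le_one.trans (hP r₀).one_le
  obtain ⟨hint, hlen⟩ := hc₀ T'.card hcard
  set Sy := fun U => D.rowSys (k := k) U hD S r₀ T' with hSy
  set W : (Fin T'.card → ℝ) → (Fin N → Fin N → ℝ) → ℝ := fun g U =>
    val (stdG (HIdx N p)) (hLaw N p) ((Sy U).startH (D.φ (D.T r₀)) g) 0 fun _ _ => 0 with hW
  have hstart : ∀ g U, LinB (gaussSize (HIdx N p)) ((Sy U).startH (D.φ (D.T r₀)) g) := fun g U =>
    (Sy U).startH_lin (hP r₀).hf g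
  -- measurability and integrability
  have hWm : Measurable fun q : (Fin T'.card → ℝ) × (Fin N → Fin N → ℝ) => W q.1 q.2 := by
    refine val_measurable_param_at (H := fun q : (Fin T'.card → ℝ) × (Fin N → Fin N → ℝ) =>
      (Sy q.2).startH (D.φ (D.T r₀)) q.1) ?_ 0 _
    simp only [Sys.startH, Sys.rowFld, hSy, Dat.rowSys, sdot]
    refine Measurable.add ((D.hyb_meas hD _ S).comp
      (f := fun q : (((Fin T'.card → ℝ) × (Fin N → Fin N → ℝ)) × (Fin k → HIdx N p → ℝ)) × HLeaf N p =>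
        ((q.1.1.2, q.1.2), q.2)) (by fun_prop)) ((hP r₀).hf.meas.comp (Measurable.add ?_ ?_))
    · refine Finset.measurable_sum _ fun i _ => ?_
      exact ((measurable_pi_apply i).comp (measurable_fst.comp (measurable_fst.comp measurable_fst))).mul
        (((measurable_rotate _).comp ((measurable_snd.comp (measurable_fst.comp measurable_fst)).prodMk
          (measurable_fst.comp measurable_snd))).div_const _)
    · exact (measurable_of_countable fun x : Bool => sh (D.T r₀) (D.b r₀) (spin x)).comp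
        (measurable_snd.comp (measurable_snd.comp measurable_snd))
  have hWb : ∀ g U, |W g U - val (stdG (HIdx N p)) (hLaw N p) (D.base (k := k) U) 0 (fun _ _ => 0)|
      ≤ ((univ.erase r₀).card + 1) * Bp := fun g U => by
    refine val_close (D.linB_base U) (hstart g U) (fun z x => ?_) 0 _
    have h1 := abs_le.1 (D.abs_hyb_sub U hD (univ.erase r₀) S z x)
    have h2 := abs_le.1 ((hP r₀).hf.bound ((Sy U).rowFld g x))
    simp only [Sys.startH, hSy, Dat.rowSys] at h2 ⊢
    rw [abs_le]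
    constructor <;> linarith
  set v := val (stdG (Fin p ⊕ Unit)) ((stdG (Fin p)).prod coin)
    (fun (z : Fin k → Fin p ⊕ Unit → ℝ) x => auxH k D.j D.s (zr z) x.2) 0 fun _ _ => 0
  set Q : (Fin N → Fin N → ℝ) → ℝ := fun U =>
    |rootU k D.β D.a D.c (fun _ => 0) D.τ U| + (|v| + ((univ.erase r₀).card + 1) * Bp) with hQ
  have hQi : Integrable Q m :=
    (rootU_integrable D.β D.a D.c hm (k := k) (fun _ => 0) D.τ).abs.add (integrable_const _)
  have hWQ : ∀ g U, |W g U| ≤ Q U := fun g U => by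
    have h := abs_le.1 (hWb g U)
    rw [D.val_base U] at h
    simp only [hQ]
    rw [abs_le]
    constructor <;> linarith [h.1, h.2, le_abs_self v, neg_abs_le v,
      le_abs_self (rootU k D.β D.a D.c (fun _ => 0) D.τ U), neg_abs_le (rootU k D.β D.a D.c (fun _ => 0) D.τ U)]
  have hWi : Integrable (Function.uncurry W) ((stdG (Fin T'.card)).prod m) :=
    (hQi.comp_snd (stdG (Fin T'.card))).mono' hWm.aestronglyMeasurable
      (ae_of_all _ fun q => by rw [Real.norm_eq_abs]; exact hWQ q.1 q.2)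
  have hWg : ∀ g, Integrable (W g) m := fun g => hQi.mono'
    (hWm.comp (measurable_const.prodMk measurable_id)).aestronglyMeasurable
    (ae_of_all _ fun U => by rw [Real.norm_eq_abs]; exact hWQ g U)
  set Cd := 4 * Bp * (1 + |R| + |O|) with hCd
  -- a rotation inside the last block produces the direction of the row
  have hA : ∀ g : Fin T'.card → ℝ,
      |∫ U, D.hybV U k univ S ∂m - ∫ U, W g U ∂m| ≤ Cd * |(∑ i, g i ^ 2) / T'.card - 1| := by
    intro g
    set ξ := dirVec T' (D.sp r₀) g with hξ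
    have hξ1 := dirVec_unit hj g
    have hV : MovesIn T' (hh (D.sp r₀) ξ) := movesIn_hh hj hξ1 (dirVec_out hj g)
    have hiV : Integrable (fun U => D.hybV (mul (hh (D.sp r₀) ξ) U) k univ S) m :=
      MeasurePreserving.integrable_comp_of_integrable
        ⟨(continuous_mul _).measurable, hm.2.2 _ hV.1⟩ (D.hybV_integrable hm hD univ S)
    rw [← integral_move (c := D.c) (fun i hi => (mem_filter.1 hi).2.1) hV hm (D.hybV_meas hD univ S),
      ← integral_sub hiV (hWg g)]
    rw [← Real.norm_eq_abs]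
    refine (norm_integral_le_of_norm_le_const (μ := m) (C := Cd * |(∑ i, g i ^ 2) / T'.card - 1|)
      (ae_of_all _ fun U => ?_)).trans (le_of_eq (by rw [probReal_univ, mul_one]))
    rw [Real.norm_eq_abs]
    exact D.row_close hD (hstart g U) hP hO hr hj
  -- the row is replaced by a field
  have hB : ∀ U, |∫ g, W g U ∂stdG (Fin T'.card) - D.hybV U k univ (insert r₀ S)|
      ≤ 2 * (Bp * exp (4 * Bp) * Bp) * (exp (4 * (p * Bp)) * D.kerR U k T') := fun U => D.field_close hD hP hq hr U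
  have hswap : ∫ g, ∫ U, W g U ∂m ∂stdG (Fin T'.card) = ∫ U, ∫ g, W g U ∂stdG (Fin T'.card) ∂m :=
    integral_integral_swap hWi
  have h1 : |∫ U, D.hybV U k univ S ∂m - ∫ g, ∫ U, W g U ∂m ∂stdG (Fin T'.card)|
      ≤ Cd * (c₀ / √T'.card) := by
    have hi := hWi.integral_prod_left
    simp only [Function.uncurry_apply_pair] at hi
    conv_lhs => rw [show ∫ U, D.hybV U k univ S ∂m
      = ∫ _g : Fin T'.card → ℝ, ∫ U, D.hybV U k univ S ∂m ∂stdG (Fin T'.card) by simp,
      ← integral_sub (integrable_const _) hi]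
    refine (abs_integral_le_integral_abs).trans ((integral_mono ((integrable_const _).sub hi).abs
      (hint.const_mul Cd) hA).trans ?_)
    rw [integral_const_mul]
    exact mul_le_mul_of_nonneg_left hlen (by positivity)
  have h2 : |∫ U, ∫ g, W g U ∂stdG (Fin T'.card) ∂m - ∫ U, D.hybV U k univ (insert r₀ S) ∂m|
      ≤ 2 * (Bp * exp (4 * Bp) * Bp) * (exp (4 * (p * Bp)) * ∫ U, D.kerR U k T' ∂m) := by
    have hi := hWi.integral_prod_right
    simp only [Function.uncurry_apply_pair] at hi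
    rw [← integral_sub hi (D.hybV_integrable hm hD univ _)]
    refine (abs_integral_le_integral_abs).trans ((integral_mono (hi.sub (D.hybV_integrable hm hD univ _)).abs
      (((D.kerR_integrable hm T').const_mul _).const_mul _) hB).trans (le_of_eq ?_))
    rw [integral_const_mul, integral_const_mul]
  rw [hswap] at h1
  exact (abs_sub_le _ _ _).trans (add_le_add h1 h2)

end Vale.Agent.P166.Rsb.Tilt
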