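import Vale.Agent.P166.Rsb.Cav.KerFacts
import Vale.Agent.P166.Rsb.Cav.TiltStep

/-!
# P166: the kernel on the free coordinates is that of the last block
-/

open MeasureTheory ProbabilityTheory Real Finset
open Vale.Agent.P157 (cubeLaw)
open Vale.Agent.P157.Rsb (stdG cnd Tame LinB gaussSize cnd_tower cnd_mono cnd_add cnd_const cnd_const_mul)

namespace Vale.Agent.P166.Rsb.Tilt

variable {d N k p : ℕ} {β : ℝ} {a : Fin (d + 1) → ℝ} {c : Fin N → Fin (d + 1)} {τ : ℕ → ℝ}

theorem tame_obs (ξ : (Fin N → Bool) → ℝ) :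
    Tame (gaussSize (Fld N)) fun (_ : Fin k → Fld N → ℝ) s => ξ s :=
  Tame.of_bdd ((measurable_of_countable ξ).comp measurable_snd) (B := ∑ s, |ξ s|)
    fun _ s => single_le_sum (f := fun s => |ξ s|) (fun _ _ => abs_nonneg _) (mem_univ s)

theorem pairR_le_split (U : Fin N → Fin N → ℝ) (l : ℕ) {ψ ψ0 : (Fin N → Bool) → (Fin N → Bool) → ℝ}
    {u : (Fin N → Bool) → ℝ} {A C : ℝ} (h : ∀ x y, ψ x y ≤ A * ψ0 x y + C + u x + u y) :
    pairR β a c U k (fun _ => 0) τ l ψ
      ≤ A * pairR β a c U k (fun _ => 0) τ l ψ0 + C + 2 * gibR β a c U k (fun _ => 0) τ u := by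
  have hH := hamU_linB (k := k) β a c U (fun _ => 0) τ
  have hb : ∀ ψ : (Fin N → Bool) → (Fin N → Bool) → ℝ, ∀ x y, |ψ x y| ≤ ∑ x, ∑ y, |ψ x y| := fun ψ x y =>
    (single_le_sum (f := fun y => |ψ x y|) (fun _ _ => abs_nonneg _) (mem_univ y)).trans
      (single_le_sum (f := fun x => ∑ y, |ψ x y|) (fun _ _ => by positivity) (mem_univ x))
  have hin : ∀ ψ, Tame (gaussSize (Fld N)) (inner (stdG (Fld N)) (cubeLaw N)
      (hamU (k := k) β a c (fun _ => 0) τ U) ψ l) := fun ψ =>
    tame_inner hH (measurable_of_countable _) (hb ψ) l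
  have e : ∀ ψ, pairR β a c U k (fun _ => 0) τ l ψ = cnd (stdG (Fld N)) (cubeLaw N)
      (hamU (k := k) β a c (fun _ => 0) τ U) (inner (stdG (Fld N)) (cubeLaw N)
        (hamU (k := k) β a c (fun _ => 0) τ U) ψ l) 0 fun _ _ => 0 := fun ψ =>
    P157.Rsb.Slot.rootPair_eq hH ψ l _
  have tu := P157.Rsb.cnd_tame (γ := stdG (Fld N)) (μ := cubeLaw N) hH (tame_obs (k := k) u) l
  have tc : Tame (gaussSize (Fld N)) fun (_ : Fin k → Fld N → ℝ) (_ : Fin N → Bool) => C := tame_obs _
  rw [e ψ, e ψ0]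
  refine (cnd_mono hH (hin ψ) ((((hin ψ0).const_mul A).add tc).add (tame_obs u) |>.add tu)
    (fun z x => ?_) 0 _).trans (le_of_eq ?_)
  · refine (cnd_mono hH (tame_obs (ψ x)) ((((tame_obs (ψ0 x)).const_mul A).add tc).add
      (tame_obs (fun _ => u x)) |>.add (tame_obs u)) (fun _ y => h x y) l z).trans (le_of_eq ?_)
    rw [cnd_add hH ((((tame_obs (ψ0 x)).const_mul A).add tc).add (tame_obs (fun _ => u x))) (tame_obs u),
      cnd_add hH (((tame_obs (ψ0 x)).const_mul A).add tc) (tame_obs (fun _ => u x)),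
      cnd_add hH ((tame_obs (ψ0 x)).const_mul A) tc, cnd_const_mul, cnd_const hH, cnd_const hH]
    rfl
  · rw [cnd_add hH ((((hin ψ0).const_mul A).add tc).add (tame_obs u)) tu,
      cnd_add hH (((hin ψ0).const_mul A).add tc) (tame_obs u), cnd_add hH ((hin ψ0).const_mul A) tc,
      cnd_const_mul, cnd_const hH, cnd_tower hH (Nat.zero_le l)]
    simp only [gibR]
    ring

theorem card_freeSet (sp : Fin p → Fin N) (r₀ : Fin p) :
    ((freeSet c sp r₀).card : ℝ) ≤ nTop c ∧ nTop c ≤ (freeSet c sp r₀).card + p := by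
  classical
  have h1 : freeSet c sp r₀ ⊆ univ.filter fun i => c i = Fin.last d :=
    fun i hi => mem_filter.2 ⟨mem_univ _, (mem_filter.1 hi).2.1⟩
  refine ⟨Nat.cast_le.2 (card_le_card h1), ?_⟩
  have h2 : (univ.filter fun i => c i = Fin.last d) ⊆ freeSet c sp r₀ ∪ univ.image sp := fun i hi => by
    by_cases h : ∀ r, r ≠ r₀ → sp r ≠ i
    · exact mem_union_left _ (mem_filter.2 ⟨mem_univ _, (mem_filter.1 hi).2, h⟩)
    · simp only [not_forall, not_not] at h
      obtain ⟨r, -, hr⟩ := h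
      exact mem_union_right _ (mem_image.2 ⟨r, mem_univ _, hr⟩)
  have h3 : (univ.image sp).card ≤ p := card_image_le.trans_eq (by simp)
  have h4 := (card_le_card h2).trans ((card_union_le _ _).trans (Nat.add_le_add_left h3 _))
  exact (Nat.cast_le (α := ℝ)).2 h4 |>.trans_eq (by push_cast; rfl)

/-- The correction of the removed coordinates. -/
noncomputable def corr (c : Fin N → Fin (d + 1)) (T' : Finset (Fin N)) (U : Fin N → Fin N → ℝ)
    (x : Fin N → Bool) : ℝ :=
  1 / nTop c * ∑ i ∈ (univ.filter fun i => c i = Fin.last d) \ T', (1 / 2 + 1 / 2 * rotate U x i ^ 4)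

/-- The overlap on the free coordinates at a fixed rotation. -/
theorem abs_ovIn_sub_le {L : ℝ} (hN : 1 ≤ N) (hL0 : 0 ≤ L) (hL : (N : ℝ) ≤ L * nTop c) (T' : Finset (Fin N))
    (hsub : T' ⊆ univ.filter fun i => c i = Fin.last d) (hle : (T'.card : ℝ) ≤ nTop c)
    (hge : nTop c ≤ T'.card + p) (hn : 2 * (p : ℝ) + 2 ≤ nTop c) (U : Fin N → Fin N → ℝ)
    (x y : Fin N → Bool) {q : ℝ} (hq : |q| ≤ 1) :
    |ovIn T' U x y - q * N / nTop c|
      ≤ 2 * L * |topOv c U x y - q| + 2 * L * p / nTop c + corr c T' U x + corr c T' U y := by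
  classical
  set n := nTop c with hndef
  set n' : ℝ := (T'.card : ℝ) with hn'
  have hp0 : (0 : ℝ) ≤ p := Nat.cast_nonneg p
  have hnpos : 0 < n := by linarith
  have hn'pos : 0 < n' := by linarith
  have hhalf : n ≤ 2 * n' := by linarith
  have hN0 : (0 : ℝ) < N := by exact_mod_cast hN
  set topS := univ.filter fun i => c i = Fin.last d with htopS
  set E := topS \ T' with hE
  set u : (Fin N → Fin N → ℝ) → (Fin N → Bool) → ℝ := fun U x =>
    1 / n * ∑ i ∈ E, (1 / 2 + 1 / 2 * rotate U x i ^ 4) with hu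
  set C := 2 * L * p / n with hC
  show _ ≤ 2 * L * |topOv c U x y - q| + C + u U x + u U y
  have e : ovIn T' U x y - q * N / n = N / n' * (topOv c U x y - q) + q * N * (1 / n' - 1 / n)
      + -(∑ i ∈ E, rotate U x i * rotate U y i) / n' := by
    have h1 : topOv c U x y * N = ∑ i ∈ T', rotate U x i * rotate U y i + ∑ i ∈ E, rotate U x i * rotate U y i := by
      rw [topOv, div_mul_cancel₀ _ hN0.ne', add_comm, hE, sum_sdiff hsub, htopS, sum_filter]
      refine sum_congr rfl fun i _ => ?_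
      unfold topMask; split_ifs <;> ring
    rw [ovIn, ← hn']
    field_simp
    linear_combination (-n) * h1
  rw [e]
  refine (abs_add_three _ _ _).trans ?_
  have b1 : |N / n' * (topOv c U x y - q)| ≤ 2 * L * |topOv c U x y - q| := by
    rw [abs_mul, abs_of_nonneg (by positivity : 0 ≤ (N : ℝ) / n')]
    refine mul_le_mul_of_nonneg_right ?_ (abs_nonneg _)
    rw [div_le_iff₀ hn'pos]
    nlinarith [mul_le_mul_of_nonneg_left hhalf hL0]
  have b2 : |q * N * (1 / n' - 1 / n)| ≤ C := by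
    have h0 : 0 ≤ 1 / n' - 1 / n := sub_nonneg.2 (one_div_le_one_div_of_le hn'pos hle)
    rw [abs_mul, abs_mul, Nat.abs_cast, abs_of_nonneg h0]
    refine (mul_le_mul_of_nonneg_right (mul_le_of_le_one_left hN0.le hq) h0).trans ?_
    rw [hC, div_sub_div _ _ hn'pos.ne' hnpos.ne', mul_div_assoc', div_le_div_iff₀ (by positivity) hnpos]
    have h1 : (N : ℝ) * (n - n') ≤ L * n * p := mul_le_mul hL (by linarith) (by linarith) (by positivity)
    nlinarith [mul_le_mul_of_nonneg_right h1 hnpos.le,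
      mul_le_mul_of_nonneg_left hhalf (by positivity : 0 ≤ L * p * n)]
  have b3 : |-(∑ i ∈ E, rotate U x i * rotate U y i) / n'| ≤ u U x + u U y := by
    rw [neg_div, abs_neg, abs_div, abs_of_pos hn'pos, div_le_iff₀ hn'pos]
    simp only [hu, ← mul_add, ← sum_add_distrib]
    refine (abs_sum_le_sum_abs _ _).trans ?_
    have h2 : (∑ i ∈ E, |rotate U x i * rotate U y i|) * 2
        ≤ ∑ i ∈ E, (1 / 2 + 1 / 2 * rotate U x i ^ 4 + (1 / 2 + 1 / 2 * rotate U y i ^ 4)) := by
      rw [sum_mul]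
      refine sum_le_sum fun i _ => ?_
      rw [abs_mul]
      nlinarith [sq_nonneg (|rotate U x i| - |rotate U y i|), sq_abs (rotate U x i), sq_abs (rotate U y i),
        sq_nonneg (rotate U x i ^ 2 - 1), sq_nonneg (rotate U y i ^ 2 - 1)]
    set S2 := ∑ i ∈ E, (1 / 2 + 1 / 2 * rotate U x i ^ 4 + (1 / 2 + 1 / 2 * rotate U y i ^ 4))
    have h0 : 0 ≤ ∑ i ∈ E, |rotate U x i * rotate U y i| := by positivity
    rw [mul_comm (1 / n) S2, mul_one_div, div_mul_eq_mul_div, le_div_iff₀ hnpos]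
    nlinarith [mul_le_mul_of_nonneg_left hhalf h0, mul_le_mul_of_nonneg_left h2 hn'pos.le]
  linarith

/-- The mean of the correction. -/
theorem integral_corr_le {m : Measure (Fin N → Fin N → ℝ)} (hm : IsHaarOrth m) {L : ℝ}
    (hL : (N : ℝ) ≤ L * nTop c) (hn0 : 0 < nTop c) (T' : Finset (Fin N))
    (hsub : T' ⊆ univ.filter fun i => c i = Fin.last d) (hge : nTop c ≤ T'.card + p) :
    Integrable (fun U => gibR β a c U k (fun _ => 0) τ (corr c T' U)) m ∧
      ∫ U, gibR β a c U k (fun _ => 0) τ (corr c T' U) ∂m ≤ p * (1 + 3 * L ^ 2) / (2 * nTop c) := by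
  classical
  have := hm.1
  set n := nTop c with hndef
  have hnpos : 0 < n := hn0
  have hN0 : (0 : ℝ) ≤ N := Nat.cast_nonneg N
  set E := (univ.filter fun i => c i = Fin.last d) \ T' with hE
  have hEcard : (E.card : ℝ) ≤ p := by
    have h := card_sdiff_add_card_eq_card hsub
    have h2 : (E.card : ℝ) + T'.card = n := by
      rw [hndef]
      simp only [nTop, blockCard]
      exact_mod_cast h
    linarith
  have huq : Continuous fun y : Fin N → ℝ => 1 / n * ∑ i ∈ E, (1 / 2 + 1 / 2 * y i ^ 4) := by fun_prop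
  refine ⟨integrable_rot hm huq, ?_⟩
  refine (le_of_eq (show _ = rotE m k β a c τ (fun y => 1 / n * ∑ i ∈ E, (1 / 2 + 1 / 2 * y i ^ 4))
    from rfl)).trans ?_
  rw [rotE_mul hm, rotE_sum hm E fun i => by fun_prop]
  have hi : ∀ i ∈ E, rotE m k β a c τ (fun y => 1 / 2 + 1 / 2 * y i ^ 4) ≤ (1 + 3 * L ^ 2) / 2 := by
    intro i hi
    rw [rotE_add hm continuous_const (by fun_prop), rotE_const hm, rotE_mul hm]
    have h4 := rotE_four (k := k) (β := β) (a := a) (τ := τ) hm
      (mem_filter.1 (mem_sdiff.1 hi).1).2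
    have h5 : 3 * (N : ℝ) ^ 2 / n ^ 2 ≤ 3 * L ^ 2 := by
      rw [div_le_iff₀ (by positivity)]
      nlinarith [pow_le_pow_left₀ hN0 hL 2]
    linarith [h4.trans h5]
  refine (mul_le_mul_of_nonneg_left ((sum_le_card_nsmul _ _ _ hi).trans
    (le_of_eq_of_le (nsmul_eq_mul _ _) (mul_le_mul_of_nonneg_right hEcard (by positivity))))
    (by positivity)).trans (le_of_eq ?_)
  field_simp

theorem abs_ovIn_le {U : Fin N → Fin N → ℝ} (hU : IsOrth U) (T' : Finset (Fin N)) (x y : Fin N → Bool) :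
    |ovIn T' U x y| ≤ N := by
  rw [ovIn, abs_div, Nat.abs_cast]
  rcases Nat.eq_zero_or_pos T'.card with h | h
  · simp [h]
  refine (div_le_self (abs_nonneg _) (by exact_mod_cast h)).trans ((abs_sum_le_sum_abs _ _).trans ?_)
  refine (sum_le_sum_of_subset_of_nonneg (subset_univ T') fun i _ _ => abs_nonneg _).trans ?_
  refine le_of_le_of_eq (sum_le_sum (g := fun i => (rotate U x i ^ 2 + rotate U y i ^ 2) / 2)
    fun i _ => ?_) (by rw [← sum_div, sum_add_distrib, sum_sq_rotate hU, sum_sq_rotate hU]; ring)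
  rw [abs_le]
  constructor <;> nlinarith [sq_nonneg (rotate U x i + rotate U y i), sq_nonneg (rotate U x i - rotate U y i)]

theorem meas_ovIn (T' : Finset (Fin N)) (x y : Fin N → Bool) :
    Measurable fun U : Fin N → Fin N → ℝ => ovIn T' U x y := by
  unfold ovIn rotate; fun_prop

theorem meas_topOv (x y : Fin N → Bool) : Measurable fun U : Fin N → Fin N → ℝ => topOv c U x y := by
  unfold topOv rotate; fun_prop

theorem integrable_pair_ovIn {m : Measure (Fin N → Fin N → ℝ)} (hm : IsHaarOrth m) (T' : Finset (Fin N))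
    (l : ℕ) (q : ℝ) :
    Integrable (fun U => pairR β a c U k (fun _ => 0) τ l fun x y => |ovIn T' U x y - q|) m :=
  integrable_of_ae hm (pairR_meas β a c _ τ l fun x y => ((meas_ovIn T' x y).sub_const _).abs)
    (C := N + |q|) fun U hU => abs_pairR_le β a c U _ τ l fun x y => by
      rw [abs_abs]; exact (abs_sub _ _).trans (add_le_add (abs_ovIn_le hU T' x y) le_rfl)

theorem integrable_gib_ovIn {m : Measure (Fin N → Fin N → ℝ)} (hm : IsHaarOrth m) (T' : Finset (Fin N))
    (q : ℝ) : Integrable (fun U => gibR β a c U k (fun _ => 0) τ fun x => |ovIn T' U x x - q|) m :=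
  integrable_of_ae hm (gibR_meas β a c _ τ fun x => ((meas_ovIn T' x x).sub_const _).abs)
    (C := N + |q|) fun U hU => abs_gibR_le β a c U _ τ fun x => by
      rw [abs_abs]; exact (abs_sub _ _).trans (add_le_add (abs_ovIn_le hU T' x x) le_rfl)

theorem topOv_self (U : Fin N → Fin N → ℝ) (x : Fin N → Bool) : topOv c U x x = topSq c U x / N := by
  simp only [topOv, topSq]
  exact congrArg (· / (N : ℝ)) (sum_congr rfl fun i _ => by ring)

/-- A pair term. -/
theorem integral_pair_le {m : Measure (Fin N → Fin N → ℝ)} (hm : IsHaarOrth m) {T' : Finset (Fin N)}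
    {u : (Fin N → Fin N → ℝ) → (Fin N → Bool) → ℝ}
    (hu : Integrable (fun U => gibR β a c U k (fun _ => 0) τ (u U)) m) {A C q q' : ℝ}
    (h : ∀ U x y, |ovIn T' U x y - q'| ≤ A * |topOv c U x y - q| + C + u U x + u U y) (l : ℕ) :
    ∫ U, pairR β a c U k (fun _ => 0) τ l (fun x y => |ovIn T' U x y - q'|) ∂m
      ≤ A * pairU m k β a c (fun _ => 0) τ l (fun U x y => |topOv c U x y - q|)
        + C + 2 * ∫ U, gibR β a c U k (fun _ => 0) τ (u U) ∂m := by
  have := hm.1
  have i1 := integrable_pair_ovIn (β := β) (a := a) (c := c) (τ := τ) (k := k) hm T' l q'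
  have i2 : Integrable (fun U => pairR β a c U k (fun _ => 0) τ l fun x y => |topOv c U x y - q|) m :=
    integrable_of_ae hm (pairR_meas β a c _ τ l fun x y => ((meas_topOv x y).sub_const _).abs)
      (C := 1 + |q|) fun U hU => abs_pairR_le β a c U _ τ l fun x y => by
        rw [abs_abs]; exact (abs_sub _ _).trans (add_le_add (abs_topOv_le c U hU x y) le_rfl)
  refine (integral_mono i1 (((i2.const_mul A).add (integrable_const C)).add (hu.const_mul 2))
    fun U => pairR_le_split U l (h U)).trans (le_of_eq ?_)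
  rw [integral_add' ((i2.const_mul A).add (integrable_const C)) (hu.const_mul 2),
    integral_add' (i2.const_mul A) (integrable_const C), integral_const_mul, integral_const_mul,
    integral_const, probReal_univ, one_smul, pairU_eq]

/-- The diagonal term. -/
theorem integral_diag_le {m : Measure (Fin N → Fin N → ℝ)} (hm : IsHaarOrth m) {T' : Finset (Fin N)}
    {u : (Fin N → Fin N → ℝ) → (Fin N → Bool) → ℝ}
    (hu : Integrable (fun U => gibR β a c U k (fun _ => 0) τ (u U)) m) {A C q q' : ℝ}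
    (h : ∀ U x y, |ovIn T' U x y - q'| ≤ A * |topOv c U x y - q| + C + u U x + u U y) :
    ∫ U, gibR β a c U k (fun _ => 0) τ (fun x => |ovIn T' U x x - q'|) ∂m
      ≤ A * gibU m k β a c (fun _ => 0) τ (fun U s => |topSq c U s / N - q|)
        + C + 2 * ∫ U, gibR β a c U k (fun _ => 0) τ (u U) ∂m := by
  have := hm.1
  have i1 := integrable_gib_ovIn (β := β) (a := a) (c := c) (τ := τ) (k := k) hm T' q'
  have i2 : Integrable (fun U => gibR β a c U k (fun _ => 0) τ fun x => |topSq c U x / N - q|) m :=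
    integrable_of_ae hm (gibR_meas β a c _ τ fun x =>
      (((continuous_topSq c x).measurable.div_const _).sub_const _).abs)
      (C := 1 + |q|) fun U hU => abs_gibR_le β a c U _ τ fun x => by
        rw [abs_abs, ← topOv_self]; exact (abs_sub _ _).trans (add_le_add (abs_topOv_le c U hU x x) le_rfl)
  refine (integral_mono i1 (((i2.const_mul A).add (integrable_const C)).add (hu.const_mul 2))
    fun U => ?_).trans (le_of_eq ?_)
  · have hH := hamU_linB (k := k) β a c U (fun _ => 0) τ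
    refine (cnd_mono hH (tame_obs _) (tame_obs fun x => A * |topSq c U x / N - q| + C + 2 * u U x)
      (fun _ x => ?_) 0 _).trans (le_of_eq ?_)
    · have h := h U x x
      rw [topOv_self] at h
      linarith
    · show gibR β a c U k (fun _ => 0) τ _ = _
      rw [gibR_add β a c U (fun _ => 0) τ (fun x => A * |topSq c U x / N - q| + C)
        (fun x => 2 * u U x), gibR_add β a c U (fun _ => 0) τ (fun x => A * |topSq c U x / N - q|)
        (fun _ => C), gibR_mul, gibR_mul]
      simp only [gibR, cnd_const hH, Pi.add_apply]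
  · rw [integral_add' ((i2.const_mul A).add (integrable_const C)) (hu.const_mul 2),
      integral_add' (i2.const_mul A) (integrable_const C), integral_const_mul, integral_const_mul,
      integral_const, probReal_univ, one_smul, gibU_eq]

/-- The error on the free coordinates. -/
theorem integral_kerR_le (D : Dat N d p) {m : Measure (Fin N → Fin N → ℝ)} (hm : IsHaarOrth m)
    (hN : 1 ≤ N) {L : ℝ} (hL0 : 0 ≤ L) (hL : (N : ℝ) ≤ L * nTop D.c) (hn : 2 * (p : ℝ) + 2 ≤ nTop D.c)
    (hK : D.K = kerK m k D.β D.a D.c D.τ) (hP : D.P = kerP m k D.β D.a D.c D.τ) (r₀ : Fin p) :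
    ∫ U, D.kerR U k (freeSet D.c D.sp r₀) ∂m
      ≤ 4 * L * topErr m k D.β D.a D.c (fun _ => 0) D.τ + 3 * (p * (2 * L + 1 + 3 * L ^ 2) / nTop D.c) := by
  classical
  have := hm.1
  set T' := freeSet D.c D.sp r₀ with hT'
  obtain ⟨hle, hge⟩ := card_freeSet (c := D.c) D.sp r₀
  have hsub : T' ⊆ univ.filter fun i => D.c i = Fin.last d :=
    fun i hi => mem_filter.2 ⟨mem_univ _, (mem_filter.1 hi).2.1⟩
  have hnpos : 0 < nTop D.c := by linarith [(Nat.cast_nonneg p : (0 : ℝ) ≤ p)]
  obtain ⟨hGi, hG⟩ := integral_corr_le (β := D.β) (a := D.a) (τ := D.τ) (k := k) hm hL hnpos T' hsub hge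
  set G := ∫ U, gibR D.β D.a D.c U k (fun _ => 0) D.τ (corr D.c T' U) ∂m
  set C := 2 * L * p / nTop D.c with hC
  obtain ⟨hpath0, hpath, hpath1⟩ := isPath_qTop (k := k) D.β D.a D.c hm hN (fun _ => 0) D.τ
  have hl : ∀ l ∈ Icc 0 k,
      ∫ U, pairR D.β D.a D.c U k (fun _ => 0) D.τ l (fun x y => |ovIn T' U x y - D.K l|) ∂m
        ≤ 2 * L * pairU m k D.β D.a D.c (fun _ => 0) D.τ l
            (fun U x y => |topOv D.c U x y - qTop m k D.β D.a D.c (fun _ => 0) D.τ l|)
          + C + 2 * G := fun l hl => by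
    have h := P157.Rsb.path_mem (k := k) ⟨hpath0, hpath, hpath1⟩ (mem_Icc.1 hl).2
    refine integral_pair_le hm hGi (fun U x y => ?_) l
    rw [hK]
    exact abs_ovIn_sub_le hN hL0 hL T' hsub hle hge hn U x y
      (abs_le.2 ⟨by linarith [h.1], by linarith [h.2]⟩)
  have hd : ∫ U, gibR D.β D.a D.c U k (fun _ => 0) D.τ (fun x => |ovIn T' U x x - D.P|) ∂m
      ≤ 2 * L * gibU m k D.β D.a D.c (fun _ => 0) D.τ
          (fun U s => |topSq D.c U s / N - pTop m k D.β D.a D.c (fun _ => 0) D.τ|) + C + 2 * G := by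
    have h := Syn.pTop_mem (k := k) D.β D.c (fun _ => 0) hm D.τ D.a
    refine integral_diag_le hm hGi fun U x y => ?_
    rw [hP]
    exact abs_ovIn_sub_le hN hL0 hL T' hsub hle hge hn U x y
      (abs_le.2 ⟨by linarith [h.1], by linarith [h.2]⟩)
  simp only [Dat.kerR]
  rw [integral_add ((integrable_finsetSum _ fun l _ => integrable_pair_ovIn hm T' l _).const_mul _)
      ((integrable_gib_ovIn hm T' _).const_mul _),
    integral_const_mul, integral_const_mul, integral_finsetSum _ fun l _ => integrable_pair_ovIn hm T' l _]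
  refine (add_le_add (mul_le_mul_of_nonneg_left (sum_le_sum hl) P157.Rsb.mass_pos.le)
    (mul_le_mul_of_nonneg_left hd zero_le_two)).trans ?_
  rw [sum_add_distrib, sum_add_distrib, sum_const, sum_const, Nat.card_Icc, ← mul_sum, nsmul_eq_mul,
    nsmul_eq_mul, topErr]
  have hmass : P157.Rsb.mass k * (((k + 1 - 0 : ℕ)) : ℝ) = 1 := by
    simp only [P157.Rsb.mass, Nat.sub_zero, Nat.cast_add, Nat.cast_one]
    rw [div_mul_cancel₀ _ (by positivity)]
  have hG3 : 3 * (C + 2 * G) ≤ 3 * (p * (2 * L + 1 + 3 * L ^ 2) / nTop D.c) := by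
    have : C + 2 * (p * (1 + 3 * L ^ 2) / (2 * nTop D.c)) = p * (2 * L + 1 + 3 * L ^ 2) / nTop D.c := by
      rw [hC]; field_simp; ring
    linarith
  set S := ∑ l ∈ Icc 0 k, pairU m k D.β D.a D.c (fun _ => 0) D.τ l
      (fun U x y => |topOv D.c U x y - qTop m k D.β D.a D.c (fun _ => 0) D.τ l|) with hS
  have hS0 : 0 ≤ P157.Rsb.mass k * S :=
    mul_nonneg P157.Rsb.mass_pos.le (sum_nonneg fun l _ => by
      rw [pairU_eq]
      exact integral_nonneg fun U => P157.Rsb.cnd_nonneg (fun z _ =>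
        P157.Rsb.cnd_nonneg (fun _ _ => P157.Rsb.cnd_nonneg (fun _ _ => abs_nonneg _) _ _) _ _) 0 _)
  generalize ((k + 1 - 0 : ℕ) : ℝ) = M at hmass ⊢
  calc _ = 2 * L * (P157.Rsb.mass k * S) + P157.Rsb.mass k * M * (C + 2 * G) + 2 * (2 * L *
        gibU m k D.β D.a D.c (fun _ => 0) D.τ
          (fun U s => |topSq D.c U s / N - pTop m k D.β D.a D.c (fun _ => 0) D.τ|) + C + 2 * G) := by ring
    _ ≤ _ := by rw [hmass]; linarith [mul_nonneg hL0 hS0]

end Vale.Agent.P166.Rsb.Tilt
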