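import Vale.Agent.P166.Rsb.CavPins
import Vale.Agent.P166.Rsb.Cav.TiltCut

/-!
# P166: the all-Gaussian system of a tilt with cut-off potentials
-/

open MeasureTheory ProbabilityTheory Real Finset Filter Topology
open Vale.Agent.P157 (coin)
open Vale.Agent.P157.Rsb
open Vale.Agent.P166.Rsb.Energy (BPot linB_pot)
open Vale.Agent.P166.Rsb.Slot (IsKer kerFld)

namespace Vale.Agent.P166.Rsb.Tilt

variable {k p : ℕ}

/-- The offset of a completed square. -/
noncomputable def sh (T b σ : ℝ) : ℝ := -(b * σ / T)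

theorem abs_spin (x : Bool) : |spin x| = 1 := by cases x <;> simp [spin]

theorem adm_of {t B T b : ℝ} (h : (t ≤ T ∧ T ≤ B ∧ |b| ≤ B) ∨ (T = 0 ∧ b = 0)) : Adm t B T :=
  h.imp (fun h => ⟨h.1, h.2.1⟩) And.left

theorem abs_sh_le {t B T b : ℝ} (ht : 0 < t) (hB : 0 ≤ B)
    (h : (t ≤ T ∧ T ≤ B ∧ |b| ≤ B) ∨ (T = 0 ∧ b = 0)) (x : Bool) : |sh T b (spin x)| ≤ B / t := by
  rcases h with ⟨hT, -, hb⟩ | ⟨rfl, rfl⟩
  · rw [sh, abs_neg, abs_div, abs_mul, abs_spin, mul_one, abs_of_pos (ht.trans_le hT)]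
    exact div_le_div₀ hB hb ht hT
  · simp only [sh, zero_mul, zero_div, neg_zero, abs_zero]; positivity

/-- Completing the square. -/
theorem tilt_square {t B T b : ℝ} (ht : 0 < t) (h : (t ≤ T ∧ T ≤ B ∧ |b| ≤ B) ∨ (T = 0 ∧ b = 0))
    (x : Bool) (y : ℝ) :
    b * spin x * y - T / 2 * y ^ 2 = quad T (y + sh T b (spin x)) + b ^ 2 / (2 * T) := by
  rcases h with ⟨hT, -, -⟩ | ⟨rfl, rfl⟩
  · have : T ≠ 0 := (ht.trans_le hT).ne'
    unfold quad sh
    cases x <;> simp only [spin, if_true, Bool.false_eq_true, if_false] <;> field_simp <;> ring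
  · simp [quad]

/-- The field on the new spin alone. -/
noncomputable def auxH (k j : ℕ) (s : ℝ) (z : Fin k → Unit → ℝ) (x : Bool) : ℝ :=
  auxTerm j s (fun l => z l ()) (spin x)

theorem auxH_linB (k j : ℕ) (s : ℝ) : LinB (gaussSize Unit) (auxH k j s) := by
  refine ⟨?_, √s + |s| / 2, by positivity, fun z x => ?_⟩
  · simp only [Function.uncurry_def, auxH, auxTerm]
    refine measurable_from_prod_countable_left fun x => ?_
    have h : ∀ l : Fin k, Measurable fun z : Fin k → Unit → ℝ => if (l : ℕ) + 1 = j then z l () else 0 :=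
      fun l => by split_ifs <;> fun_prop
    fun_prop
  · simp only [auxH, auxTerm]
    refine (abs_sub _ _).trans ?_
    rw [abs_mul, abs_mul, abs_spin, mul_one, abs_of_nonneg (sqrt_nonneg s), abs_div, abs_two]
    have h : |∑ l : Fin k, if (l : ℕ) + 1 = j then z l () else 0| ≤ (gaussSize Unit).tot z := by
      refine (abs_sum_le_sum_abs _ _).trans (sum_le_sum fun l _ => ?_)
      simp only [gaussSize, univ_unique, sum_singleton]
      split_ifs <;> simp
    have ht := (gaussSize Unit).tot_nonneg z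
    nlinarith [mul_le_mul_of_nonneg_left h (sqrt_nonneg s), sqrt_nonneg s, abs_nonneg s]

/-- The sum of the potentials of the Gaussian fields. -/
noncomputable def fldPot (F : ℝ → ℝ → ℝ) (T b : Fin p → ℝ) (K : ℕ → ℝ) (P : ℝ)
    (z : Fin k → Fin p ⊕ Unit → ℝ) (x : (Fin p → ℝ) × Bool) : ℝ :=
  ∑ r, F (T r) (kerFld k K P (fun l => z l (.inl r)) (x.1 r) + sh (T r) (b r) (spin x.2))

/-- The all-Gaussian system. -/
noncomputable def fieldH (F : ℝ → ℝ → ℝ) (T b : Fin p → ℝ) (K : ℕ → ℝ) (P : ℝ) (j : ℕ) (s : ℝ)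
    (z : Fin k → Fin p ⊕ Unit → ℝ) (x : (Fin p → ℝ) × Bool) : ℝ :=
  auxH k j s (zr z) x.2 + fldPot F T b K P z x

/-- The value of the all-Gaussian system. -/
noncomputable def fieldV (k : ℕ) (F : ℝ → ℝ → ℝ) (T b : Fin p → ℝ) (K : ℕ → ℝ) (P : ℝ) (j : ℕ) (s : ℝ) : ℝ :=
  val (stdG (Fin p ⊕ Unit)) ((stdG (Fin p)).prod coin) (fieldH (k := k) F T b K P j s) 0 fun _ _ => 0

theorem base_linB (k p j : ℕ) (s : ℝ) :
    LinB (gaussSize (Fin p ⊕ Unit)) fun (z : Fin k → Fin p ⊕ Unit → ℝ) (x : (Fin p → ℝ) × Bool) =>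
      auxH k j s (zr z) x.2 := by
  have h := linB_split (H := fun (_ : Fin k → Fin p → ℝ) (_ : Fin p → ℝ) => (0 : ℝ))
    (⟨measurable_const, 0, le_rfl, fun _ _ => by simp⟩ : LinB (gaussSize (Fin p)) _) (auxH_linB k j s)
  simpa using h

theorem fldPot_meas {F : ℝ → ℝ → ℝ} (T b : Fin p → ℝ) (hF : ∀ r, Measurable (F (T r))) (K : ℕ → ℝ)
    (P : ℝ) : Measurable (Function.uncurry (fldPot (k := k) F T b K P)) := by
  unfold fldPot
  simp only [Function.uncurry_def]
  refine Finset.measurable_sum _ fun r _ => (hF r).comp (Measurable.add ?_ ?_)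
  · unfold kerFld; fun_prop
  · exact (measurable_of_countable fun x : Bool => sh (T r) (b r) (spin x)).comp
      (measurable_snd.comp measurable_snd)

theorem fldPot_bpot {F : ℝ → ℝ → ℝ} (T b : Fin p → ℝ) (hF : ∀ r, Measurable (F (T r))) {L : ℝ}
    (hL : ∀ r u, |F (T r) u| ≤ L) (K : ℕ → ℝ) (P : ℝ) : BPot (fldPot (k := k) F T b K P) :=
  ⟨fldPot_meas T b hF K P, ∑ _r : Fin p, L, fun _ _ =>
    (abs_sum_le_sum_abs _ _).trans (sum_le_sum fun r _ => hL r _)⟩

theorem integral_exp_gauss (a : ℝ) : ∫ y, exp (a * y) ∂gaussianReal 0 1 = exp (a ^ 2 / 2) := by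
  have h := congrFun (mgf_id_gaussianReal (μ := (0 : ℝ)) (v := 1)) a
  simpa [mgf] using h

theorem val_zero_ham {Z X : Type} [MeasurableSpace Z] [MeasurableSpace X] {γ : Measure Z}
    {μ : Measure X} [IsProbabilityMeasure γ] [IsProbabilityMeasure μ] (j : ℕ) (z : Fin k → Z) :
    val γ μ (fun _ _ => (0 : ℝ)) j z = 0 := by
  induction j using levels_induction (k := k) generalizing z with
  | htop j hj => simp [val_of_le hj, val_top]
  | hstep j hj hjk ih => simp [val_step hj hjk, ih]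

/-- The exponential moment of one field, cut at `c`. -/
theorem cnd_exp_fld {q : ℕ → ℝ} {Q : ℝ} (hq : IsKer k q Q) {c e : ℝ} (hc : 0 ≤ c) (he : e ^ 2 = 1) :
    cnd (gaussianReal 0 1) (gaussianReal 0 1) (fun _ _ => 0)
      (fun (z : Fin k → ℝ) t => min c (exp (e * kerFld k q Q z t))) 0 (fun _ => 0) ≤ exp (Q / 2) := by
  set φ : (Fin k → ℝ) → ℝ → ℝ := fun z t => min c (exp (e * kerFld k q Q z t))
  set S : ℕ → (Fin k → ℝ) → ℝ := fun j z => ∑ l : Fin k, if (l : ℕ) < j then √(q (l + 1) - q l) * z l else 0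
  have hT : Tame lineSize φ := Tame.of_bdd (measurable_const.min
    (((Slot.kerFld_le q Q).const_mul e).exp)) (B := c) fun z t => by
      rw [abs_of_nonneg (le_min hc (exp_pos _).le)]; exact min_le_left _ _
  suffices h : ∀ j, j ≤ k → ∀ z, cnd (gaussianReal 0 1) (gaussianReal 0 1) (fun _ _ => 0) φ j z
      ≤ exp (e * S j z + (Q - q j) / 2) by
    refine (h 0 (Nat.zero_le k) _).trans (le_of_eq ?_)
    simp [S, hq.1]
  have hL : LinB lineSize fun (_ : Fin k → ℝ) (_ : ℝ) => (0 : ℝ) :=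
    ⟨measurable_const, 0, le_rfl, fun _ _ => by simp⟩
  intro j
  induction j using levels_induction (k := k) with
  | htop j hj =>
    intro hjk z
    obtain rfl : j = k := le_antisymm hjk hj
    rw [cnd_top]
    simp only [exp_zero, mul_one, integral_const, probReal_univ, smul_eq_mul, div_one]
    refine (integral_mono (g := fun t => exp (e * S j z) * exp (e * √(Q - q j) * t)) ?_
      ((integrable_exp_mul_gaussianReal _).const_mul _) fun t => ?_).trans (le_of_eq ?_)
    · have := integrable_leaf (μ := gaussianReal 0 1) hL hT z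
      simpa using this
    · refine (min_le_right _ _).trans (le_of_eq ?_)
      show _ = exp (e * S j z) * exp (e * √(Q - q j) * t)
      rw [← exp_add]
      congr 1
      simp only [kerFld, S, Fin.is_lt, if_true]
      ring
    · rw [integral_const_mul, integral_exp_gauss, ← exp_add, mul_pow, he, one_mul,
        sq_sqrt (sub_nonneg.2 hq.2.2)]
  | hstep j hj hjk ih =>
    intro _ z
    rw [cnd_step hj hjk]
    simp only [val_zero_ham, mul_zero, exp_zero, mul_one, integral_const, probReal_univ, smul_eq_mul, div_one]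
    have hi := (integrable_cnd_step (γ := gaussianReal 0 1) (μ := gaussianReal 0 1) hL hT (j := j) z (j - 1))
    simp only [val_zero_ham, mul_zero, exp_zero, mul_one] at hi
    have hinc : 0 ≤ q j - q (j - 1) := by
      have := hq.2.1 (j - 1) (by omega)
      rw [Nat.sub_add_cancel hj] at this
      linarith
    refine (integral_mono (g := fun y => exp (e * S (j - 1) z + (Q - q j) / 2)
      * exp (e * √(q j - q (j - 1)) * y)) hi ((integrable_exp_mul_gaussianReal _).const_mul _)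
      fun y => ?_).trans (le_of_eq ?_)
    · refine (ih hjk _).trans (le_of_eq ?_)
      show _ = exp (e * S (j - 1) z + (Q - q j) / 2) * exp (e * √(q j - q (j - 1)) * y)
      rw [← exp_add]
      congr 1
      have hS : S j (put z (j - 1) y) = S (j - 1) z + √(q j - q (j - 1)) * y := by
        have e1 : ∀ l : Fin k, (if (l : ℕ) < j then √(q (l + 1) - q l) * put z (j - 1) y l else 0)
            = (if (l : ℕ) < j - 1 then √(q (l + 1) - q l) * z l else 0)
              + if l = ⟨j - 1, by omega⟩ then √(q j - q (j - 1)) * y else 0 := fun l => by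
          rcases lt_trichotomy (l : ℕ) (j - 1) with h | h | h
          · rw [if_pos (by omega), if_pos h, if_neg (fun e => by simp [e] at h), put, if_neg h.ne, add_zero]
          · rw [if_pos (by omega), if_neg (by omega), if_pos (Fin.ext h), put, if_pos h, zero_add, h,
              Nat.sub_add_cancel hj]
          · rw [if_neg (by omega), if_neg (by omega), if_neg (fun e => by simp [e] at h), add_zero]
        simp only [S, e1, sum_add_distrib, sum_ite_eq', mem_univ, if_true]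
      rw [hS]; ring
    · rw [integral_const_mul, integral_exp_gauss, ← exp_add, mul_pow, he, one_mul, sq_sqrt hinc]
      ring_nf

/-- The exponential moment of one coordinate of the fields, in the system of the new spin. -/
theorem cnd_exp_coord {q : ℕ → ℝ} {Q : ℝ} (hq : IsKer k q Q) {c e : ℝ} (hc : 0 ≤ c) (he : e ^ 2 = 1)
    (r : Fin p) :
    cnd (stdG (Fin p)) (stdG (Fin p)) (fun (_ : Fin k → Fin p → ℝ) _ => (0 : ℝ))
      (fun z t => min c (exp (e * kerFld k q Q (fun l => z l r) (t r)))) 0 (fun _ _ => 0)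
      ≤ exp (Q / 2) := by
  have hmp : MeasurePreserving (fun y : Fin p → ℝ => y r) (stdG (Fin p)) (gaussianReal 0 1) :=
    measurePreserving_eval (fun _ : Fin p => gaussianReal 0 1) r
  refine le_of_eq_of_le ?_ (cnd_exp_fld hq hc he)
  have hz : LinB lineSize fun (_ : Fin k → ℝ) (_ : ℝ) => (0 : ℝ) :=
    ⟨measurable_const, 0, le_rfl, fun _ _ => by simp⟩
  exact (val_map (γ' := stdG (Fin p)) (μ' := stdG (Fin p)) hmp hmp hz 0 fun _ _ => 0).2
    (fun z t => min c (exp (e * kerFld k q Q z t)))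
    (Tame.of_bdd (measurable_const.min (((Slot.kerFld_le q Q).const_mul e).exp)) (B := c) fun z t => by
      rw [abs_of_nonneg (le_min hc (exp_pos _).le)]; exact min_le_left _ _)

/-- The quadratic potential cut at `n`. -/
noncomputable def qcut (n : ℝ) (T u : ℝ) : ℝ := max (quad T u) (-n)

theorem abs_qcut_le {n T : ℝ} (hn : 0 ≤ n) (hT : 0 ≤ T) (u : ℝ) : |qcut n T u| ≤ n := by
  rw [qcut, abs_le]
  exact ⟨le_max_right _ _, max_le ((quad_nonpos hT u).trans hn) (by linarith)⟩

theorem four_add (a b : ℝ) : (a + b) ^ 4 ≤ 8 * (a ^ 4 + b ^ 4) := by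
  have h : (a + b) ^ 2 ≤ 2 * (a ^ 2 + b ^ 2) := by nlinarith [sq_nonneg (a - b)]
  nlinarith [pow_le_pow_left₀ (sq_nonneg _) h 2, sq_nonneg (a ^ 2 - b ^ 2)]

/-- The constant in the bound of a squared potential. -/
noncomputable def qK (B O : ℝ) : ℝ := 2 * B ^ 2 * O ^ 4 + 2 * B ^ 2

theorem quad_sq_le {B O T : ℝ} (hT : 0 ≤ T) (hTB : T ≤ B) {o : ℝ} (ho : |o| ≤ O) (y : ℝ) :
    quad T (y + o) ^ 2 ≤ qK B O * (1 + y ^ 4) := by
  have h2 := pow_le_pow_left₀ hT hTB 2
  have h4 : o ^ 4 ≤ O ^ 4 := by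
    rw [← Even.pow_abs (n := 4) ⟨2, rfl⟩ o]; exact pow_le_pow_left₀ (abs_nonneg _) ho 4
  have h5 := mul_le_mul_of_nonneg_left h4 (sq_nonneg B)
  have hy : 0 ≤ y ^ 4 := by positivity
  have hO : 0 ≤ O ^ 4 := by positivity
  have e : quad T (y + o) ^ 2 = T ^ 2 / 4 * (y + o) ^ 4 := by unfold quad; ring
  rw [e, qK]
  nlinarith [mul_le_mul h2 (four_add y o) (by positivity) (sq_nonneg B),
    mul_nonneg (mul_nonneg (sq_nonneg B) hO) hy, sq_nonneg B]

/-- An observable of the left coordinates. -/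
theorem tame_left {ι κ X Y : Type} [Fintype ι] [Fintype κ] [MeasurableSpace X] [MeasurableSpace Y]
    {φ : (Fin k → ι → ℝ) → X → ℝ} (hφ : Tame (gaussSize ι) φ) :
    Tame (gaussSize (ι ⊕ κ)) fun z (x : X × Y) => φ (zl z) x.1 := by
  obtain ⟨C, hC, hb⟩ := hφ.bound
  refine ⟨hφ.meas.comp (f := fun q : (Fin k → ι ⊕ κ → ℝ) × (X × Y) => (zl q.1, q.2.1))
      ((measurable_zl.comp measurable_fst).prodMk (measurable_fst.comp measurable_snd)),
    C, hC, fun z x => (hb _ _).trans (mul_le_mul_of_nonneg_left (exp_le_exp.2 ?_) hC)⟩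
  rw [← tot_split z]
  nlinarith [(gaussSize κ).tot_nonneg (zr z)]

/-- The second moment of bounded potentials below the quadratic ones. -/
theorem fld_moment {F : ℝ → ℝ → ℝ} {t B L n : ℝ} (T b : Fin p → ℝ) (ht : 0 < t) (hB : 0 ≤ B)
    (hT : ∀ r, (t ≤ T r ∧ T r ≤ B ∧ |b r| ≤ B) ∨ (T r = 0 ∧ b r = 0)) {K : ℕ → ℝ} {P : ℝ}
    (hq : IsKer k K P) (hPL : P ≤ L) (j : ℕ) (s : ℝ) (hF : ∀ r, Measurable (F (T r)))
    (hFn : ∀ r u, |F (T r) u| ≤ n) (hFq : ∀ r u, |F (T r) u| ≤ |quad (T r) u|) :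
    cnd (stdG (Fin p ⊕ Unit)) ((stdG (Fin p)).prod coin) (fun z x => auxH k j s (zr z) x.2)
        (fun z x => fldPot F T b K P z x ^ 2) 0 (fun _ _ => 0)
      ≤ (p : ℝ) * ∑ _r : Fin p, qK B (B / t) * (25 + 48 * exp (L / 2)) := by
  set Q := qK B (B / t) with hQdef
  have hK0 : 0 ≤ Q := by rw [hQdef, qK]; positivity
  set c : ℝ := n ^ 2 / (24 * Q) with hc
  have hc0 : 0 ≤ c := by positivity
  set Ψ : (Fin k → Fin p → ℝ) → (Fin p → ℝ) → ℝ := fun z t => (p : ℝ) * ∑ r, Q *
    (25 + 24 * (min c (exp (1 * kerFld k K P (fun l => z l r) (t r)))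
      + min c (exp (-1 * kerFld k K P (fun l => z l r) (t r))))) with hΨ
  have hmin : ∀ (e : ℝ) (r : Fin p), Tame (gaussSize (Fin p)) fun (z : Fin k → Fin p → ℝ) (t : Fin p → ℝ) =>
      min c (exp (e * kerFld k K P (fun l => z l r) (t r))) := fun e r =>
    Tame.of_bdd (measurable_const.min (Measurable.exp (by unfold kerFld; fun_prop))) (B := c) fun z t => by
      rw [abs_of_nonneg (le_min hc0 (exp_pos _).le)]; exact min_le_left _ _
  have hone : Tame (gaussSize (Fin p)) fun (_ : Fin k → Fin p → ℝ) (_ : Fin p → ℝ) => (25 : ℝ) :=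
    Tame.of_bdd measurable_const (B := |25|) fun _ _ => le_rfl
  have hsum : ∀ r : Fin p, Tame (gaussSize (Fin p)) fun (z : Fin k → Fin p → ℝ) (t : Fin p → ℝ) =>
      Q * (25 + 24 * (min c (exp (1 * kerFld k K P (fun l => z l r) (t r)))
        + min c (exp (-1 * kerFld k K P (fun l => z l r) (t r))))) := fun r =>
    (hone.add (((hmin 1 r).add (hmin (-1) r)).const_mul 24)).const_mul Q
  have hΨT : Tame (gaussSize (Fin p)) Ψ := (Tame.sum univ fun r _ => hsum r).const_mul (p : ℝ)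
  have hz : LinB (gaussSize (Fin p)) fun (_ : Fin k → Fin p → ℝ) (_ : Fin p → ℝ) => (0 : ℝ) :=
    ⟨measurable_const, 0, le_rfl, fun _ _ => by simp⟩
  have hsplit := (val_split (μ₀ := stdG (Fin p)) (ν := coin) hz (auxH_linB k j s) 0 fun _ _ => 0).2 Ψ hΨT
  simp only [zero_add] at hsplit
  have hgT : Tame (gaussSize (Fin p ⊕ Unit)) fun z x => fldPot (k := k) F T b K P z x ^ 2 := by
    obtain ⟨L', hL'⟩ := (fldPot_bpot (k := k) T b hF hFn K P).2
    refine Tame.of_bdd ((fldPot_meas T b hF K P).pow_const 2) (B := L' ^ 2) fun z x => ?_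
    rw [abs_pow]; exact pow_le_pow_left₀ (abs_nonneg _) (hL' z x) 2
  have hT2 : Tame (gaussSize (Fin p ⊕ Unit)) fun (z : Fin k → Fin p ⊕ Unit → ℝ)
      (x : (Fin p → ℝ) × Bool) => Ψ (zl z) x.1 := by
    exact tame_left hΨT
  refine (cnd_mono (base_linB k p j s) hgT hT2 (fun z x => ?_) 0 _).trans (hsplit.trans_le ?_)
  · refine (sq_sum_le_card_mul_sum_sq (s := univ)).trans ?_
    rw [card_univ, Fintype.card_fin]
    refine mul_le_mul_of_nonneg_left (sum_le_sum fun r _ => ?_) (Nat.cast_nonneg _)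
    set y := kerFld k K P (fun l => z l (.inl r)) (x.1 r) with hy
    set u := y + sh (T r) (b r) (spin x.2) with hu
    show F (T r) u ^ 2 ≤ Q * (25 + 24 * (min c (exp (1 * y)) + min c (exp (-1 * y))))
    rw [one_mul, neg_one_mul]
    have hTB : T r ≤ B := (hT r).elim (fun h => h.2.1) fun h => h.1.le.trans hB
    have hT0 : 0 ≤ T r := (hT r).elim (fun h => ht.le.trans h.1) fun h => h.1.ge
    have h1 : F (T r) u ^ 2 ≤ Q * (1 + y ^ 4) :=
      (sq_le_sq.2 (hFq r u)).trans (quad_sq_le hT0 hTB (abs_sh_le ht hB (hT r) x.2) y)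
    have h2 : F (T r) u ^ 2 ≤ n ^ 2 := by
      rw [← sq_abs]; exact pow_le_pow_left₀ (abs_nonneg _) (hFn r u) 2
    rcases eq_or_ne Q 0 with h0 | h0
    · rw [h0] at h1 ⊢; linarith
    · have hm0 : 0 ≤ min c (exp y) := le_min hc0 (exp_pos _).le
      have hm1 : 0 ≤ min c (exp (-y)) := le_min hc0 (exp_pos _).le
      by_cases hy2 : exp y ≤ c ∧ exp (-y) ≤ c
      · rw [min_eq_right hy2.1, min_eq_right hy2.2]
        nlinarith [mul_le_mul_of_nonneg_left (pow_four_le y) hK0]
      · have h4 : c ≤ min c (exp y) + min c (exp (-y)) := by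
          rw [not_and_or, not_le, not_le] at hy2
          rcases hy2 with h | h <;> rw [min_eq_left h.le] <;> linarith
        have h5 : Q * 24 * c = n ^ 2 := by rw [hc]; field_simp
        nlinarith [mul_le_mul_of_nonneg_left h4 (by positivity : 0 ≤ Q * 24)]
  · rw [hΨ, cnd_const_mul]
    refine mul_le_mul_of_nonneg_left ?_ (Nat.cast_nonneg _)
    rw [cnd_finsum hz _ fun r _ => hsum r]
    refine sum_le_sum fun r _ => ?_
    rw [cnd_const_mul, cnd_add hz hone (((hmin 1 r).add (hmin (-1) r)).const_mul 24), cnd_const hz,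
      cnd_const_mul, cnd_add hz (hmin 1 r) (hmin (-1) r)]
    refine mul_le_mul_of_nonneg_left ?_ hK0
    have u1 := cnd_exp_coord (p := p) hq hc0 (e := 1) (by norm_num) r
    have u2 := cnd_exp_coord (p := p) hq hc0 (e := -1) (by norm_num) r
    have u3 : exp (P / 2) ≤ exp (L / 2) := exp_le_exp.2 (by linarith)
    have e0 : zl (fun (_ : Fin k) (_ : Fin p ⊕ Unit) => (0 : ℝ)) = fun _ _ => 0 := rfl
    rw [e0]
    linarith

/-- Cut-off potentials give the value of the Gaussian recursion. -/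
theorem exists_field_gap (hG : GaussStmt) {t B L δ : ℝ} (ht : 0 < t) (hB : 0 ≤ B) (hδ : 0 < δ) (p : ℕ) :
    ∃ M₀ : ℝ, 0 < M₀ ∧ ∀ M, M₀ ≤ M → ∀ (R Bp : ℝ) (φ φ1 φ2 φ3 : ℝ → ℝ → ℝ),
      Cut t B M R Bp φ φ1 φ2 φ3 → ∀ (k : ℕ) (K : ℕ → ℝ) (P : ℝ), IsKer k K P → P ≤ L →
      ∀ (T b : Fin p → ℝ), (∀ r, (t ≤ T r ∧ T r ≤ B ∧ |b r| ≤ B) ∨ (T r = 0 ∧ b r = 0)) →
      ∀ (j : ℕ) (s : ℝ), 1 ≤ j → j ≤ k → 0 ≤ s →
        |fieldV k φ T b K P j s + (∑ r, (b r ^ 2 / (2 * T r) - depth M (T r)))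
            - tiltV k T b K P j s| ≤ δ := by
  set O := B / t with hO
  set G := (p : ℝ) * ∑ _r : Fin p, qK B O * (25 + 48 * exp (L / 2)) with hGdef
  have hK0 : 0 ≤ qK B O := by unfold qK; positivity
  have hG0 : 0 ≤ G := by positivity
  obtain ⟨M₀, hM₀, hgap⟩ := exists_cut_gap (δ := δ / (1 + G)) (by positivity)
  refine ⟨M₀, hM₀, fun M hM R Bp φ φ1 φ2 φ3 hcut k K P hq hPL T b hT j s hj hjk hs => ?_⟩
  have hadm : ∀ r, Adm t B (T r) := fun r => adm_of (hT r)
  have hT0 : ∀ r, 0 ≤ T r := fun r => (hadm r).nonneg ht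
  have hTB : ∀ r, T r ≤ B := fun r => (hadm r).elim And.right fun h => h.le.trans hB
  set f : ℝ → ℝ → ℝ := fun T u => φ T u - depth M T with hf
  set cB := ∑ r, b r ^ 2 / (2 * T r) with hcB
  have hbase := base_linB k p j s
  have hφm : ∀ r, Measurable (φ (T r)) := fun r => (hcut.pot _ (hadm r)).hf.meas
  have hfb : BPot (fldPot (k := k) f T b K P) := fldPot_bpot (F := fun T u => φ T u - depth M T) T b
    (fun r => (hφm r).sub_const (depth M (T r))) (L := |Bp| + |M|) (fun r u => (abs_sub (φ (T r) u) (depth M (T r))).trans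
      (add_le_add (((hcut.pot _ (hadm r)).hf.bound u).trans (le_abs_self _))
        (by unfold depth; split_ifs <;> simp))) K P
  have hφb : BPot (fldPot (k := k) φ T b K P) :=
    fldPot_bpot T b hφm (fun r u => (hcut.pot _ (hadm r)).hf.bound u) K P
  have e1 : fieldV k f T b K P j s = fieldV k φ T b K P j s - ∑ r, depth M (T r) := by
    unfold fieldV
    rw [show (fieldH (k := k) f T b K P j s) = fun z x => fieldH φ T b K P j s z x + -∑ r, depth M (T r) by
      funext z x; simp only [fieldH, fldPot, hf, sum_sub_distrib]; ring]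
    have h := val_add_const (γ := stdG (Fin p ⊕ Unit)) (μ := (stdG (Fin p)).prod coin)
      (linB_pot hbase hφb) (-∑ r, depth M (T r)) 0 fun _ _ => 0
    exact h
  set N₀ := ⌈|Bp| + |M|⌉₊ with hN₀
  set gn : ℕ → ℝ → ℝ → ℝ := fun n => qcut ((n + N₀ : ℕ) : ℝ) with hgn
  have hnb : ∀ n : ℕ, BPot (fldPot (k := k) (gn n) T b K P) := fun n =>
    fldPot_bpot T b (fun r => by show Measurable fun u => max (quad (T r) u) (-((_ : ℕ) : ℝ)); unfold quad; fun_prop)
      (fun r u => abs_qcut_le (Nat.cast_nonneg _) (hT0 r) u) K P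
  -- the gap at a finite cut
  have hn : ∀ n, |fieldV k f T b K P j s - fieldV k (gn n) T b K P j s| ≤ δ := by
    intro n
    have hn0 : (|Bp| + |M| : ℝ) ≤ (n + N₀ : ℕ) := (Nat.le_ceil _).trans (by exact_mod_cast Nat.le_add_left _ _)
    have hle : ∀ r u, gn n (T r) u ≤ f (T r) u := fun r u => by
      refine max_le (hcut.lower _ u (hadm r)) ?_
      have h1 := (abs_le.1 ((hcut.pot _ (hadm r)).hf.bound u)).1
      have h2 : |depth M (T r)| ≤ |M| := by unfold depth; split_ifs <;> simp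
      show _ ≤ φ (T r) u - depth M (T r)
      linarith [le_abs_self (depth M (T r)), le_abs_self Bp]
    have h := hgap M hM k _ _ inferInstance inferInstance (stdG (Fin p ⊕ Unit)) ((stdG (Fin p)).prod coin)
      inferInstance inferInstance (gaussSize _) _ (fldPot (gn n) T b K P) (fldPot f T b K P) hbase (hnb n) hfb
      (fun z x => sum_le_sum fun r _ => hle r _)
      (fun z x => sum_nonpos fun r _ => hcut.upper _ _ (hadm r))
      (fun z x => sum_cut_exp _ _ (fun r => hcut.upper _ _ (hadm r)) fun r =>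
        (hcut.far _ _ (hadm r)).imp_left fun h =>
          le_antisymm (h.trans_le (le_max_left _ _)) (hle r _))
      (fun _ _ => 0)
    refine h.trans ?_
    have hmom := fld_moment T b ht hB hT hq hPL j s (F := gn n) (n := ((n + N₀ : ℕ) : ℝ))
      (fun r => by show Measurable fun u => max (quad (T r) u) (-((_ : ℕ) : ℝ)); unfold quad; fun_prop)
      (fun r u => abs_qcut_le (Nat.cast_nonneg _) (hT0 r) u) (fun r u => by
        have h3 : gn n (T r) u ≤ 0 := max_le (quad_nonpos (hT0 r) u) (neg_nonpos.2 (Nat.cast_nonneg _))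
        rw [abs_of_nonpos h3, abs_of_nonpos (quad_nonpos (hT0 r) u), neg_le_neg_iff]
        exact le_max_left _ _)
    calc δ / (1 + G) + δ / (1 + G) * _ ≤ δ / (1 + G) + δ / (1 + G) * G :=
          add_le_add le_rfl (mul_le_mul_of_nonneg_left hmom (by positivity))
      _ = δ := by field_simp
  -- the limit
  have hlim : Tendsto (fun n => fieldV k (gn n) T b K P j s + cB) atTop (𝓝 (tiltV k T b K P j s)) := by
    rw [← hG p k T b K P j s hT0 hq hj hjk hs]
    have hl := fun n => linB_add_bdd (linB_pot hbase (hnb n)) (d := fun _ _ => cB) measurable_const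
      (L := |cB|) fun _ _ => le_rfl
    have hu := linB_add_bdd hbase (d := fun _ _ => cB) measurable_const (L := |cB|) fun _ _ => le_rfl
    refine Tendsto.congr (fun n => (val_add_const (linB_pot hbase (hnb n)) cB 0 _)) ?_
    refine val_tendsto hl hu (fun n z x => ?_) (fun z x => ?_) 0 _
    · have : fldPot (gn n) T b K P z x ≤ 0 := sum_nonpos fun r _ =>
        max_le (quad_nonpos (hT0 r) _) (by linarith [(Nat.cast_nonneg (n + N₀) : (0 : ℝ) ≤ _)])
      linarith
    · have e : auxTerm j s (fun l => z l (.inr ())) (spin x.2)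
            + ∑ r, (b r * spin x.2 * kerFld k K P (fun l => z l (.inl r)) (x.1 r)
                - T r / 2 * kerFld k K P (fun l => z l (.inl r)) (x.1 r) ^ 2)
          = auxH k j s (zr z) x.2 + fldPot quad T b K P z x + cB := by
        simp only [tilt_square ht (hT _), sum_add_distrib, auxH, zr, fldPot, hcB]
        ring
      rw [e]
      refine (tendsto_const_nhds.add (tendsto_finsetSum _ fun r _ => ?_)).add_const _
      set u := kerFld k K P (fun l => z l (.inl r)) (x.1 r) + sh (T r) (b r) (spin x.2)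
      refine tendsto_const_nhds.congr' ((eventually_ge_atTop ⌈-quad (T r) u⌉₊).mono fun n hn => ?_)
      refine (max_eq_left ?_).symm
      have : -quad (T r) u ≤ (n + N₀ : ℕ) :=
        (Nat.le_ceil _).trans (by exact_mod_cast hn.trans (Nat.le_add_right _ _))
      linarith
  have := le_of_tendsto' ((tendsto_const_nhds (x := fieldV k f T b K P j s + cB)).sub hlim).abs fun n => by
    rw [add_sub_add_right_eq_sub]; exact hn n
  rw [e1] at this
  rw [sum_sub_distrib, ← hcB]
  refine le_of_eq_of_le (congrArg abs ?_) this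
  ring

end Vale.Agent.P166.Rsb.Tilt
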