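import Vale.Agent.P157.Rsb.PatEnds
import Vale.Agent.P157.Rsb.Upd

/-!
# P166: tilts, independent parts and limits of nested recursions
-/

open MeasureTheory ProbabilityTheory Real Finset Filter Topology
open Vale.Agent.P157.Rsb
open Vale.Agent.P157.Rsb.Slot

namespace Vale.Agent.P166.Rsb.Tilt

variable {k : ℕ} {Z X : Type} [MeasurableSpace Z] [MeasurableSpace X]
  {γ : Measure Z} {μ : Measure X} {w : Size γ} [IsProbabilityMeasure γ]
  [IsFiniteMeasure μ] [NeZero μ]
  {H H' : (Fin k → Z) → X → ℝ}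

theorem val_mono (hH : LinB w H) (hH' : LinB w H') (h : ∀ z x, H z x ≤ H' z x) (j : ℕ)
    (z : Fin k → Z) : val γ μ H j z ≤ val γ μ H' j z := by
  have h1 := cnd_exp_le (γ := γ) (μ := μ) hH hH' j z
  have h2 := cnd_nonneg (γ := γ) (μ := μ) (H := H) (φ := fun z x => H' z x - H z x)
    (fun z x => sub_nonneg.2 (h z x)) j z
  linarith

theorem val_add_const (hH : LinB w H) (c : ℝ) (j : ℕ) (z : Fin k → Z) :
    val γ μ (fun z x => H z x + c) j z = val γ μ H j z + c := by
  have hH' : LinB w fun z x => H z x + c :=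
    linB_add_bdd hH (d := fun _ _ => c) measurable_const (L := |c|) fun _ _ => le_rfl
  have h1 := cnd_exp_le (γ := γ) (μ := μ) hH hH' j z
  have h2 := cnd_exp_le (γ := γ) (μ := μ) hH' hH j z
  simp only [add_sub_cancel_left, sub_add_cancel_left] at h1 h2
  rw [cnd_const hH] at h1
  rw [cnd_const hH'] at h2
  linarith

/-- The inner expectation of an observable of two configurations. -/
noncomputable def inner (γ : Measure Z) (μ : Measure X) (H : (Fin k → Z) → X → ℝ) (ψ : X → X → ℝ)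
    (j : ℕ) (z : Fin k → Z) (x : X) : ℝ :=
  cnd γ μ H (fun _ y => ψ x y) j z

theorem tame_inner (hH : LinB w H) {ψ : X → X → ℝ} (hm : Measurable (Function.uncurry ψ)) {K : ℝ}
    (hK : ∀ x y, |ψ x y| ≤ K) (j : ℕ) : Tame w (inner γ μ H ψ j) := by
  have h1 : Measurable fun p : (X × (Fin k → Z)) × X => H p.1.2 p.2 :=
    hH.meas.comp (f := fun p : (X × (Fin k → Z)) × X => (p.1.2, p.2)) (by fun_prop)
  have h2 : Measurable fun p : (X × (Fin k → Z)) × X => ψ p.1.1 p.2 :=
    hm.comp (f := fun p : (X × (Fin k → Z)) × X => (p.1.1, p.2)) (by fun_prop)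
  have h := cnd_measurable_param (G := X) (γ := γ) (μ := μ) (H := fun _ => H)
    (φ := fun x _ y => ψ x y) h1 h2 j
  exact Tame.of_bdd (h.comp measurable_swap) fun z x =>
    cnd_abs_le (φ := fun _ y => ψ x y) hH
      (hm.comp (f := fun p : (Fin k → Z) × X => (x, p.2)) (by fun_prop)) (fun _ y => hK x y) j z

/-- A bounded tilt changes the mean of a nonnegative observable of two leaves by a bounded factor. -/
theorem rootPair_tilt (hH : LinB w H) (hH' : LinB w H') {L : ℝ} (h : ∀ z x, |H' z x - H z x| ≤ L)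
    {ψ : X → X → ℝ} (hm : Measurable (Function.uncurry ψ)) (h0 : ∀ x y, 0 ≤ ψ x y) {K : ℝ}
    (hK : ∀ x y, |ψ x y| ≤ K) {j : ℕ} (hjk : j ≤ k) (z₀ : Fin k → Z) :
    rootPair γ μ H' ψ j z₀ ≤ exp (4 * L) * rootPair γ μ H ψ j z₀ := by
  rw [rootPair_eq hH', rootPair_eq hH]
  have hi := tame_inner (γ := γ) (μ := μ) hH hm hK j
  have hψ : ∀ x, Tame w fun (_ : Fin k → Z) y => ψ x y := fun x =>
    Tame.of_bdd (hm.comp (f := fun p : (Fin k → Z) × X => (x, p.2)) (by fun_prop)) fun _ y => hK x y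
  have h1 : ∀ z x, inner γ μ H' ψ j z x ≤ exp (2 * L) * inner γ μ H ψ j z x := fun z x =>
    cnd_tilt hH hH' (hψ x) (fun _ y => h0 x y) h hjk z
  refine (cnd_mono hH' (tame_inner hH' hm hK j) (hi.const_mul (exp (2 * L))) h1 0 z₀).trans ?_
  rw [cnd_const_mul, show exp (4 * L) = exp (2 * L) * exp (2 * L) by rw [← exp_add]; ring_nf,
    mul_assoc]
  exact mul_le_mul_of_nonneg_left
    (cnd_tilt hH hH' hi (fun z x => cnd_nonneg (fun _ y => h0 x y) j z) h (Nat.zero_le k) z₀)
    (exp_pos _).le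

section Sum

variable {ι κ Y : Type} [Fintype ι] [Fintype κ] [MeasurableSpace Y] {ν : Measure Y} {μ₀ : Measure X}

/-- The coordinates on the left. -/
def zl (z : Fin k → ι ⊕ κ → ℝ) (l : Fin k) (i : ι) : ℝ := z l (.inl i)

/-- The coordinates on the right. -/
def zr (z : Fin k → ι ⊕ κ → ℝ) (l : Fin k) (i : κ) : ℝ := z l (.inr i)

theorem mp_split : MeasurePreserving (fun y : ι ⊕ κ → ℝ => (fun i => y (.inl i), fun i => y (.inr i)))
    (stdG (ι ⊕ κ)) ((stdG ι).prod (stdG κ)) :=
  measurePreserving_sumPiEquivProdPi (fun _ : ι ⊕ κ => gaussianReal 0 1)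

omit [Fintype ι] [Fintype κ] in
theorem measurable_zl : Measurable (zl : (Fin k → ι ⊕ κ → ℝ) → _) := by unfold zl; fun_prop

omit [Fintype ι] [Fintype κ] in
theorem measurable_zr : Measurable (zr : (Fin k → ι ⊕ κ → ℝ) → _) := by unfold zr; fun_prop

theorem tot_split (z : Fin k → ι ⊕ κ → ℝ) :
    (gaussSize ι).tot (zl z) + (gaussSize κ).tot (zr z) = (gaussSize (ι ⊕ κ)).tot z := by
  simp only [Size.tot, gaussSize, zl, zr, Fintype.sum_sum_type, sum_add_distrib]

variable {H : (Fin k → ι → ℝ) → X → ℝ} {K : (Fin k → κ → ℝ) → Y → ℝ}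

theorem linB_split (hH : LinB (gaussSize ι) H) (hK : LinB (gaussSize κ) K) :
    LinB (gaussSize (ι ⊕ κ)) fun z (x : X × Y) => H (zl z) x.1 + K (zr z) x.2 := by
  obtain ⟨A, hA, ha⟩ := hH.bound
  obtain ⟨A', hA', ha'⟩ := hK.bound
  refine ⟨(hH.meas.comp ((measurable_zl.comp measurable_fst).prodMk (measurable_fst.comp measurable_snd))).add
    (hK.meas.comp ((measurable_zr.comp measurable_fst).prodMk (measurable_snd.comp measurable_snd))),
    A + A', by positivity, fun z x => (abs_add_le _ _).trans ((add_le_add (ha _ _) (ha' _ _)).trans ?_)⟩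
  have t1 := Size.tot_nonneg (gaussSize ι) (zl z)
  have t2 := Size.tot_nonneg (gaussSize κ) (zr z)
  rw [← tot_split z]
  nlinarith

variable [IsProbabilityMeasure μ₀] [IsProbabilityMeasure ν]

/-- Independent parts split. -/
theorem val_split (hH : LinB (gaussSize ι) H) (hK : LinB (gaussSize κ) K) (j : ℕ)
    (z : Fin k → ι ⊕ κ → ℝ) :
    val (stdG (ι ⊕ κ)) (μ₀.prod ν) (fun z x => H (zl z) x.1 + K (zr z) x.2) j z
      = val (stdG ι) μ₀ H j (zl z) + val (stdG κ) ν K j (zr z) ∧
    ∀ φ, Tame (gaussSize ι) φ →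
      cnd (stdG (ι ⊕ κ)) (μ₀.prod ν) (fun z x => H (zl z) x.1 + K (zr z) x.2)
          (fun z x => φ (zl z) x.1) j z = cnd (stdG ι) μ₀ H φ j (zl z) := by
  set W := prodSize (gaussSize ι) (gaussSize κ) with hW
  have ht : ∀ z : Fin k → (ι → ℝ) × (κ → ℝ),
      W.tot z = (gaussSize ι).tot (fun l => (z l).1) + (gaussSize κ).tot (fun l => (z l).2) :=
    fun z => by simp only [Size.tot, hW, prodSize, sum_add_distrib]
  obtain ⟨A, hA, ha⟩ := hH.bound
  obtain ⟨A', hA', ha'⟩ := hK.bound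
  have hsum : LinB W fun z (x : X × Y) => H (fun l => (z l).1) x.1 + K (fun l => (z l).2) x.2 := by
    refine ⟨(hH.meas.comp (f := fun p : (Fin k → (ι → ℝ) × (κ → ℝ)) × (X × Y) =>
        (fun l => (p.1 l).1, p.2.1)) (by fun_prop)).add
      (hK.meas.comp (f := fun p : (Fin k → (ι → ℝ) × (κ → ℝ)) × (X × Y) =>
        (fun l => (p.1 l).2, p.2.2)) (by fun_prop)), A + A', by positivity,
      fun z x => (abs_add_le _ _).trans ((add_le_add (ha _ _) (ha' _ _)).trans ?_)⟩
    have t1 := Size.tot_nonneg (gaussSize ι) fun l => (z l).1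
    have t2 := Size.tot_nonneg (gaussSize κ) fun l => (z l).2
    rw [ht]
    nlinarith
  have hm := fun j z => val_map (γ' := stdG (ι ⊕ κ)) (μ' := μ₀.prod ν) mp_split
    (MeasurePreserving.id (μ₀.prod ν)) hsum j z
  refine ⟨(hm j z).1.trans (val_prod hH hK j _).1, fun φ hφ => ?_⟩
  have hT : Tame W fun z (x : X × Y) => φ (fun l => (z l).1) x.1 * 1 := by
    obtain ⟨C, hC, hc⟩ := hφ.bound
    refine ⟨(hφ.meas.comp (f := fun p : (Fin k → (ι → ℝ) × (κ → ℝ)) × (X × Y) =>
      (fun l => (p.1 l).1, p.2.1)) (by fun_prop)).mul_const 1, C, hC, fun z x => ?_⟩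
    rw [mul_one]
    refine (hc _ _).trans (mul_le_mul_of_nonneg_left (exp_le_exp.2 ?_) hC)
    rw [ht]
    nlinarith [Size.tot_nonneg (gaussSize κ) fun l => (z l).2]
  have h := ((hm j z).2 _ hT).trans ((val_prod hH hK j _).2 φ fun _ _ => 1)
  rw [cnd_const hK, mul_one] at h
  simp only [mul_one] at h
  exact h

/-- Two leaves of an independent part. -/
theorem rootPair_split (hH : LinB (gaussSize ι) H) (hK : LinB (gaussSize κ) K) {ψ : X → X → ℝ}
    (hm : Measurable (Function.uncurry ψ)) {B : ℝ} (hB : ∀ x y, |ψ x y| ≤ B) (j : ℕ) :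
    rootPair (stdG (ι ⊕ κ)) (μ₀.prod ν) (fun z x => H (zl z) x.1 + K (zr z) x.2)
        (fun x y => ψ x.1 y.1) j (fun _ _ => 0) = rootPair (stdG ι) μ₀ H ψ j fun _ _ => 0 := by
  rw [rootPair_eq (linB_split hH hK), rootPair_eq hH]
  have h1 : ∀ (z : Fin k → ι ⊕ κ → ℝ) (x : X × Y),
      cnd (stdG (ι ⊕ κ)) (μ₀.prod ν) (fun z x => H (zl z) x.1 + K (zr z) x.2)
          (fun _ y => ψ x.1 y.1) j z = inner (stdG ι) μ₀ H ψ j (zl z) x.1 := fun z x =>
    (val_split hH hK j z).2 (fun _ y => ψ x.1 y) (Tame.of_bdd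
      (hm.comp (f := fun p : (Fin k → ι → ℝ) × X => (x.1, p.2)) (by fun_prop)) fun _ y => hB x.1 y)
  simp only [h1]
  exact (val_split (μ₀ := μ₀) (ν := ν) hH hK 0 _).2 (inner (stdG ι) μ₀ H ψ j) (tame_inner hH hm hB j)

end Sum

/-- Values converge along pointwise convergent systems with a common upper bound. -/
theorem val_tendsto {Hn : ℕ → (Fin k → Z) → X → ℝ} {Hu : (Fin k → Z) → X → ℝ}
    (hn : ∀ n, LinB w (Hn n)) (hu : LinB w Hu) (hle : ∀ n z x, Hn n z x ≤ Hu z x)
    (hlim : ∀ z x, Tendsto (fun n => Hn n z x) atTop (𝓝 (H z x))) (j : ℕ) (z : Fin k → Z) :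
    Tendsto (fun n => val γ μ (Hn n) j z) atTop (𝓝 (val γ μ H j z)) := by
  induction j using levels_induction (k := k) generalizing z with
  | htop j hj =>
    simp only [val_of_le hj, val_top]
    have i0 := integrable_exp_leaf (μ := μ) hu z
    have hm : ∀ n, AEStronglyMeasurable (fun x => exp (Hn n z x)) μ := fun n =>
      ((hn n).meas_right z).exp.aestronglyMeasurable
    have hl : ∀ᵐ x ∂μ, Tendsto (fun n => exp (Hn n z x)) atTop (𝓝 (exp (H z x))) :=
      ae_of_all _ fun x => (continuous_exp.tendsto _).comp (hlim z x)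
    have hb : ∀ n, ∀ᵐ x ∂μ, ‖exp (Hn n z x)‖ ≤ exp (Hu z x) := fun n => ae_of_all _ fun x => by
      rw [Real.norm_eq_abs, abs_of_pos (exp_pos _), exp_le_exp]; exact hle n z x
    have hi : Integrable (fun x => exp (H z x)) μ := i0.mono'
      (aestronglyMeasurable_of_tendsto_ae _ hm hl) (ae_of_all _ fun x => by
        rw [Real.norm_eq_abs, abs_of_pos (exp_pos _), exp_le_exp]
        exact le_of_tendsto' (hlim z x) fun n => hle n z x)
    exact (continuousAt_log (integral_exp_pos hi).ne').tendsto.comp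
      (tendsto_integral_of_dominated_convergence _ hm i0 hb hl)
  | hstep j hj hjk ih =>
    simp only [val_step hj hjk]
    set m := lev k j
    have hm0 : 0 ≤ m := lev_nonneg j
    obtain ⟨i0, -⟩ := integrable_val_step (γ := γ) (μ := μ) hu (j := j) z (j - 1)
    have hm : ∀ n, AEStronglyMeasurable (fun y => exp (m * val γ μ (Hn n) j (put z (j - 1) y))) γ :=
      fun n => (((val_regular (γ := γ) (μ := μ) (hn n) j).1.comp
        (measurable_put_right z (j - 1))).const_mul m).exp.aestronglyMeasurable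
    have hl : ∀ᵐ y ∂γ, Tendsto (fun n => exp (m * val γ μ (Hn n) j (put z (j - 1) y))) atTop
        (𝓝 (exp (m * val γ μ H j (put z (j - 1) y)))) := ae_of_all _ fun y =>
      (continuous_exp.tendsto _).comp ((ih (put z (j - 1) y)).const_mul m)
    have hb : ∀ n y, exp (m * val γ μ (Hn n) j (put z (j - 1) y))
        ≤ exp (m * val γ μ Hu j (put z (j - 1) y)) := fun n y =>
      exp_le_exp.2 (mul_le_mul_of_nonneg_left (val_mono (hn n) hu (hle n) j _) hm0)
    have hi : Integrable (fun y => exp (m * val γ μ H j (put z (j - 1) y))) γ := i0.mono'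
      (aestronglyMeasurable_of_tendsto_ae _ hm hl) (ae_of_all _ fun y => by
        rw [Real.norm_eq_abs, abs_of_pos (exp_pos _)]
        exact le_of_tendsto' ((continuous_exp.tendsto _).comp ((ih (put z (j - 1) y)).const_mul m))
          fun n => hb n y)
    exact ((continuousAt_log (integral_exp_pos hi).ne').tendsto.comp
      (tendsto_integral_of_dominated_convergence _ hm i0 (fun n => ae_of_all _ fun y => by
        rw [Real.norm_eq_abs, abs_of_pos (exp_pos _)]; exact hb n y) hl)).div_const _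

end Vale.Agent.P166.Rsb.Tilt
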