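import Vale.Agent.P166.Gauss
import Vale.Agent.P166.Rsb.HaarGroup
import Vale.Agent.P166.Rsb.Calc
import Vale.Agent.P166.Rsb.CavDefs
import Vale.Agent.P166.Rsb.Cav.TiltGen

/-!
# P166: rotations inside the last block and moments of its coordinates
-/

open MeasureTheory ProbabilityTheory Real Finset
open Vale.Agent.P157 (cubeLaw)
open Vale.Agent.P157.Rsb (stdG val cnd LinB Tame gaussSize)

namespace Vale.Agent.P166.Rsb.Tilt

variable {d N k : ℕ}

/-- An orthogonal matrix that moves only the coordinates in `S`. -/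
def MovesIn (S : Finset (Fin N)) (V : Fin N → Fin N → ℝ) : Prop :=
  IsOrth V ∧ ∀ i l, (i ∉ S ∨ l ∉ S) → V i l = if i = l then 1 else 0

theorem movesIn_hh {S : Finset (Fin N)} {j : Fin N} (hj : j ∈ S) {ξ : Fin N → ℝ}
    (hξ : ξ ⬝ᵥ ξ = 1) (hS : ∀ i ∉ S, ξ i = 0) : MovesIn S (hh j ξ) := by
  refine ⟨isOrth_hh hξ, fun i l h => ?_⟩
  have hd : ∀ a ∉ S, dv j ξ a = 0 := fun a ha => by
    have : a ≠ j := fun e => ha (e ▸ hj)
    simp [dv, bas, hS a ha, this]
  rcases h with h | h <;> simp [hh, hd _ h]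

theorem hh_row {j : Fin N} {ξ : Fin N → ℝ} (hξ : ξ ⬝ᵥ ξ = 1) (l : Fin N) : hh j ξ j l = ξ l := by
  rw [← congrFun (app_hh_bas (j := j) hξ) l, app_bas]
  exact congrFun (congrFun (tr_hh j ξ).symm j) l

theorem rotate_hh {j : Fin N} {ξ : Fin N → ℝ} (hξ : ξ ⬝ᵥ ξ = 1) (U : Fin N → Fin N → ℝ)
    (s : Fin N → Bool) : rotate (mul (hh j ξ) U) s j = ∑ l, ξ l * rotate U s l := by
  simp only [rotate_mul, hh_row hξ]

theorem MovesIn.rotate_out {S : Finset (Fin N)} {V : Fin N → Fin N → ℝ} (hV : MovesIn S V) {i : Fin N}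
    (hi : i ∉ S) (U : Fin N → Fin N → ℝ) (s : Fin N → Bool) : rotate (mul V U) s i = rotate U s i := by
  simp [rotate_mul, hV.2 i _ (.inl hi)]

variable {c : Fin N → Fin (d + 1)} {S : Finset (Fin N)} {V : Fin N → Fin N → ℝ}

theorem MovesIn.sum_sq (hV : MovesIn S V) {w : Fin N → ℝ} {w₀ : ℝ} (hw : ∀ i ∈ S, w i = w₀)
    (y : Fin N → ℝ) : ∑ i, w i * (∑ l, V i l * y l) ^ 2 = ∑ i, w i * y i ^ 2 := by
  have h1 : ∀ i, (w i - w₀) * (∑ l, V i l * y l) ^ 2 = (w i - w₀) * y i ^ 2 := fun i => by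
    by_cases hi : i ∈ S
    · rw [hw i hi, sub_self, zero_mul, zero_mul]
    · simp [hV.2 i _ (.inl hi)]
  have h2 : ∑ i, (∑ l, V i l * y l) ^ 2 = ∑ i, y i ^ 2 := by
    have e : ∀ i, (∑ l, V i l * y l) ^ 2 = ∑ a, ∑ b, y a * y b * (V i a * V i b) := fun i => by
      rw [sq, sum_mul_sum]; exact sum_congr rfl fun a _ => sum_congr rfl fun b _ => by ring
    simp only [e]
    rw [sum_comm]
    refine sum_congr rfl fun a _ => ?_
    rw [sum_comm]
    simp [← mul_sum, hV.1.2, sq]
  calc _ = ∑ i, ((w i - w₀) * (∑ l, V i l * y l) ^ 2 + w₀ * (∑ l, V i l * y l) ^ 2) :=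
        sum_congr rfl fun i _ => by ring
    _ = ∑ i, ((w i - w₀) * y i ^ 2 + w₀ * y i ^ 2) := by
        simp only [sum_add_distrib, h1, ← mul_sum, h2]
    _ = _ := sum_congr rfl fun i _ => by ring

/-- The action on the fields. -/
def fldMap (V : Fin N → Fin N → ℝ) (y : Fld N → ℝ) : Fld N → ℝ :=
  Sum.elim (fun i => y (.inl i)) fun l => ∑ i, V i l * y (.inr i)

theorem mp_fldMap (hV : IsOrth V) : MeasurePreserving (fldMap V) (stdG (Fld N)) (stdG (Fld N)) := by
  classical
  let M : Matrix (Fld N) (Fld N) ℝ := Matrix.fromBlocks 1 0 0 (Matrix.of V).transpose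
  have hM : M.transpose * M = 1 := by
    simp only [M, Matrix.fromBlocks_transpose, Matrix.transpose_transpose, Matrix.fromBlocks_multiply,
      Matrix.transpose_one, Matrix.transpose_zero, Matrix.one_mul, Matrix.zero_mul, Matrix.mul_zero,
      add_zero, zero_add, (isOrth_iff V).1 hV, Matrix.fromBlocks_one]
  have h := measurePreserving_orth M hM
  have e : (fun g : Fld N → ℝ => M.mulVec g) = fldMap V := by
    funext g i
    rcases i with i | i <;>
      simp [M, fldMap, Matrix.mulVec, dotProduct, Fintype.sum_sum_type, Matrix.one_apply]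
  rw [e] at h
  exact h

variable (hS : ∀ i ∈ S, c i = Fin.last d) (hV : MovesIn S V)
include hS hV

theorem hamU_move (β : ℝ) (a : Fin (d + 1) → ℝ) (σ τ : ℕ → ℝ) (U : Fin N → Fin N → ℝ)
    (z : Fin k → Fld N → ℝ) (s : Fin N → Bool) :
    hamU β a c σ τ (mul V U) z s = hamU β a c σ τ U (fun l => fldMap V (z l)) s := by
  have hm : ∀ i ∈ S, topMask c i = 1 := fun i hi => by simp [topMask, hS i hi]
  have e1 : ∑ i, a (c i) * rotate (mul V U) s i ^ 2 = ∑ i, a (c i) * rotate U s i ^ 2 := by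
    simp only [rotate_mul]
    exact hV.sum_sq (w := fun i => a (c i)) (w₀ := a (Fin.last d)) (fun i hi => by rw [hS i hi]) _
  have e2 : topSq c (mul V U) s = topSq c U s := by
    simp only [topSq, rotate_mul]
    exact hV.sum_sq hm _
  have e3 : ∀ y : Fin N → ℝ, ∑ i, topMask c i * y i * rotate (mul V U) s i
      = ∑ l, topMask c l * (∑ i, V i l * y i) * rotate U s l := fun y => by
    simp only [rotate_mul, mul_sum, sum_mul]
    rw [sum_comm]
    refine sum_congr rfl fun l _ => sum_congr rfl fun i _ => ?_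
    by_cases h : i = l
    · subst h; ring
    · by_cases h' : i ∈ S ∧ l ∈ S
      · rw [hm i h'.1, hm l h'.2]; ring
      · rw [hV.2 i l (not_and_or.1 h'), if_neg h]; ring
  simp only [hamU, e1, e2, e3]
  rfl

theorem integral_move {m : Measure (Fin N → Fin N → ℝ)} (hm : IsHaarOrth m)
    {f : (Fin N → Fin N → ℝ) → ℝ} (hf : Measurable f) : ∫ U, f (mul V U) ∂m = ∫ U, f U ∂m := by
  have := hS
  conv_rhs => rw [← hm.2.2 V hV.1]
  rw [integral_map (continuous_mul V).aemeasurable hf.aestronglyMeasurable]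

/-- Root expectations move with the observable. -/
theorem gibR_move (β : ℝ) (a : Fin (d + 1) → ℝ) (σ τ : ℕ → ℝ) (U : Fin N → Fin N → ℝ)
    (φ : (Fin N → Bool) → ℝ) : gibR β a c (mul V U) k σ τ φ = gibR β a c U k σ τ φ := by
  have hb : Measurable (fun p : (Fin k → Fld N → ℝ) × (Fin N → Bool) => φ p.2) :=
    (measurable_of_countable φ).comp measurable_snd
  have h := (P157.Rsb.val_map (γ' := stdG (Fld N)) (μ' := cubeLaw N) (mp_fldMap hV.1)
    (MeasurePreserving.id (cubeLaw N)) (hamU_linB (k := k) β a c U σ τ) 0 fun _ _ => 0).2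
    (fun _ s => φ s) (Tame.of_bdd hb (B := ∑ s, |φ s|) fun _ s =>
      single_le_sum (f := fun s => |φ s|) (fun _ _ => abs_nonneg _) (mem_univ s))
  have e0 : (fun _ : Fin k => fldMap V fun _ => 0) = fun _ _ => (0 : ℝ) := by
    funext l i; rcases i with i | i <;> simp [fldMap]
  rw [e0] at h
  unfold gibR
  rw [← h]
  congr 1
  funext z s
  exact hamU_move hS hV β a σ τ U z s

end Vale.Agent.P166.Rsb.Tilt

namespace Vale.Agent.P166.Rsb.Tilt

variable {d N k : ℕ} {β : ℝ} {a : Fin (d + 1) → ℝ} {c : Fin N → Fin (d + 1)}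
  {m : Measure (Fin N → Fin N → ℝ)} {τ : ℕ → ℝ} (hm : IsHaarOrth m)

/-- The mean of an observable of the rotated configuration. -/
noncomputable def rotE (m : Measure (Fin N → Fin N → ℝ)) (k : ℕ) (β : ℝ) (a : Fin (d + 1) → ℝ)
    (c : Fin N → Fin (d + 1)) (τ : ℕ → ℝ) (q : (Fin N → ℝ) → ℝ) : ℝ :=
  gibU m k β a c (fun _ => 0) τ fun U s => q (rotate U s)

theorem meas_rotObs {q : (Fin N → ℝ) → ℝ} (hq : Continuous q) (s : Fin N → Bool) :
    Measurable fun U : Fin N → Fin N → ℝ => q (rotate U s) :=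
  (hq.comp (continuous_pi fun i => continuous_rotate s i)).measurable

theorem exists_rot_bound {q : (Fin N → ℝ) → ℝ} (hq : Continuous q) :
    ∃ B, ∀ U, IsOrth U → ∀ s, |q (rotate U s)| ≤ B := by
  obtain ⟨B, hB⟩ := (isCompact_univ_pi fun _ : Fin N => isCompact_Icc (a := -(N : ℝ)) (b := (N : ℝ)))
    |>.exists_bound_of_continuousOn hq.continuousOn
  refine ⟨B, fun U hU s => hB _ fun i _ => abs_le.1 ?_⟩
  refine (abs_sum_le_sum_abs _ _).trans ((sum_le_sum fun l _ => ?_).trans_eq (b := ∑ _l : Fin N, (1 : ℝ)) (by simp))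
  rw [abs_mul]
  refine mul_le_one₀ (hU.abs_le i l) (abs_nonneg _) (le_of_eq ?_)
  cases s l <;> simp [spin]

include hm

theorem integrable_rot {q : (Fin N → ℝ) → ℝ} (hq : Continuous q) :
    Integrable (fun U => gibR β a c U k (fun _ => 0) τ fun s => q (rotate U s)) m := by
  obtain ⟨B, hB⟩ := exists_rot_bound hq
  exact integrable_of_ae hm (gibR_meas β a c _ τ fun s => meas_rotObs hq s)
    fun U hU => abs_gibR_le β a c U _ τ (hB U hU)

theorem rotE_add {q q' : (Fin N → ℝ) → ℝ} (hq : Continuous q) (hq' : Continuous q') :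
    rotE m k β a c τ (fun y => q y + q' y) = rotE m k β a c τ q + rotE m k β a c τ q' := by
  simp only [rotE, gibU_eq, gibR_add]
  exact integral_add (integrable_rot hm hq) (integrable_rot hm hq')

theorem rotE_mul (r : ℝ) (q : (Fin N → ℝ) → ℝ) :
    rotE m k β a c τ (fun y => r * q y) = r * rotE m k β a c τ q := by
  have := hm.1
  simp only [rotE, gibU_eq, gibR_mul, integral_const_mul]

theorem rotE_sum {ι : Type*} (J : Finset ι) {q : ι → (Fin N → ℝ) → ℝ} (hq : ∀ i, Continuous (q i)) :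
    rotE m k β a c τ (fun y => ∑ i ∈ J, q i y) = ∑ i ∈ J, rotE m k β a c τ (q i) := by
  classical
  induction J using Finset.induction_on with
  | empty =>
    have h := rotE_mul (k := k) (β := β) (a := a) (c := c) (τ := τ) hm 0 fun _ => 0
    simpa using h
  | insert i J hi ih =>
    simp only [sum_insert hi]
    rw [rotE_add hm (hq i) (continuous_finsetSum _ fun l _ => hq l), ih]

theorem rotE_mono {q q' : (Fin N → ℝ) → ℝ} (hq : Continuous q) (hq' : Continuous q')
    (h : ∀ U, IsOrth U → ∀ s, q (rotate U s) ≤ q' (rotate U s)) :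
    rotE m k β a c τ q ≤ rotE m k β a c τ q' := by
  refine integral_mono_ae (integrable_rot hm hq) (integrable_rot hm hq') (hm.2.1.mono fun U hU => ?_)
  have ht : ∀ ξ : (Fin N → Bool) → ℝ, Tame (gaussSize (Fld N)) fun (_ : Fin k → Fld N → ℝ) s => ξ s :=
    fun ξ => Tame.of_bdd ((measurable_of_countable ξ).comp measurable_snd) (B := ∑ s, |ξ s|)
      fun _ s => single_le_sum (f := fun s => |ξ s|) (fun _ _ => abs_nonneg _) (mem_univ s)
  exact P157.Rsb.cnd_mono (hamU_linB β a c U _ τ) (ht _) (ht _) (fun _ s => h U hU s) 0 _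

theorem rotE_const (r : ℝ) : rotE m k β a c τ (fun _ => r) = r := by
  have := hm.1
  simp only [rotE, gibU_eq, gibR, P157.Rsb.cnd_const (hamU_linB β a c _ _ τ), integral_const,
    probReal_univ, smul_eq_mul, one_mul]

/-- Rotation invariance inside the last block: one coordinate and any unit combination. -/
theorem rotE_unit {i : Fin N} (hi : c i = Fin.last d) {ξ : Fin N → ℝ} (hξ : ξ ⬝ᵥ ξ = 1)
    (hsupp : ∀ l, c l ≠ Fin.last d → ξ l = 0) {q : ℝ → ℝ} (hq : Continuous q) :
    rotE m k β a c τ (fun y => q (∑ l, ξ l * y l)) = rotE m k β a c τ (fun y => q (y i)) := by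
  classical
  have hV := movesIn_hh (S := univ.filter fun l => c l = Fin.last d) (j := i) (by simp [hi]) hξ
    fun l hl => hsupp l (by simpa using hl)
  have hf := gibR_meas (k := k) β a c (fun _ => 0) τ
    (φ := fun U s => q (rotate U s i)) fun s => (hq.comp (continuous_rotate s i)).measurable
  show ∫ U, gibR β a c U k (fun _ => 0) τ (fun s => q (∑ l, ξ l * rotate U s l)) ∂m
    = ∫ U, gibR β a c U k (fun _ => 0) τ (fun s => q (rotate U s i)) ∂m
  rw [← integral_move (fun l hl => (mem_filter.1 hl).2) hV hm hf]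
  refine integral_congr_ae (ae_of_all _ fun U => ?_)
  dsimp only
  rw [gibR_move (fun l hl => (mem_filter.1 hl).2) hV β a]
  exact congrArg _ (funext fun s => by rw [rotate_hh hξ])

/-- The fourth moment of a coordinate of the last block. -/
theorem rotE_four {i : Fin N} (hi : c i = Fin.last d) :
    rotE m k β a c τ (fun y => y i ^ 4) ≤ 3 * (N : ℝ) ^ 2 / nTop c ^ 2 := by
  classical
  set S := univ.filter fun l => c l = Fin.last d with hSdef
  set E := rotE m k β a c τ with hE
  set e := E fun y => y i ^ 4 with he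
  have hsq : ∀ l ∈ S, E (fun y => y l ^ 4) = e := fun l hl => by
    have h := rotE_unit (k := k) (β := β) (a := a) (τ := τ) hm hi (ξ := bas l)
      (by simp [bas, dotProduct, Pi.single_apply]) (fun r hr => by
        simp only [bas, Pi.single_apply]
        exact if_neg fun (heq : r = l) => hr (by rw [heq]; exact (mem_filter.1 hl).2))
      (q := fun u => u ^ 4) (by fun_prop)
    simpa [bas, Pi.single_apply] using h
  have hpair : ∀ u ∈ S, ∀ v ∈ S, u ≠ v → e = 3 * E (fun y => y u ^ 2 * y v ^ 2) := by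
    intro u hu v hv huv
    set r := √(2⁻¹ : ℝ) with hr
    have hr2 : r ^ 2 = 2⁻¹ := sq_sqrt (by norm_num)
    have hplus : ∀ g : ℝ, g ^ 2 = 1 → E (fun y => (r * y u + g * r * y v) ^ 4) = e := fun g hg => by
      set ξ : Fin N → ℝ := fun l => (if l = u then r else 0) + if l = v then g * r else 0 with hξdef
      have hξ : ξ ⬝ᵥ ξ = 1 := by
        have : ∀ l, ξ l * ξ l = (if l = u then r ^ 2 else 0) + if l = v then g ^ 2 * r ^ 2 else 0 :=
          fun l => by
            simp only [hξdef]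
            by_cases h1 : l = u
            · subst h1; simp only [huv, if_true, if_false]; ring
            · by_cases h2 : l = v
              · subst h2; simp only [h1, if_true, if_false]; ring
              · simp [h1, h2]
        simp only [dotProduct, this, sum_add_distrib, sum_ite_eq', mem_univ, if_true, hr2, hg]
        norm_num
      have h := rotE_unit (k := k) (β := β) (a := a) (τ := τ) hm hi hξ (fun l hl => by
        simp only [hξdef]
        rw [if_neg (fun (heq : l = u) => hl (by rw [heq]; exact (mem_filter.1 hu).2)),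
          if_neg (fun (heq : l = v) => hl (by rw [heq]; exact (mem_filter.1 hv).2)),
          add_zero]) (q := fun t => t ^ 4) (by fun_prop)
      simpa [hξdef, add_mul, sum_add_distrib, ite_mul, sum_ite_eq'] using h
    have h1 := hplus 1 (by norm_num)
    have h2 := hplus (-1) (by norm_num)
    have hadd : E (fun y => (r * y u + 1 * r * y v) ^ 4) + E (fun y => (r * y u + -1 * r * y v) ^ 4)
        = E (fun y => y u ^ 4) * (1 / 2) + 3 * E (fun y => y u ^ 2 * y v ^ 2) + E (fun y => y v ^ 4) * (1 / 2) := by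
      simp only [hE]
      rw [← rotE_add hm (by fun_prop) (by fun_prop)]
      have e4 : ∀ y : Fin N → ℝ, (r * y u + 1 * r * y v) ^ 4 + (r * y u + -1 * r * y v) ^ 4
          = (1 / 2) * y u ^ 4 + 3 * (y u ^ 2 * y v ^ 2) + (1 / 2) * y v ^ 4 := fun y => by
        linear_combination (2 * (y u ^ 4 + 6 * y u ^ 2 * y v ^ 2 + y v ^ 4) * (r ^ 2 + 2⁻¹)) * hr2
      simp only [e4]
      rw [rotE_add hm (by fun_prop) (by fun_prop), rotE_add hm (by fun_prop) (by fun_prop),
        rotE_mul hm, rotE_mul hm, rotE_mul hm]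
      ring
    rw [h1, h2, hsq u hu, hsq v hv] at hadd
    linarith
  have htot : E (fun y => (∑ u ∈ S, y u ^ 2) ^ 2) ≤ (N : ℝ) ^ 2 := by
    refine (rotE_mono hm (by fun_prop) (q' := fun _ => (N : ℝ) ^ 2) continuous_const fun U hU s => ?_).trans_eq
      (rotE_const hm _)
    refine pow_le_pow_left₀ (sum_nonneg fun _ _ => sq_nonneg _) ?_ 2
    exact (sum_le_sum_of_subset_of_nonneg (subset_univ S) fun _ _ _ => sq_nonneg _).trans_eq
      (sum_sq_rotate hU s)
  have hexp : E (fun y => (∑ u ∈ S, y u ^ 2) ^ 2) = ∑ u ∈ S, ∑ v ∈ S, E (fun y => y u ^ 2 * y v ^ 2) := by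
    simp only [sq (∑ u ∈ S, _ ^ 2), sum_mul_sum, hE]
    rw [rotE_sum hm S fun u => by fun_prop]
    exact sum_congr rfl fun u _ => rotE_sum hm S fun v => by fun_prop
  have hterm : ∀ u ∈ S, ∀ v ∈ S, e / 3 ≤ E (fun y => y u ^ 2 * y v ^ 2) := fun u hu v hv => by
    rcases eq_or_ne u v with rfl | h
    · have he0 : 0 ≤ e := (rotE_const (k := k) (β := β) (a := a) (c := c) (τ := τ) hm 0).symm.le.trans
        (rotE_mono hm continuous_const (by fun_prop) fun U _ s => by positivity)
      have : (fun y : Fin N → ℝ => y u ^ 2 * y u ^ 2) = fun y => y u ^ 4 := funext fun y => by ring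
      rw [this, hsq u hu]
      linarith
    · linarith [hpair u hu v hv h]
  have hn : (S.card : ℝ) = nTop c := by simp [nTop, blockCard, hSdef]
  have hpos : 0 < nTop c := by
    rw [← hn]; exact_mod_cast card_pos.2 ⟨i, by simp [hSdef, hi]⟩
  have h := sum_le_sum fun u hu => sum_le_sum fun v hv => hterm u hu v hv
  simp only [sum_const, nsmul_eq_mul, hn, ← hexp] at h
  rw [le_div_iff₀ (by positivity)]
  linarith [h.trans htot]

end Vale.Agent.P166.Rsb.Tilt
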