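import Vale.Agent.P166.Rsb.Cav.TiltField
import Vale.Agent.P166.Rsb.Cav.TiltHaar

/-!
# P166: systems with some specials replaced by fields
-/

open MeasureTheory ProbabilityTheory Real Finset
open Vale.Agent.P157 (cubeLaw coin)
open Vale.Agent.P157.Rsb
open Vale.Agent.P166.Rsb.Slot (kerFld Sys)

namespace Vale.Agent.P166.Rsb.Tilt

/-- The coordinates of a level. -/
abbrev HIdx (N p : ℕ) := Fld N ⊕ (Fin p ⊕ Unit)

/-- The leaves. -/
abbrev HLeaf (N p : ℕ) := (Fin N → Bool) × ((Fin p → ℝ) × Bool)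

/-- The law of the leaves. -/
noncomputable abbrev hLaw (N p : ℕ) : Measure (HLeaf N p) := (cubeLaw N).prod ((stdG (Fin p)).prod coin)

/-- The data of a tilt with potentials `φ` at kernel `K`, `P`. -/
structure Dat (N d p : ℕ) where
  /-- inverse temperature -/
  β : ℝ
  /-- values of the blocks -/
  a : Fin (d + 1) → ℝ
  /-- blocks -/
  c : Fin N → Fin (d + 1)
  /-- amplitudes -/
  τ : ℕ → ℝ
  /-- specials -/
  sp : Fin p → Fin N
  /-- potentials -/
  φ : ℝ → ℝ → ℝ
  /-- tilts -/
  T : Fin p → ℝ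
  /-- couplings -/
  b : Fin p → ℝ
  /-- kernel -/
  K : ℕ → ℝ
  /-- diagonal -/
  P : ℝ
  /-- level of the field on the new spin -/
  j : ℕ
  /-- its variance -/
  s : ℝ

variable {d N k p : ℕ} (D : Dat N d p) (U : Fin N → Fin N → ℝ)

/-- The system without potentials. -/
noncomputable def Dat.base (z : Fin k → HIdx N p → ℝ) (x : HLeaf N p) : ℝ :=
  hamU D.β D.a D.c (fun _ => 0) D.τ U (zl z) x.1 + auxH k D.j D.s (zr (zr z)) x.2.2

/-- One potential: a field for `r ∈ S`, the special coordinate otherwise. -/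
noncomputable def Dat.term (S : Finset (Fin p)) (r : Fin p) (z : Fin k → HIdx N p → ℝ) (x : HLeaf N p) : ℝ :=
  D.φ (D.T r) ((if r ∈ S then kerFld k D.K D.P (fun l => z l (.inr (.inl r))) (x.2.1 r)
    else rotate U x.1 (D.sp r)) + sh (D.T r) (D.b r) (spin x.2.2))

/-- The system with the potentials of `J`. -/
noncomputable def Dat.hyb (J S : Finset (Fin p)) (z : Fin k → HIdx N p → ℝ) (x : HLeaf N p) : ℝ :=
  D.base U z x + ∑ r ∈ J, D.term U S r z x

/-- The value of the system. -/
noncomputable def Dat.hybV (k : ℕ) (J S : Finset (Fin p)) : ℝ :=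
  val (stdG (HIdx N p)) (hLaw N p) (D.hyb (k := k) U J S) 0 fun _ _ => 0

/-- Bounded measurable potentials. -/
def Dat.Bdd (Bp : ℝ) : Prop := ∀ r, Measurable (D.φ (D.T r)) ∧ ∀ u, |D.φ (D.T r) u| ≤ Bp

theorem Dat.linB_base : LinB (gaussSize (HIdx N p)) (D.base (k := k) U) :=
  linB_split (hamU_linB D.β D.a D.c U (fun _ => 0) D.τ) (base_linB k p D.j D.s)

theorem measurable_rotate (i : Fin N) :
    Measurable fun q : (Fin N → Fin N → ℝ) × (Fin N → Bool) => rotate q.1 q.2 i :=
  measurable_from_prod_countable_left fun s => (continuous_rotate s i).measurable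

variable {Bp : ℝ}

theorem Dat.term_meas (hD : D.Bdd Bp) (S : Finset (Fin p)) (r : Fin p) :
    Measurable fun q : ((Fin N → Fin N → ℝ) × (Fin k → HIdx N p → ℝ)) × HLeaf N p =>
      D.term q.1.1 S r q.1.2 q.2 := by
  unfold Dat.term
  refine (hD r).1.comp (Measurable.add ?_ ?_)
  · by_cases h : r ∈ S
    · simp only [if_pos h, kerFld]; fun_prop
    · simp only [if_neg h]
      exact (measurable_rotate (D.sp r)).comp
        ((measurable_fst.comp measurable_fst).prodMk (measurable_fst.comp measurable_snd))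
  · exact (measurable_of_countable fun x : Bool => sh (D.T r) (D.b r) (spin x)).comp
      (measurable_snd.comp (measurable_snd.comp measurable_snd))

theorem Dat.base_meas : Measurable fun q : ((Fin N → Fin N → ℝ) × (Fin k → HIdx N p → ℝ)) × HLeaf N p =>
    D.base q.1.1 q.1.2 q.2 := by
  refine Measurable.add ?_ ?_
  · exact (hamU_meas D.β D.a D.c (fun _ => 0) D.τ).comp
      (f := fun q : ((Fin N → Fin N → ℝ) × (Fin k → HIdx N p → ℝ)) × HLeaf N p =>
        ((q.1.1, zl q.1.2), q.2.1))
      (((measurable_fst.comp measurable_fst).prodMk (measurable_zl.comp (measurable_snd.comp measurable_fst))).prodMk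
        (measurable_fst.comp measurable_snd))
  · exact (auxH_linB k D.j D.s).meas.comp
      (f := fun q : ((Fin N → Fin N → ℝ) × (Fin k → HIdx N p → ℝ)) × HLeaf N p =>
        (zr (zr q.1.2), q.2.2.2))
      ((measurable_zr.comp (measurable_zr.comp (measurable_snd.comp measurable_fst))).prodMk
        (measurable_snd.comp (measurable_snd.comp measurable_snd)))

theorem Dat.hyb_meas (hD : D.Bdd Bp) (J S : Finset (Fin p)) :
    Measurable fun q : ((Fin N → Fin N → ℝ) × (Fin k → HIdx N p → ℝ)) × HLeaf N p =>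
      D.hyb q.1.1 J S q.1.2 q.2 :=
  D.base_meas.add (Finset.measurable_sum _ fun r _ => D.term_meas hD S r)

theorem Dat.abs_hyb_sub (hD : D.Bdd Bp) (J S : Finset (Fin p)) (z : Fin k → HIdx N p → ℝ)
    (x : HLeaf N p) : |D.hyb U J S z x - D.base U z x| ≤ J.card * Bp := by
  rw [Dat.hyb, add_sub_cancel_left, ← nsmul_eq_mul, ← sum_const]
  exact (abs_sum_le_sum_abs _ _).trans (sum_le_sum fun r _ => (hD r).2 _)

theorem Dat.hyb_linB (hD : D.Bdd Bp) (J S : Finset (Fin p)) :
    LinB (gaussSize (HIdx N p)) (D.hyb (k := k) U J S) := by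
  refine linB_add_bdd (D.linB_base U) ?_ (L := J.card * Bp) fun z x => ?_
  · simp only [Function.uncurry_def]
    exact Finset.measurable_sum _ fun r _ => (D.term_meas hD S r).comp
      (f := fun q : (Fin k → HIdx N p → ℝ) × HLeaf N p => ((U, q.1), q.2))
      (((measurable_const (a := U)).prodMk measurable_fst).prodMk measurable_snd)
  · rw [← nsmul_eq_mul, ← sum_const]
    exact (abs_sum_le_sum_abs _ _).trans (sum_le_sum fun r _ => (hD r).2 _)

theorem Dat.hybV_meas (hD : D.Bdd Bp) (J S : Finset (Fin p)) :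
    Measurable fun U => D.hybV U k J S :=
  val_measurable_param_at (D.hyb_meas hD J S) 0 _

/-- The value of the system without potentials. -/
theorem Dat.val_base :
    val (stdG (HIdx N p)) (hLaw N p) (D.base (k := k) U) 0 (fun _ _ => 0)
      = rootU k D.β D.a D.c (fun _ => 0) D.τ U
        + val (stdG (Fin p ⊕ Unit)) ((stdG (Fin p)).prod coin)
            (fun (z : Fin k → Fin p ⊕ Unit → ℝ) x => auxH k D.j D.s (zr z) x.2) 0 fun _ _ => 0 :=
  (val_split (hamU_linB D.β D.a D.c U (fun _ => 0) D.τ) (base_linB k p D.j D.s) 0 _).1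

theorem Dat.abs_hybV_sub (hD : D.Bdd Bp) (J S : Finset (Fin p)) :
    |D.hybV U k J S - val (stdG (HIdx N p)) (hLaw N p) (D.base (k := k) U) 0 (fun _ _ => 0)|
      ≤ J.card * Bp :=
  val_close (D.linB_base U) (D.hyb_linB U hD J S) (D.abs_hyb_sub U hD J S) 0 _

theorem Dat.hybV_integrable {m : Measure (Fin N → Fin N → ℝ)} (hm : IsHaarOrth m) (hD : D.Bdd Bp)
    (J S : Finset (Fin p)) : Integrable (fun U => D.hybV U k J S) m := by
  have := hm.1
  set v := val (stdG (Fin p ⊕ Unit)) ((stdG (Fin p)).prod coin)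
    (fun (z : Fin k → Fin p ⊕ Unit → ℝ) x => auxH k D.j D.s (zr z) x.2) 0 fun _ _ => 0
  refine ((rootU_integrable D.β D.a D.c hm (k := k) (fun _ => 0) D.τ).abs.add
    (integrable_const (|v| + J.card * Bp))).mono' (D.hybV_meas hD J S).aestronglyMeasurable
    (ae_of_all _ fun U => ?_)
  have h := abs_le.1 (D.abs_hybV_sub (k := k) U hD J S)
  rw [D.val_base U] at h
  simp only [Pi.add_apply, Real.norm_eq_abs, abs_le]
  constructor <;> linarith [h.1, h.2, le_abs_self v, neg_abs_le v,
    le_abs_self (rootU k D.β D.a D.c (fun _ => 0) D.τ U), neg_abs_le (rootU k D.β D.a D.c (fun _ => 0) D.τ U)]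

/-- With all specials replaced the system splits. -/
theorem Dat.hybV_univ (hD : D.Bdd Bp) :
    D.hybV U k univ univ = rootU k D.β D.a D.c (fun _ => 0) D.τ U
      + fieldV k D.φ D.T D.b D.K D.P D.j D.s := by
  have hK : LinB (gaussSize (Fin p ⊕ Unit)) (fieldH (k := k) D.φ D.T D.b D.K D.P D.j D.s) :=
    Energy.linB_pot (base_linB k p D.j D.s) (fldPot_bpot D.T D.b (fun r => (hD r).1) (fun r u => (hD r).2 u) D.K D.P)
  refine Eq.trans ?_ (val_split (hamU_linB D.β D.a D.c U (fun _ => 0) D.τ) hK 0 fun _ _ => 0).1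
  unfold Dat.hybV
  congr 1
  funext z x
  simp only [Dat.hyb, Dat.base, Dat.term, fieldH, fldPot, mem_univ, if_true, zr]
  ring

/-- The overlap of a coordinate set. -/
noncomputable def ovIn (T' : Finset (Fin N)) (U : Fin N → Fin N → ℝ) (x y : Fin N → Bool) : ℝ :=
  (∑ i ∈ T', rotate U x i * rotate U y i) / T'.card

/-- The error of the kernel on a coordinate set at a fixed rotation. -/
noncomputable def Dat.kerR (k : ℕ) (T' : Finset (Fin N)) : ℝ :=
  P157.Rsb.mass k * (∑ l ∈ Icc 0 k, pairR D.β D.a D.c U k (fun _ => 0) D.τ l fun x y => |ovIn T' U x y - D.K l|)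
    + 2 * gibR D.β D.a D.c U k (fun _ => 0) D.τ fun x => |ovIn T' U x x - D.P|

theorem Dat.kerR_integrable {m : Measure (Fin N → Fin N → ℝ)} (hm : IsHaarOrth m) (T' : Finset (Fin N)) :
    Integrable (fun U => D.kerR U k T') m := by
  have hmo : ∀ x y, Measurable fun U : Fin N → Fin N → ℝ => ovIn T' U x y := fun x y => by
    unfold ovIn rotate; fun_prop
  have hb : ∀ U, IsOrth U → ∀ x y, |ovIn T' U x y| ≤ N := fun U hU x y => by
    rw [ovIn, abs_div, Nat.abs_cast]
    rcases Nat.eq_zero_or_pos T'.card with h | h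
    · simp [h]
    · refine (div_le_self (abs_nonneg _) (by exact_mod_cast h)).trans ((abs_sum_le_sum_abs _ _).trans ?_)
      refine (sum_le_sum_of_subset_of_nonneg (subset_univ T') fun i _ _ => abs_nonneg _).trans ?_
      refine le_of_le_of_eq (sum_le_sum (g := fun i => (rotate U x i ^ 2 + rotate U y i ^ 2) / 2)
        fun i _ => ?_) (by rw [← sum_div, sum_add_distrib, sum_sq_rotate hU, sum_sq_rotate hU]; ring)
      rw [abs_le]
      constructor <;> nlinarith [sq_nonneg (rotate U x i + rotate U y i), sq_nonneg (rotate U x i - rotate U y i)]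
  have i1 : ∀ l, Integrable (fun U => pairR D.β D.a D.c U k (fun _ => 0) D.τ l
      fun x y => |ovIn T' U x y - D.K l|) m := fun l =>
    integrable_of_ae hm (pairR_meas D.β D.a D.c _ D.τ l fun x y => ((hmo x y).sub_const _).abs)
      (C := N + |D.K l|) fun U hU => abs_pairR_le D.β D.a D.c U _ D.τ l fun x y => by
        rw [abs_abs]; exact (abs_sub _ _).trans (add_le_add (hb U hU x y) le_rfl)
  have i2 : Integrable (fun U => gibR D.β D.a D.c U k (fun _ => 0) D.τ fun x => |ovIn T' U x x - D.P|) m :=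
    integrable_of_ae hm (gibR_meas D.β D.a D.c _ D.τ fun x => ((hmo x x).sub_const _).abs)
      (C := N + |D.P|) fun U hU => abs_gibR_le D.β D.a D.c U _ D.τ fun x => by
        rw [abs_abs]; exact (abs_sub _ _).trans (add_le_add (hb U hU x x) le_rfl)
  exact ((integrable_finsetSum _ fun l _ => i1 l).const_mul _).add (i2.const_mul _)

/-- The system of the row that replaces the special `r₀`. -/
noncomputable def Dat.rowSys (hD : D.Bdd Bp) (S : Finset (Fin p)) (r₀ : Fin p) (T' : Finset (Fin N)) :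
    Sys k T'.card (HIdx N p) (HLeaf N p) where
  H := D.hyb U (univ.erase r₀) S
  H_lin := D.hyb_linB U hD _ S
  p x i := rotate U x.1 (T'.equivFin.symm i) / √T'.card
  p_meas := (measurable_of_countable fun s : Fin N → Bool => fun i =>
    rotate U s (T'.equivFin.symm i) / √T'.card).comp measurable_fst
  p_bdd := ⟨∑ s, ∑ i, |rotate U s (T'.equivFin.symm i) / √T'.card|, by positivity, fun x i =>
    (single_le_sum (f := fun i => |rotate U x.1 (T'.equivFin.symm i) / √T'.card|) (fun _ _ => abs_nonneg _)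
      (mem_univ i)).trans (single_le_sum (f := fun s => ∑ i, |rotate U s (T'.equivFin.symm i) / √T'.card|)
      (fun _ _ => by positivity) (mem_univ x.1))⟩
  off x := sh (D.T r₀) (D.b r₀) (spin x.2.2)
  off_meas := (measurable_of_countable fun x : Bool => sh (D.T r₀) (D.b r₀) (spin x)).comp
    (measurable_snd.comp measurable_snd)
  off_bdd := ⟨|sh (D.T r₀) (D.b r₀) 1| + |sh (D.T r₀) (D.b r₀) (-1)|, by positivity, fun x => by
    cases x.2.2 <;> simp [spin]⟩

theorem Dat.sdot_rowSys (hD : D.Bdd Bp) (S : Finset (Fin p)) (r₀ : Fin p) (T' : Finset (Fin N))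
    (x y : HLeaf N p) :
    sdot ((D.rowSys (k := k) U hD S r₀ T').p x) ((D.rowSys (k := k) U hD S r₀ T').p y)
      = ovIn T' U x.1 y.1 := by
  simp only [sdot, Dat.rowSys, ovIn, div_mul_div_comm, Real.mul_self_sqrt (Nat.cast_nonneg T'.card), ← sum_div]
  congr 1
  rw [← sum_coe_sort T' fun i => rotate U x.1 i * rotate U y.1 i]
  exact T'.equivFin.symm.sum_comp fun i : T' => rotate U x.1 i * rotate U y.1 i

/-- The error of the row system is that of the base, up to the factor of the tilt. -/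
theorem Dat.totK_le (hD : D.Bdd Bp) (S : Finset (Fin p)) (r₀ : Fin p) (T' : Finset (Fin N)) :
    (D.rowSys (k := k) U hD S r₀ T').totK (hLaw N p) D.K D.P
      ≤ exp (4 * (p * Bp)) * D.kerR U k T' := by
  set Sy := D.rowSys (k := k) U hD S r₀ T' with hSy
  have hB0 : 0 ≤ Bp := (abs_nonneg _).trans ((hD r₀).2 0)
  have hL : ∀ z x, |Sy.H z x - D.base U z x| ≤ p * Bp := fun z x =>
    (D.abs_hyb_sub U hD _ S z x).trans (mul_le_mul_of_nonneg_right (by
      exact_mod_cast (card_le_univ _).trans (le_of_eq (Fintype.card_fin p))) hB0)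
  have hamL := hamU_linB (k := k) D.β D.a D.c U (fun _ => 0) D.τ
  have hK : ∀ l, l ≤ k → Sy.kerErr (hLaw N p) D.K l ≤ exp (4 * (p * Bp)) *
      pairR D.β D.a D.c U k (fun _ => 0) D.τ l fun x y => |ovIn T' U x y - D.K l| := fun l hl => by
    obtain ⟨hm, K₀, hK₀⟩ := Sy.kerFn_ok (D.K l)
    refine (rootPair_tilt (ψ := fun x y => |sdot (Sy.p x) (Sy.p y) - D.K l|) (D.linB_base U) Sy.H_lin hL hm
      (fun _ _ => abs_nonneg _) hK₀ hl _).trans
      (le_of_eq (congrArg _ ?_))
    simp only [hSy, D.sdot_rowSys]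
    exact rootPair_split hamL (base_linB k p D.j D.s) (ψ := fun x y => |ovIn T' U x y - D.K l|)
      (measurable_of_countable _) (B := ∑ x, ∑ y, |(|ovIn T' U x y - D.K l|)|)
      (fun x y => (single_le_sum (f := fun y => |(|ovIn T' U x y - D.K l|)|) (fun _ _ => abs_nonneg _)
        (mem_univ y)).trans (single_le_sum (f := fun x => ∑ y, |(|ovIn T' U x y - D.K l|)|)
        (fun _ _ => by positivity) (mem_univ x))) l
  have hd : Sy.diagErr (hLaw N p) D.P ≤ exp (4 * (p * Bp)) *
      gibR D.β D.a D.c U k (fun _ => 0) D.τ fun x => |ovIn T' U x x - D.P| := by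
    set φ : (Fin k → Fld N → ℝ) → (Fin N → Bool) → ℝ := fun _ x => |ovIn T' U x x - D.P| with hφ
    have hT : Tame (gaussSize (Fld N)) φ := Tame.of_bdd ((measurable_of_countable _).comp measurable_snd)
      (B := ∑ x, |(|ovIn T' U x x - D.P|)|) fun _ x =>
      single_le_sum (f := fun x => |(|ovIn T' U x x - D.P|)|) (fun _ _ => abs_nonneg _) (mem_univ x)
    have e : (fun (_ : Fin k → HIdx N p → ℝ) x => |sdot (Sy.p x) (Sy.p x) - D.P|)
        = fun z (x : HLeaf N p) => φ (zl z) x.1 := by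
      funext z x; simp only [hSy, D.sdot_rowSys, hφ]
    rw [Sys.diagErr, e]
    refine (cnd_tilt (D.linB_base U) Sy.H_lin (tame_left hT) (fun _ _ => abs_nonneg _) hL
      (Nat.zero_le k) _).trans (mul_le_mul (exp_le_exp.2 (by nlinarith [(Nat.cast_nonneg p : (0 : ℝ) ≤ _)]))
        (le_of_eq ((val_split hamL (base_linB k p D.j D.s) 0 _).2 φ hT))
        (cnd_nonneg (fun _ _ => abs_nonneg _) 0 _) (exp_pos _).le)
  rw [Sys.totK, Dat.kerR]
  refine (add_le_add (mul_le_mul_of_nonneg_left (sum_le_sum fun l hl => hK l (mem_Icc.1 hl).2)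
    P157.Rsb.mass_pos.le) (mul_le_mul_of_nonneg_left hd zero_le_two)).trans (le_of_eq ?_)
  rw [← mul_sum]
  ring

end Vale.Agent.P166.Rsb.Tilt
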